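import Vale.Agent.P359.Gap.Ladder

/-!
# P359, gap: the channels `0, 1, 3` do not occur

Three fermions have no highest weight vector of degree `1`, `2` or `4`, so the component of
`toImp φ` in channel `r ∈ {0, 1, 3}` of the impurity and any particle vanishes for antisymmetric `φ`.
-/

open Finset
open scoped Classical

namespace Vale.Agent.P359.Gap.C013

/-- The three-factor vector of channel `r` and degree `Z`. -/
noncomputable def tri (Q r Z i j l : ℕ) : ℝ :=
  ∑ M ∈ range (impChg Q + 1), Jc r (impChg Q) Q M l Z * Jc 1 Q Q i j M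

/-- Six times the antisymmetric part. -/
def alt (T : ℕ → ℕ → ℕ → ℝ) (i j l : ℕ) : ℝ :=
  T i j l + T j l i + T l i j - T j i l - T i l j - T l j i

/-- Lowering of three particles. -/
noncomputable def low3 (Q : ℕ) (T : ℕ → ℕ → ℕ → ℝ) (i j l : ℕ) : ℝ :=
  lower Q i * T (i + 1) j l + lower Q j * T i (j + 1) l + lower Q l * T i j (l + 1)

/-- Raising of three particles. -/
noncomputable def raise3 (Q : ℕ) (T : ℕ → ℕ → ℕ → ℝ) (i j l : ℕ) : ℝ :=
  (if 0 < i then lower Q (i - 1) * T (i - 1) j l else 0) +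
    (if 0 < j then lower Q (j - 1) * T i (j - 1) l else 0) +
    (if 0 < l then lower Q (l - 1) * T i j (l - 1) else 0)

lemma alt_raise3 (Q : ℕ) (T : ℕ → ℕ → ℕ → ℝ) (i j l : ℕ) :
    alt (raise3 Q T) i j l = raise3 Q (alt T) i j l := by
  simp only [alt, raise3]
  split_ifs <;> ring

lemma alt_low3 (Q : ℕ) (T : ℕ → ℕ → ℕ → ℝ) (i j l : ℕ) :
    alt (low3 Q T) i j l = low3 Q (alt T) i j l := by
  simp only [alt, low3]
  ring

lemma lower_pos' {a k : ℕ} (h : k < a) : 0 < lower a k := by
  have : (k : ℝ) < a := by exact_mod_cast h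
  exact Real.sqrt_pos.2 (mul_pos (by positivity) (by linarith))

lemma lower_self (a : ℕ) : lower a a = 0 := by
  simp [lower]

lemma tri_deg {Q r Z i j l : ℕ} (h : i + j + l ≠ r + 1 + Z) : tri Q r Z i j l = 0 := by
  refine Finset.sum_eq_zero fun M _ => ?_
  by_cases h1 : M + l = r + Z
  · rw [jc_eq_zero (i := i) (j := j) (by omega), mul_zero]
  · rw [jc_eq_zero h1, zero_mul]

/-- Summation by parts in the index of the impurity. -/
lemma sum_shift (c : ℕ) (F G : ℕ → ℝ) :
    ∑ M ∈ range (c + 1), F M * (if 0 < M then lower c (M - 1) * G (M - 1) else 0) =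
      ∑ M ∈ range (c + 1), lower c M * F (M + 1) * G M := by
  rw [Finset.sum_range_succ' (fun M => F M * (if 0 < M then lower c (M - 1) * G (M - 1) else 0)),
    Finset.sum_range_succ (fun M => lower c M * F (M + 1) * G M), lower_self]
  simp only [Nat.lt_irrefl, if_false, mul_zero, add_zero, zero_mul, Nat.succ_pos, if_true,
    Nat.add_sub_cancel]
  exact Finset.sum_congr rfl fun M _ => by ring

lemma tri_low {Q r : ℕ} (hQ : 1 ≤ Q) (hr : r ≤ impChg Q) (hr' : r ≤ Q) (i j l : ℕ) :
    low3 Q (tri Q r 0) i j l = 0 := by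
  have hc : Q + Q - 2 * 1 = impChg Q := by unfold impChg; omega
  have h1 : ∀ M, lower Q i * Jc 1 Q Q (i + 1) j M + lower Q j * Jc 1 Q Q i (j + 1) M =
      if 0 < M then lower (impChg Q) (M - 1) * Jc 1 Q Q i j (M - 1) else 0 := by
    rintro (_ | M)
    · simpa using jc_lower_zero hQ hQ i j
    · rw [if_pos M.succ_pos, Nat.add_sub_cancel, jc_lower hQ hQ, hc]
  calc low3 Q (tri Q r 0) i j l
      = ∑ M ∈ range (impChg Q + 1), Jc r (impChg Q) Q M l 0 *
            (if 0 < M then lower (impChg Q) (M - 1) * Jc 1 Q Q i j (M - 1) else 0) +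
          ∑ M ∈ range (impChg Q + 1),
            lower Q l * Jc r (impChg Q) Q M (l + 1) 0 * Jc 1 Q Q i j M := by
        simp only [low3, tri, Finset.mul_sum, ← Finset.sum_add_distrib]
        exact Finset.sum_congr rfl fun M _ => by rw [← h1 M]; ring
    _ = 0 := by
        rw [sum_shift (impChg Q) (fun M => Jc r (impChg Q) Q M l 0) (fun M => Jc 1 Q Q i j M),
          ← Finset.sum_add_distrib]
        refine Finset.sum_eq_zero fun M _ => ?_
        rw [← add_mul, jc_lower_zero hr hr', zero_mul]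

lemma tri_raise {Q r : ℕ} (hQ : 1 ≤ Q) (hr : r ≤ impChg Q) (hr' : r ≤ Q) (Z i j l : ℕ) :
    lower (impChg Q + Q - 2 * r) Z * tri Q r (Z + 1) i j l = raise3 Q (tri Q r Z) i j l := by
  have hc : Q + Q - 2 * 1 = impChg Q := by unfold impChg; omega
  have h1 : ∀ M, lower (impChg Q) M * Jc 1 Q Q i j (M + 1) =
      (if 0 < i then lower Q (i - 1) * Jc 1 Q Q (i - 1) j M else 0) +
        (if 0 < j then lower Q (j - 1) * Jc 1 Q Q i (j - 1) M else 0) := fun M => by
    rw [jc_raise hQ hQ, hc]
  have h2 : ∀ M, lower (impChg Q + Q - 2 * r) Z * Jc r (impChg Q) Q M l (Z + 1) =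
      (if 0 < M then lower (impChg Q) (M - 1) * Jc r (impChg Q) Q (M - 1) l Z else 0) +
        (if 0 < l then lower Q (l - 1) * Jc r (impChg Q) Q M (l - 1) Z else 0) := fun M => by
    rw [jc_raise hr hr']
  calc lower (impChg Q + Q - 2 * r) Z * tri Q r (Z + 1) i j l
      = ∑ M ∈ range (impChg Q + 1), Jc 1 Q Q i j M *
            (if 0 < M then lower (impChg Q) (M - 1) * Jc r (impChg Q) Q (M - 1) l Z else 0) +
          ∑ M ∈ range (impChg Q + 1),
            (if 0 < l then lower Q (l - 1) * Jc r (impChg Q) Q M (l - 1) Z else 0) *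
              Jc 1 Q Q i j M := by
        simp only [tri, Finset.mul_sum, ← Finset.sum_add_distrib]
        exact Finset.sum_congr rfl fun M _ => by rw [← mul_assoc, h2 M]; ring
    _ = _ := by
        rw [sum_shift (impChg Q) (fun M => Jc 1 Q Q i j M) (fun M => Jc r (impChg Q) Q M l Z),
          ← Finset.sum_add_distrib]
        have key : ∀ M, lower (impChg Q) M * Jc 1 Q Q i j (M + 1) * Jc r (impChg Q) Q M l Z +
            (if 0 < l then lower Q (l - 1) * Jc r (impChg Q) Q M (l - 1) Z else 0) *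
              Jc 1 Q Q i j M =
            (if 0 < i then lower Q (i - 1) * (Jc r (impChg Q) Q M l Z * Jc 1 Q Q (i - 1) j M)
              else 0) +
            (if 0 < j then lower Q (j - 1) * (Jc r (impChg Q) Q M l Z * Jc 1 Q Q i (j - 1) M)
              else 0) +
            (if 0 < l then lower Q (l - 1) * (Jc r (impChg Q) Q M (l - 1) Z * Jc 1 Q Q i j M)
              else 0) := fun M => by
          rw [h1 M]
          split_ifs <;> ring
        rw [Finset.sum_congr rfl fun M _ => key M]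
        simp only [raise3, tri, Finset.sum_add_distrib, Finset.mul_sum, Finset.sum_ite_irrel,
          Finset.sum_const_zero]

lemma alt_013 {Q r : ℕ} (hQ : 3 ≤ Q) (hr : r ≤ impChg Q) (hr' : r ≤ Q) :
    alt (tri Q r 0) 0 1 3 = 0 := by
  have h : low3 Q (alt (tri Q r 0)) 0 1 2 = 0 := by
    rw [← alt_low3]
    simp only [alt, tri_low (by omega : 1 ≤ Q) hr hr']
    ring
  have e1 : alt (tri Q r 0) 1 1 2 = 0 := by simp only [alt]; ring
  have e2 : alt (tri Q r 0) 0 2 2 = 0 := by simp only [alt]; ring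
  have hp : 0 < lower Q 2 := lower_pos' (by omega)
  simp only [low3, show (0 : ℕ) + 1 = 1 from rfl, show (1 : ℕ) + 1 = 2 from rfl,
    show (2 : ℕ) + 1 = 3 from rfl, e1, e2, mul_zero, zero_add] at h
  exact (mul_eq_zero.1 h).resolve_left hp.ne'

lemma alt_zero_base {Q r : ℕ} (hQ : 3 ≤ Q) (hr : r ∈ ({0, 1, 3} : Finset ℕ)) (i j l : ℕ) :
    alt (tri Q r 0) i j l = 0 := by
  have hr3 : r ≤ 3 := by fin_cases hr <;> norm_num
  by_cases hd : i + j + l = r + 1
  · have h := alt_013 (r := r) hQ (by unfold impChg; omega) (by omega)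
    simp only [Finset.mem_insert, Finset.mem_singleton] at hr
    simp only [alt] at h
    have hi : i ≤ 4 := by omega
    have hj : j ≤ 4 := by omega
    obtain rfl : l = r + 1 - i - j := by omega
    rcases hr with rfl | rfl | rfl <;> interval_cases i <;> interval_cases j <;>
      (simp only [alt, Nat.reduceAdd, Nat.reduceSub] at h ⊢; linarith)
  · simp only [alt]
    rw [tri_deg (by omega), tri_deg (by omega), tri_deg (by omega), tri_deg (by omega),
      tri_deg (by omega), tri_deg (by omega)]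
    ring

lemma alt_zero {Q r : ℕ} (hQ : 3 ≤ Q) (hr : r ∈ ({0, 1, 3} : Finset ℕ)) :
    ∀ Z, Z ≤ impChg Q + Q - 2 * r → ∀ i j l, alt (tri Q r Z) i j l = 0 := by
  have hr3 : r ≤ 3 := by fin_cases hr <;> norm_num
  intro Z
  induction Z with
  | zero => exact fun _ => alt_zero_base hQ hr
  | succ Z ih =>
    intro hZ i j l
    have h0 : alt (tri Q r Z) = fun _ _ _ => 0 :=
      funext fun i => funext fun j => funext fun l => ih (by omega) i j l
    have h1 : lower (impChg Q + Q - 2 * r) Z * alt (tri Q r (Z + 1)) i j l =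
        alt (raise3 Q (tri Q r Z)) i j l := by
      simp only [alt, ← tri_raise (show 1 ≤ Q by omega)
        (show r ≤ impChg Q by unfold impChg; omega) (show r ≤ Q by omega)]
      ring
    rw [alt_raise3, h0] at h1
    have h2 : raise3 Q (fun _ _ _ => (0 : ℝ)) i j l = 0 := by simp [raise3]
    exact (mul_eq_zero.1 (h1.trans h2)).resolve_left (lower_pos' (by omega)).ne'

/-- The contraction of an antisymmetric function with a vector whose antisymmetric part is `0`. -/
lemma contract_zero {n : ℕ} (T : ℕ → ℕ → ℕ → ℝ) (F : Fin n → Fin n → Fin n → ℝ)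
    (hT : ∀ i j l, alt T i j l = 0) (h12 : ∀ i j l, F j i l = -F i j l)
    (h23 : ∀ i j l, F i l j = -F i j l) :
    ∑ i : Fin n, ∑ j : Fin n, ∑ l : Fin n, T (i : ℕ) (j : ℕ) (l : ℕ) * F i j l = 0 := by
  have h0 : ∑ i : Fin n, ∑ j : Fin n, ∑ l : Fin n, alt T (i : ℕ) (j : ℕ) (l : ℕ) * F i j l = 0 := by simp [hT]
  have s12 : ∀ G : Fin n → Fin n → Fin n → ℝ,
      ∑ i : Fin n, ∑ j : Fin n, ∑ l : Fin n, G j i l = ∑ i : Fin n, ∑ j : Fin n, ∑ l : Fin n, G i j l := fun G => Finset.sum_comm
  have s23 : ∀ G : Fin n → Fin n → Fin n → ℝ,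
      ∑ i : Fin n, ∑ j : Fin n, ∑ l : Fin n, G i l j = ∑ i : Fin n, ∑ j : Fin n, ∑ l : Fin n, G i j l := fun G =>
    Finset.sum_congr rfl fun i _ => Finset.sum_comm
  set S := ∑ i : Fin n, ∑ j : Fin n, ∑ l : Fin n, T (i : ℕ) (j : ℕ) (l : ℕ) * F i j l with hS
  have a1 : ∑ i : Fin n, ∑ j : Fin n, ∑ l : Fin n, T (j : ℕ) (i : ℕ) (l : ℕ) * F i j l = -S := by
    rw [← s12, hS, ← Finset.sum_neg_distrib]
    simp only [← Finset.sum_neg_distrib]
    refine Finset.sum_congr rfl fun i _ => Finset.sum_congr rfl fun j _ =>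
      Finset.sum_congr rfl fun l _ => ?_
    rw [h12]; ring
  have a2 : ∑ i : Fin n, ∑ j : Fin n, ∑ l : Fin n, T (i : ℕ) (l : ℕ) (j : ℕ) * F i j l = -S := by
    rw [← s23, hS]
    simp only [← Finset.sum_neg_distrib]
    refine Finset.sum_congr rfl fun i _ => Finset.sum_congr rfl fun j _ =>
      Finset.sum_congr rfl fun l _ => ?_
    rw [h23]; ring
  have a3 : ∑ i : Fin n, ∑ j : Fin n, ∑ l : Fin n, T (j : ℕ) (l : ℕ) (i : ℕ) * F i j l = S := by
    rw [← s12, ← neg_neg S, ← a2]
    simp only [← Finset.sum_neg_distrib]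
    refine Finset.sum_congr rfl fun i _ => Finset.sum_congr rfl fun j _ =>
      Finset.sum_congr rfl fun l _ => ?_
    rw [h12]; ring
  have a4 : ∑ i : Fin n, ∑ j : Fin n, ∑ l : Fin n, T (l : ℕ) (i : ℕ) (j : ℕ) * F i j l = S := by
    rw [← s23, ← neg_neg S, ← a1]
    simp only [← Finset.sum_neg_distrib]
    refine Finset.sum_congr rfl fun i _ => Finset.sum_congr rfl fun j _ =>
      Finset.sum_congr rfl fun l _ => ?_
    rw [h23]; ring
  have a5 : ∑ i : Fin n, ∑ j : Fin n, ∑ l : Fin n, T (l : ℕ) (j : ℕ) (i : ℕ) * F i j l = -S := by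
    rw [← s12, ← a4]
    simp only [← Finset.sum_neg_distrib]
    refine Finset.sum_congr rfl fun i _ => Finset.sum_congr rfl fun j _ =>
      Finset.sum_congr rfl fun l _ => ?_
    rw [h12]; ring
  simp only [alt, sub_mul, add_mul, Finset.sum_sub_distrib, Finset.sum_add_distrib, ← hS, a1, a2,
    a3, a4, a5] at h0
  linarith

/-- The amplitudes in channels `0, 1, 3` vanish on antisymmetric tensors. -/
theorem chanAmp_zero {K Q : ℕ} (hQ : 3 ≤ Q) {φ : Config (K + 2) Q → ℝ} (hφ : IsAntisym φ)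
    {r : ℕ} (hr : r ∈ ({0, 1, 3} : Finset ℕ)) (a : Fin K) {Z : ℕ} (hZ : Z ≤ chg Q r)
    (c : Config K Q) : chanAmp r a (toImp φ) Z c = 0 := by
  have hr3 : r ≤ 3 := by fin_cases hr <;> norm_num
  have hch : chg Q r = impChg Q + Q - 2 * r := by unfold chg impChg; omega
  have hswap : ∀ (i j x : Fin (Q + 1)) (p q : Fin (K + 2)), p ≠ q →
      φ ((Fin.cons i (Fin.cons j (Function.update c a x)) : Config (K + 2) Q) ∘ Equiv.swap p q) =
        -φ (Fin.cons i (Fin.cons j (Function.update c a x))) := fun i j x p q hpq => by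
    rw [hφ _ (Equiv.swap p q), Equiv.Perm.sign_swap hpq]
    norm_num
  have h12 : ∀ i j x : Fin (Q + 1), φ (Fin.cons j (Fin.cons i (Function.update c a x))) =
      -φ (Fin.cons i (Fin.cons j (Function.update c a x))) := fun i j x => by
    rw [← hswap i j x 0 1 (by simp)]
    congr 1
    funext k
    refine Fin.cases ?_ (fun k => Fin.cases ?_ (fun k => ?_) k) k
    · rw [Function.comp_apply, Equiv.swap_apply_left]; rfl
    · rw [Function.comp_apply, show (Fin.succ 0 : Fin (K + 2)) = 1 from rfl,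
        Equiv.swap_apply_right]; rfl
    · have hk1 : (k.succ.succ : Fin (K + 2)) ≠ 1 := fun h =>
        Fin.succ_ne_zero k (Fin.succ_injective _ h)
      rw [Function.comp_apply, Equiv.swap_apply_of_ne_of_ne (Fin.succ_ne_zero _) hk1]; rfl
  have h23 : ∀ i j x : Fin (Q + 1), φ (Fin.cons i (Fin.cons x (Function.update c a j))) =
      -φ (Fin.cons i (Fin.cons j (Function.update c a x))) := fun i j x => by
    have h1a : (1 : Fin (K + 2)) ≠ a.succ.succ := fun h =>
      Fin.succ_ne_zero a (Fin.succ_injective _ h.symm)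
    rw [← hswap i j x 1 a.succ.succ h1a]
    congr 1
    funext k
    refine Fin.cases ?_ (fun k => Fin.cases ?_ (fun k => ?_) k) k
    · rw [Function.comp_apply, Equiv.swap_apply_of_ne_of_ne (show (0 : Fin (K + 2)) ≠ 1 by simp)
        (Fin.succ_ne_zero _).symm]; rfl
    · rw [Function.comp_apply, show (Fin.succ 0 : Fin (K + 2)) = 1 from rfl,
        Equiv.swap_apply_left, show (1 : Fin (K + 2)) = Fin.succ 0 from rfl]
      simp only [Fin.cons_succ, Fin.cons_zero, Function.update_self]
    · by_cases hk : k = a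
      · subst hk
        rw [Function.comp_apply, Equiv.swap_apply_right, show (1 : Fin (K + 2)) = Fin.succ 0 from rfl]
        simp only [Fin.cons_succ, Fin.cons_zero, Function.update_self]
      · have hk1 : (k.succ.succ : Fin (K + 2)) ≠ 1 := fun h =>
          Fin.succ_ne_zero k (Fin.succ_injective _ h)
        have hk2 : (k.succ.succ : Fin (K + 2)) ≠ a.succ.succ := fun h =>
          hk (Fin.succ_injective _ (Fin.succ_injective _ h))
        rw [Function.comp_apply, Equiv.swap_apply_of_ne_of_ne hk1 hk2]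
        simp only [Fin.cons_succ, Function.update_of_ne hk]
  have h := contract_zero (n := Q + 1) (tri Q r Z)
    (fun i j x => φ (Fin.cons i (Fin.cons j (Function.update c a x))))
    (alt_zero hQ hr Z (hch ▸ hZ)) h12 h23
  rw [← h]
  simp only [chanAmp, toImp, tri, Finset.mul_sum, Finset.sum_mul]
  refine Finset.sum_comm.trans ((Finset.sum_congr rfl fun x _ => Finset.sum_comm.trans
    (Finset.sum_congr rfl fun i _ => Finset.sum_comm)).trans (Finset.sum_comm.trans
    (Finset.sum_congr rfl fun i _ => Finset.sum_comm.trans (Finset.sum_congr rfl fun j _ =>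
      Finset.sum_congr rfl fun x _ => Finset.sum_congr rfl fun M _ => ?_))))
  ring

/-- The channels `0, 1, 3` vanish on antisymmetric tensors. -/
theorem chanWeight_zero {K Q : ℕ} (hQ : 3 ≤ Q) {φ : Config (K + 2) Q → ℝ} (hφ : IsAntisym φ)
    {r : ℕ} (hr : r ∈ ({0, 1, 3} : Finset ℕ)) (a : Fin K) : chanWeight r a (toImp φ) = 0 := by
  rw [chanWeight, Finset.sum_eq_zero, zero_div]
  exact fun Z hZ => Finset.sum_eq_zero fun c _ => by
    rw [chanAmp_zero hQ hφ hr a (Nat.lt_succ_iff.1 (Finset.mem_range.1 hZ)) c]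
    ring

end Vale.Agent.P359.Gap.C013
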