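import Vale.Agent.P359.Defs

/-!
# P359, gap: from real to complex tensors

The Hamiltonian and the antisymmetry constraint have real coefficients, so the complex form splits
into real and imaginary parts.
-/

open Finset
open scoped Classical

namespace Vale.Agent.P359.Gap

/-- Complex antisymmetric tensors. -/
def IsAntisymC {N Q : ℕ} (ψ : Config N Q → ℂ) : Prop :=
  ∀ (c : Config N Q) (σ : Equiv.Perm (Fin N)), ψ (c ∘ σ) = ((Equiv.Perm.sign σ : ℤ) : ℂ) * ψ c

/-- Component of a complex tensor on `pairVec Q S` in the factors `i, j`. -/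
noncomputable def pairAmpC {N Q : ℕ} (S : ℕ) (i j : Fin N) (c : Config N Q)
    (ψ : Config N Q → ℂ) : ℂ :=
  ∑ a : Fin (Q + 1), ∑ b : Fin (Q + 1),
    (pairVec Q S a b : ℂ) * ψ (Function.update (Function.update c i a) j b)

/-- The expectation of the sum over pairs of the spin `Q-1` projections in a complex tensor. -/
noncomputable def energyC {N Q : ℕ} (ψ : Config N Q → ℂ) : ℝ :=
  ∑ x ∈ (univ : Finset (Fin N × Fin N)).filter (fun x => x.1 < x.2),
    ∑ c ∈ restConfigs x.1 x.2, ∑ S ∈ Finset.Icc 1 (2 * Q - 1),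
      Complex.normSq (pairAmpC S x.1 x.2 c ψ) / pairNormSq Q S

variable {N Q : ℕ}

lemma pairAmpC_re (S : ℕ) (i j : Fin N) (c : Config N Q) (ψ : Config N Q → ℂ) :
    (pairAmpC S i j c ψ).re = pairAmp S i j c fun d => (ψ d).re := by
  simp [pairAmpC, pairAmp, Complex.re_sum]

lemma pairAmpC_im (S : ℕ) (i j : Fin N) (c : Config N Q) (ψ : Config N Q → ℂ) :
    (pairAmpC S i j c ψ).im = pairAmp S i j c fun d => (ψ d).im := by
  simp [pairAmpC, pairAmp, Complex.im_sum]

lemma energyC_eq (ψ : Config N Q → ℂ) :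
    energyC ψ = energy (fun d => (ψ d).re) + energy (fun d => (ψ d).im) := by
  simp only [energyC, energy, ← Finset.sum_add_distrib]
  refine Finset.sum_congr rfl fun x _ => Finset.sum_congr rfl fun c _ =>
    Finset.sum_congr rfl fun S _ => ?_
  rw [Complex.normSq_apply, pairAmpC_re, pairAmpC_im, ← add_div]
  ring

lemma IsAntisymC.re {ψ : Config N Q → ℂ} (h : IsAntisymC ψ) : IsAntisym fun d => (ψ d).re := by
  intro c σ
  simp only [h c σ]
  simp

lemma IsAntisymC.im {ψ : Config N Q → ℂ} (h : IsAntisymC ψ) : IsAntisym fun d => (ψ d).im := by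
  intro c σ
  simp only [h c σ]
  simp

/-- A lower bound `δ (I - P_L)` for real tensors holds for complex tensors. -/
theorem gap_complex {δ : ℝ} {L : Config N Q → ℝ}
    (h : ∀ ψ : Config N Q → ℝ, IsAntisym ψ →
      δ * (inner' ψ ψ - inner' L ψ ^ 2 / inner' L L) ≤ energy ψ)
    (ψ : Config N Q → ℂ) (hψ : IsAntisymC ψ) :
    δ * ((∑ c, Complex.normSq (ψ c)) -
      Complex.normSq (∑ c, (L c : ℂ) * ψ c) / inner' L L) ≤ energyC ψ := by
  have h1 : ∑ c, Complex.normSq (ψ c) =
      inner' (fun d => (ψ d).re) (fun d => (ψ d).re) +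
        inner' (fun d => (ψ d).im) (fun d => (ψ d).im) := by
    simp only [inner', Complex.normSq_apply, Finset.sum_add_distrib]
  have h2 : Complex.normSq (∑ c, (L c : ℂ) * ψ c) =
      inner' L (fun d => (ψ d).re) ^ 2 + inner' L (fun d => (ψ d).im) ^ 2 := by
    simp [inner', Complex.normSq_apply, Complex.re_sum, Complex.im_sum, sq]
  rw [energyC_eq, h1, h2, add_div]
  linarith [h _ hψ.re, h _ hψ.im]

end Vale.Agent.P359.Gap
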