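import Vale.Agent.P359.Poly

/-!
# P359, gap: the zero space at Laughlin flux is spanned by the Laughlin vector

In dehomogenised variables a zero state is an antisymmetric polynomial of degree at most
`3 (N - 1)` in each variable whose fibre sums `∑ (α + β a) coeff (…, a, S - a, …)` vanish on every
pair of variables. Hence it is divisible by the cube of every difference, and the quotient is
constant.
-/

open Finset MvPolynomial
open scoped Classical

namespace Vale.Agent.P359.Gap

variable {n Q : ℕ}

/-- Substitution of `z_q` for `z_p`. -/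
def diag (p q : Fin n) : Fin n → Fin n := Function.update id p q

lemma diag_of_ne {p q k : Fin n} (h : k ≠ p) : diag p q k = k := by simp [diag, h]

lemma diag_self (p q : Fin n) : diag p q p = q := by simp [diag]

lemma rename_diag_diff {p q : Fin n} (h : p ≠ q) :
    rename (diag p q) (X q - X p : MvPolynomial (Fin n) ℝ) = 0 := by
  rw [map_sub, rename_X, rename_X, diag_of_ne h.symm, diag_self, sub_self]

lemma diff_dvd_iff {p q : Fin n} (h : p ≠ q) (F : MvPolynomial (Fin n) ℝ) :
    (X q - X p) ∣ F ↔ rename (diag p q) F = 0 := by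
  constructor
  · rintro ⟨G, rfl⟩
    rw [map_mul, rename_diag_diff h, zero_mul]
  · intro hF
    set I : Ideal (MvPolynomial (Fin n) ℝ) := Ideal.span {X q - X p}
    have hr : (Ideal.Quotient.mkₐ ℝ I).comp (rename (diag p q)) = Ideal.Quotient.mkₐ ℝ I := by
      refine MvPolynomial.algHom_ext fun k => ?_
      rcases eq_or_ne k p with rfl | hk
      · simp only [AlgHom.comp_apply, rename_X, diag_self, Ideal.Quotient.mkₐ_eq_mk]
        exact Ideal.Quotient.eq.2 (Ideal.subset_span rfl)
      · simp [diag_of_ne hk]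
    have h0 := DFunLike.congr_fun hr F
    rw [AlgHom.comp_apply, hF, map_zero, Ideal.Quotient.mkₐ_eq_mk] at h0
    exact Ideal.mem_span_singleton.1 (Ideal.Quotient.eq_zero_iff_mem.1 h0.symm)

lemma prime_diff {p q : Fin n} (h : p ≠ q) : Prime (X q - X p : MvPolynomial (Fin n) ℝ) := by
  refine ⟨sub_ne_zero.2 fun e => h (X_injective e).symm, fun hu => ?_, fun a b hab => ?_⟩
  · exact not_isUnit_zero (rename_diag_diff h ▸ hu.map (rename (diag p q)))
  · rw [diff_dvd_iff h, map_mul] at hab
    rcases mul_eq_zero.1 hab with ha | hb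
    · exact Or.inl ((diff_dvd_iff h a).2 ha)
    · exact Or.inr ((diff_dvd_iff h b).2 hb)

lemma mapDomain_diag (p q : Fin n) (d : Fin n →₀ ℕ) :
    Finsupp.mapDomain (diag p q) d = Finsupp.erase p d + Finsupp.single q (d p) := by
  conv_lhs => rw [← Finsupp.erase_add_single p d]
  rw [Finsupp.mapDomain_add, Finsupp.mapDomain_single, diag_self]
  congr 1
  refine (Finsupp.mapDomain_congr fun k hk => ?_).trans Finsupp.mapDomain_id
  rw [Finsupp.support_erase] at hk
  exact diag_of_ne (Finset.ne_of_mem_erase hk)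

lemma coeff_rename_sum {f : Fin n → Fin n} (F : MvPolynomial (Fin n) ℝ) (m : Fin n →₀ ℕ) :
    coeff m (rename f F) =
      ∑ d ∈ F.support.filter (fun d => Finsupp.mapDomain f d = m), coeff d F := by
  conv_lhs => rw [F.as_sum]
  simp only [map_sum, rename_monomial, coeff_sum, coeff_monomial, Finset.sum_filter]

/-- If all fibre sums vanish, then `z_q - z_p` divides. -/
lemma dvd_of_lam {p q : Fin n} (hpq : p ≠ q) (F : MvPolynomial (Fin n) ℝ)
    (h : ∀ m : Fin n →₀ ℕ, m p = 0 → m q = 0 → ∀ S, lam m p q S 1 0 F = 0) :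
    (X q - X p) ∣ F := by
  rw [diff_dvd_iff hpq]
  ext m
  rw [coeff_zero, coeff_rename_sum]
  by_cases hm : m p = 0
  · have key := h (Finsupp.erase q m) (by simp [hpq, hm]) (by simp) (m q)
    simp only [lam, zero_mul, add_zero, one_mul] at key
    rw [← key]
    refine Finset.sum_bij_ne_zero (fun d _ _ => d p) ?_ ?_ ?_ ?_
    · intro d hd _
      rw [Finset.mem_filter] at hd
      have e := DFunLike.congr_fun hd.2 q
      simp [mapDomain_diag, hpq.symm] at e
      simp only [Finset.mem_range]; omega
    · intro d hd _ d' hd' _ e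
      rw [Finset.mem_filter] at hd hd'
      have e1 := hd.2.trans hd'.2.symm
      rw [mapDomain_diag, mapDomain_diag, e] at e1
      rw [← Finsupp.erase_add_single p d, ← Finsupp.erase_add_single p d', add_right_cancel e1, e]
    · intro a ha hne
      have ha' := Finset.mem_range.1 ha
      set d := Finsupp.erase q m + Finsupp.single p a + Finsupp.single q (m q - a) with hd
      refine ⟨d, Finset.mem_filter.2 ⟨mem_support_iff.2 hne, ?_⟩, hne, ?_⟩
      · rw [mapDomain_diag]
        ext k
        rcases eq_or_ne k p with rfl | hk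
        · simp [hpq, hm]
        rcases eq_or_ne k q with rfl | hk'
        · simp [hd, hk, hpq, Finsupp.erase_ne]; omega
        · simp [hd, hk, hk', Finsupp.erase_ne]
      · simp [hd, hpq, hm, Finsupp.erase_ne]
    · intro d hd _
      rw [Finset.mem_filter] at hd
      congr 1
      ext k
      have e := DFunLike.congr_fun hd.2 k
      rw [mapDomain_diag] at e
      rcases eq_or_ne k p with rfl | hk
      · simp [hpq, hm, Finsupp.erase_ne]
      rcases eq_or_ne k q with rfl | hk'
      · simp [hk, Finsupp.erase_ne] at e ⊢; omega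
      · simp [hk, hk', Finsupp.erase_ne] at e ⊢; omega
  · refine Finset.sum_eq_zero fun d hd => absurd ?_ hm
    rw [← (Finset.mem_filter.1 hd).2, mapDomain_diag]
    simp [hpq]

/-- A polynomial odd under exchanging `p, q` whose affine fibre sums vanish is divisible by the
cube of `z_q - z_p`. -/
lemma cube_dvd {p q : Fin n} (hpq : p ≠ q) (F : MvPolynomial (Fin n) ℝ)
    (hanti : rename (Equiv.swap p q) F = -F)
    (h : ∀ m : Fin n →₀ ℕ, m p = 0 → m q = 0 → ∀ S α β, lam m p q S α β F = 0) :
    (X q - X p) ^ 3 ∣ F := by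
  have hd : (X q - X p : MvPolynomial (Fin n) ℝ) ≠ 0 := (prime_diff hpq).ne_zero
  obtain ⟨G, rfl⟩ := dvd_of_lam hpq F fun m hp hq S => h m hp hq S 1 0
  obtain ⟨H, rfl⟩ := dvd_of_lam hpq G fun m hp hq S => by
    have e := h m hp hq (S + 1) 0 (-1)
    rw [lam_mul hpq hp hq, if_neg S.succ_ne_zero, neg_neg, Nat.add_sub_cancel] at e
    exact e
  have hH : rename (Equiv.swap p q) H = -H := by
    simp only [map_mul, map_sub, rename_X, Equiv.swap_apply_left, Equiv.swap_apply_right] at hanti
    refine mul_left_cancel₀ (mul_ne_zero hd hd) ?_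
    linear_combination hanti
  have h3 : (X q - X p) ∣ H := by
    rw [diff_dvd_iff hpq]
    have e : rename (diag p q) (rename (Equiv.swap p q) H) = rename (diag p q) H := by
      rw [rename_rename]
      congr 2
      funext k
      rcases eq_or_ne k p with rfl | hk
      · simp [diag_self, diag_of_ne hpq.symm]
      rcases eq_or_ne k q with rfl | hk'
      · simp [diag_self, diag_of_ne hk]
      · simp [Equiv.swap_apply_of_ne_of_ne hk hk']
    rw [hH, map_neg] at e
    exact neg_eq_self.1 e
  obtain ⟨K, rfl⟩ := h3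
  exact ⟨K, by ring⟩

/-- The dehomogenised polynomial of a tensor. -/
noncomputable def dehom (ψ : Config n Q → ℝ) : MvPolynomial (Fin n) ℝ :=
  ∑ c, monomial (expo c) (ψ c * ∏ i, Real.sqrt (Q.choose (c i)))

lemma expo_injective : Function.Injective (expo (n := n) (Q := Q)) := fun c d h =>
  funext fun i => Fin.ext <| by simpa using DFunLike.congr_fun h i

lemma coeff_dehom (ψ : Config n Q → ℝ) (c : Config n Q) :
    coeff (expo c) (dehom ψ) = ψ c * ∏ i, Real.sqrt (Q.choose (c i)) := by
  rw [dehom, coeff_sum, Finset.sum_eq_single c]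
  · simp
  · intro d _ hd; rw [coeff_monomial, if_neg (fun e => hd (expo_injective e))]
  · simp

lemma exists_of_coeff_dehom {ψ : Config n Q → ℝ} {m : Fin n →₀ ℕ} (h : coeff m (dehom ψ) ≠ 0) :
    ∃ c : Config n Q, expo c = m := by
  rw [dehom, coeff_sum] at h
  obtain ⟨c, -, hc⟩ := Finset.exists_ne_zero_of_sum_ne_zero h
  rw [coeff_monomial] at hc
  exact ⟨c, by_contra fun e => hc (if_neg e)⟩

lemma dehom_anti {ψ : Config n Q → ℝ} (hψ : IsAntisym ψ) {p q : Fin n} (hpq : p ≠ q) :
    rename (Equiv.swap p q) (dehom ψ) = -dehom ψ := by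
  rw [dehom, map_sum, ← Finset.sum_neg_distrib]
  refine Finset.sum_bij' (fun c _ => c ∘ Equiv.swap p q) (fun c _ => c ∘ Equiv.swap p q)
    (fun _ _ => Finset.mem_univ _) (fun _ _ => Finset.mem_univ _) ?_ ?_ ?_
  · intro c _; funext k; simp
  · intro c _; funext k; simp
  intro c _
  have hsum : Finsupp.mapDomain (Equiv.swap p q) (expo c) = expo (c ∘ Equiv.swap p q) := by
    ext k
    conv_lhs => rw [← Equiv.swap_apply_self p q k]
    rw [Finsupp.mapDomain_apply (Equiv.injective _)]
    simp
  rw [rename_monomial, hsum, ← map_neg, hψ, Equiv.Perm.sign_swap hpq]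
  congr 1
  rw [show ∏ i, Real.sqrt (Q.choose ((c ∘ Equiv.swap p q) i)) = ∏ i, Real.sqrt (Q.choose (c i))
    from Equiv.prod_comp (Equiv.swap p q) fun i => Real.sqrt (Q.choose (c i))]
  simp

/-- Affine sum over the pairs of orbitals of total index `S`. -/
noncomputable def fibre (ψ : Config n Q → ℝ) (p q : Fin n) (c : Config n Q) (S : ℕ) (α β : ℝ) :
    ℝ :=
  ∑ a : Fin (Q + 1), ∑ b : Fin (Q + 1),
    if (a : ℕ) + b = S then (α + β * a) * (Real.sqrt (Q.choose a) * Real.sqrt (Q.choose b)) *
      ψ (Function.update (Function.update c p a) q b) else 0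

lemma pairNormSq_zero {S : ℕ} (h : pairNormSq Q S = 0) (a b : Fin (Q + 1)) :
    pairVec Q S a b = 0 := by
  have h1 := (Finset.sum_eq_zero_iff_of_nonneg fun x _ =>
    Finset.sum_nonneg fun y _ => sq_nonneg (pairVec Q S x y)).1 h a (Finset.mem_univ _)
  have h2 := (Finset.sum_eq_zero_iff_of_nonneg fun y _ =>
    sq_nonneg (pairVec Q S a y)).1 h1 b (Finset.mem_univ _)
  exact pow_eq_zero_iff two_ne_zero |>.1 h2

lemma fibre_eq_zero {ψ : Config n Q → ℝ} (hψ : IsAntisym ψ) (hE : energy ψ = 0) {p q : Fin n}
    (hpq : p < q) {c : Config n Q} (hc : c ∈ restConfigs p q) (S : ℕ) (α β : ℝ) :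
    fibre ψ p q c S α β = 0 := by
  have hne := hpq.ne
  set g : Fin (Q + 1) → Fin (Q + 1) → ℝ := fun a b =>
    if (a : ℕ) + b = S then Real.sqrt (Q.choose a) * Real.sqrt (Q.choose b) *
      ψ (Function.update (Function.update c p a) q b) else 0 with hg
  have hswap : ∀ a b, g b a = -g a b := by
    intro a b
    have hcfg : Function.update (Function.update c p b) q a =
        Function.update (Function.update c p a) q b ∘ Equiv.swap p q := by
      funext k
      rcases eq_or_ne k p with rfl | hk
      · simp [hne]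
      rcases eq_or_ne k q with rfl | hk'
      · simp [hne]
      · simp [Equiv.swap_apply_of_ne_of_ne hk hk', hk, hk']
    simp only [hg, hcfg, hψ _ (Equiv.swap p q), Equiv.Perm.sign_swap hne, add_comm (b : ℕ)]
    split_ifs <;> simp [mul_comm]
  have h0 : ∑ a, ∑ b, g a b = 0 := by
    have h := Finset.sum_comm (s := univ) (t := univ) (f := g)
    have h' : ∑ b, ∑ a, g a b = -∑ a, ∑ b, g a b := by
      rw [← Finset.sum_neg_distrib]
      refine Finset.sum_congr rfl fun a _ => ?_
      rw [← Finset.sum_neg_distrib]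
      exact Finset.sum_congr rfl fun b _ => hswap a b
    linarith
  have hamp : pairAmp S p q c ψ = 0 := by
    by_cases hS : S ∈ Finset.Icc 1 (2 * Q - 1)
    · have hnn : ∀ x : Fin n × Fin n, ∀ d : Config n Q, ∀ T,
          0 ≤ pairAmp T x.1 x.2 d ψ ^ 2 / pairNormSq Q T := fun x d T =>
        div_nonneg (sq_nonneg _) (Finset.sum_nonneg fun _ _ => Finset.sum_nonneg fun _ _ =>
          sq_nonneg _)
      have e1 := (Finset.sum_eq_zero_iff_of_nonneg fun x _ => Finset.sum_nonneg fun d _ =>
        Finset.sum_nonneg fun T _ => hnn x d T).1 hE (p, q)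
          (Finset.mem_filter.2 ⟨Finset.mem_univ _, hpq⟩)
      have e2 := (Finset.sum_eq_zero_iff_of_nonneg fun d _ =>
        Finset.sum_nonneg fun T _ => hnn (p, q) d T).1 e1 c hc
      have e3 := (Finset.sum_eq_zero_iff_of_nonneg fun T _ => hnn (p, q) c T).1 e2 S hS
      rcases div_eq_zero_iff.1 e3 with e | e
      · exact pow_eq_zero_iff two_ne_zero |>.1 e
      · exact Finset.sum_eq_zero fun a _ => Finset.sum_eq_zero fun b _ => by
          simp [pairNormSq_zero e]
    · refine Finset.sum_eq_zero fun a _ => Finset.sum_eq_zero fun b _ => ?_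
      rw [pairVec]
      split_ifs with hab
      · have hba : (b : ℕ) = a := by
          have := a.isLt; have := b.isLt
          simp only [Finset.mem_Icc] at hS; omega
        simp [hba]
      · simp
  have hs : pairAmp S p q c ψ = ∑ a : Fin (Q + 1), ∑ b : Fin (Q + 1), ((S : ℝ) - 2 * (a : ℕ)) * g a b := by
    refine Finset.sum_congr rfl fun a _ => Finset.sum_congr rfl fun b _ => ?_
    simp only [pairVec, hg]
    split_ifs with hab
    · rw [← hab]; push_cast; ring
    · simp
  have h1 : ∑ a : Fin (Q + 1), ∑ b : Fin (Q + 1), ((a : ℕ) : ℝ) * g a b = 0 := by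
    rw [hamp] at hs
    simp only [sub_mul, Finset.sum_sub_distrib, mul_assoc, ← Finset.mul_sum, h0] at hs
    simp only [← Finset.mul_sum]
    linarith
  have hf : fibre ψ p q c S α β =
      ∑ a : Fin (Q + 1), ∑ b : Fin (Q + 1), (α * g a b + β * (((a : ℕ) : ℝ) * g a b)) := by
    refine Finset.sum_congr rfl fun a _ => Finset.sum_congr rfl fun b _ => ?_
    simp only [hg]
    split_ifs <;> ring
  rw [hf]
  simp only [Finset.sum_add_distrib, ← Finset.mul_sum] at h1 ⊢
  rw [h0, h1, mul_zero, mul_zero, add_zero]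

lemma lam_dehom {ψ : Config n Q → ℝ} (hψ : IsAntisym ψ) (hE : energy ψ = 0) {p q : Fin n}
    (hpq : p < q) {m : Fin n →₀ ℕ} (hp : m p = 0) (hq : m q = 0) (S : ℕ) (α β : ℝ) :
    lam m p q S α β (dehom ψ) = 0 := by
  have hne := hpq.ne
  by_cases hb : ∀ k, m k ≤ Q
  swap
  · push Not at hb
    obtain ⟨k, hk⟩ := hb
    refine Finset.sum_eq_zero fun a _ => mul_eq_zero_of_right _ ?_
    by_contra h
    obtain ⟨c, hc⟩ := exists_of_coeff_dehom h
    have e := DFunLike.congr_fun hc k
    simp only [expo_apply, Finsupp.add_apply] at e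
    have := (c k).isLt
    omega
  set c : Config n Q := fun k => ⟨m k, Nat.lt_succ_of_le (hb k)⟩ with hcdef
  have hc : c ∈ restConfigs p q := by
    simp [restConfigs, hcdef, hp, hq]
  set R : ℝ := ∏ k ∈ (univ.erase p).erase q, Real.sqrt (Q.choose (c k))
  have key : lam m p q S α β (dehom ψ) = R * fibre ψ p q c S α β := by
    have hexp : ∀ a b : Fin (Q + 1), expo (Function.update (Function.update c p a) q b) =
        m + Finsupp.single p (a : ℕ) + Finsupp.single q (b : ℕ) := fun a b => by
      ext k
      rcases eq_or_ne k p with rfl | hk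
      · simp [hne, hp]
      rcases eq_or_ne k q with rfl | hk'
      · simp [hne, hne.symm, hq]
      · simp [hcdef, hk, hk']
    have hcoef : ∀ a b : Fin (Q + 1),
        coeff (m + Finsupp.single p (a : ℕ) + Finsupp.single q (b : ℕ)) (dehom ψ) =
          R * (Real.sqrt (Q.choose a) * Real.sqrt (Q.choose b)) *
            ψ (Function.update (Function.update c p a) q b) := fun a b => by
      rw [← hexp, coeff_dehom, ← Finset.mul_prod_erase univ _ (Finset.mem_univ p),
        ← Finset.mul_prod_erase (univ.erase p) _ (Finset.mem_erase.2 ⟨hne.symm, Finset.mem_univ q⟩)]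
      rw [Finset.prod_congr rfl (fun k hk => by
        obtain ⟨h1, h2, -⟩ := Finset.mem_erase.1 hk |>.imp_right Finset.mem_erase.1
        simp [h1, h2] : ∀ k ∈ (univ.erase p).erase q,
          Real.sqrt (Q.choose ((Function.update (Function.update c p a) q b) k)) =
            Real.sqrt (Q.choose (c k)))]
      simp [hne]
      ring
    have hrow : ∀ a : ℕ, a ≤ S →
        (α + β * a) * coeff (m + Finsupp.single p a + Finsupp.single q (S - a)) (dehom ψ) =
          ∑ a' : Fin (Q + 1), ∑ b : Fin (Q + 1), if (a' : ℕ) = a ∧ (a' : ℕ) + b = S then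
            R * ((α + β * (a' : ℕ)) * (Real.sqrt (Q.choose a') * Real.sqrt (Q.choose b)) *
              ψ (Function.update (Function.update c p a') q b)) else 0 := by
      intro a ha
      by_cases hab : a ≤ Q ∧ S - a ≤ Q
      · rw [Finset.sum_eq_single ⟨a, by omega⟩, Finset.sum_eq_single ⟨S - a, by omega⟩]
        · rw [if_pos ⟨rfl, by simp; omega⟩,
            show m + Finsupp.single p a + Finsupp.single q (S - a) =
              m + Finsupp.single p ((⟨a, by omega⟩ : Fin (Q + 1)) : ℕ) +
                Finsupp.single q ((⟨S - a, by omega⟩ : Fin (Q + 1)) : ℕ) from rfl, hcoef]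
          ring
        · intro b _ hbne
          rw [if_neg]
          rintro ⟨-, e⟩
          exact hbne (Fin.ext (by simp at e ⊢; omega))
        · simp
        · intro a' _ hne'
          exact Finset.sum_eq_zero fun b _ => if_neg fun e => hne' (Fin.ext e.1)
        · simp
      · rw [Finset.sum_eq_zero fun a' _ => Finset.sum_eq_zero fun b _ => if_neg fun e => hab (by
          have := a'.isLt; have := b.isLt; omega)]
        refine mul_eq_zero_of_right _ (by_contra fun h => ?_)
        obtain ⟨d, hd⟩ := exists_of_coeff_dehom h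
        have e1 := DFunLike.congr_fun hd p
        have e2 := DFunLike.congr_fun hd q
        simp [hne, hne.symm, hp, hq] at e1 e2
        have := (d p).isLt; have := (d q).isLt
        omega
    rw [lam, Finset.sum_congr rfl fun a ha => hrow a (Nat.le_of_lt_succ (Finset.mem_range.1 ha)),
      fibre, Finset.mul_sum, Finset.sum_comm]
    refine Finset.sum_congr rfl fun a' _ => ?_
    rw [Finset.sum_comm, Finset.mul_sum]
    refine Finset.sum_congr rfl fun b _ => ?_
    by_cases e : (a' : ℕ) + b = S
    · rw [if_pos e, Finset.sum_eq_single (a' : ℕ)]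
      · rw [if_pos ⟨rfl, e⟩]
      · intro x _ hx; exact if_neg fun h => hx h.1.symm
      · intro h; exact absurd (Finset.mem_range.2 (by omega)) h
    · rw [if_neg e, mul_zero]
      exact Finset.sum_eq_zero fun x _ => if_neg fun h => e h.2
  rw [key, fibre_eq_zero hψ hE hpq hc, mul_zero]

/-- The pairs of indices. -/
def allPairs (n : ℕ) : Finset (Σ _ : Fin n, Fin n) := univ.sigma fun i => Finset.Ioi i

lemma prod_cubes_dvd {ψ : Config n Q → ℝ} (hψ : IsAntisym ψ) (hE : energy ψ = 0) :
    ∀ s ⊆ allPairs n,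
      ∏ x ∈ s, (X x.2 - X x.1 : MvPolynomial (Fin n) ℝ) ^ 3 ∣ dehom ψ := by
  intro s
  induction s using Finset.induction with
  | empty => simp
  | insert x s hx ih =>
    intro hs
    rw [Finset.insert_subset_iff] at hs
    obtain ⟨H, hH⟩ := ih hs.2
    have hlt : x.1 < x.2 := Finset.mem_Ioi.1 (Finset.mem_sigma.1 hs.1).2
    have hpr := prime_diff (n := n) hlt.ne
    have hcube := cube_dvd hlt.ne (dehom ψ) (dehom_anti hψ hlt.ne)
      fun m hp hq S α β => lam_dehom hψ hE hlt hp hq S α β
    rw [hH] at hcube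
    have hnd : ¬ (X x.2 - X x.1 : MvPolynomial (Fin n) ℝ) ∣
        ∏ y ∈ s, (X y.2 - X y.1) ^ 3 := by
      rw [hpr.dvd_finsetProd_iff]
      rintro ⟨y, hy, hdvd⟩
      have := hpr.dvd_of_dvd_pow hdvd
      rw [diff_dvd_iff hlt.ne, map_sub, rename_X, rename_X, sub_eq_zero] at this
      have hyy : y.1 < y.2 := Finset.mem_Ioi.1 (Finset.mem_sigma.1 (hs.2 hy)).2
      have e := X_injective this
      refine hx (?_ : x ∈ s)
      have hxy : x = y := by
        obtain ⟨p, q⟩ := x
        obtain ⟨a, b⟩ := y
        simp only [diag, Function.update_apply, id_eq] at e hlt hyy ⊢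
        split_ifs at e with h1 h2 h2 <;> subst_vars <;> simp_all <;> omega
      exact hxy ▸ hy
    obtain ⟨K, hK⟩ := hpr.pow_dvd_of_dvd_mul_left 3 hnd hcube
    rw [Finset.prod_insert hx]
    exact ⟨K, by rw [hH, hK]; ring⟩

lemma degreeOf_cubes (i : Fin n) :
    3 * (n - 1) ≤ degreeOf i
      (∏ x ∈ allPairs n, (X x.2 - X x.1 : MvPolynomial (Fin n) ℝ) ^ 3) := by
  have hne : ∀ x ∈ allPairs n, (X x.2 - X x.1 : MvPolynomial (Fin n) ℝ) ≠ 0 := fun x hx =>
    (prime_diff (Finset.mem_Ioi.1 (Finset.mem_sigma.1 hx).2).ne).ne_zero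
  rw [degreeOf_prod_eq _ _ fun x hx => pow_ne_zero _ (hne x hx)]
  calc 3 * (n - 1)
      = ∑ x ∈ allPairs n, 3 * ((if x.1 = i then 1 else 0) + if x.2 = i then 1 else 0) := by
        rw [← Finset.mul_sum, Finset.sum_add_distrib]
        congr 1
        have e1 : (∑ x ∈ allPairs n, if x.1 = i then 1 else 0) = n - 1 - (i : ℕ) := by
          rw [allPairs, Finset.sum_sigma, Finset.sum_eq_single i]
          · simp [Fin.card_Ioi]
          · intro a _ ha; simp [ha]
          · simp
        have e2 : (∑ x ∈ allPairs n, if x.2 = i then 1 else 0) = (i : ℕ) := by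
          rw [allPairs, Finset.sum_sigma]
          simp only [Finset.sum_ite_eq', Finset.mem_Ioi]
          rw [← Finset.card_filter,
            show univ.filter (fun a : Fin n => a < i) = Finset.Iio i by ext; simp, Fin.card_Iio]
        rw [e1, e2]
        omega
    _ ≤ _ := by
        refine Finset.sum_le_sum fun x hx => ?_
        rw [degreeOf_pow_eq _ _ _ (hne x hx)]
        refine Nat.mul_le_mul_left 3 ?_
        have hlt : x.1 < x.2 := Finset.mem_Ioi.1 (Finset.mem_sigma.1 hx).2
        by_cases h : x.1 = i ∨ x.2 = i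
        · have hmem : Finsupp.single i 1 ∈ (X x.2 - X x.1 : MvPolynomial (Fin n) ℝ).support := by
            rw [mem_support_iff, coeff_sub, coeff_X, coeff_X]
            rcases h with rfl | rfl <;>
              simp [Finsupp.single_left_inj one_ne_zero, hlt.ne, hlt.ne']
          refine le_trans ?_ (monomial_le_degreeOf i hmem)
          rcases h with rfl | rfl <;> simp [hlt.ne, hlt.ne']
        · push Not at h
          simp [h.1, h.2]

/-- The zero states at Laughlin flux are the multiples of the Laughlin vector. -/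
theorem kernel (N : ℕ) (ψ : Config N (3 * (N - 1)) → ℝ) (hψ : IsAntisym ψ) (hE : energy ψ = 0) :
    ∃ g : ℝ, ψ = fun c => g * laughlin N c := by
  obtain ⟨G, hG⟩ := prod_cubes_dvd hψ hE (allPairs N) subset_rfl
  set V := ∏ x ∈ allPairs N, (X x.2 - X x.1 : MvPolynomial (Fin N) ℝ) ^ 3 with hV
  have hV0 : V ≠ 0 := Finset.prod_ne_zero_iff.2 fun x hx =>
    pow_ne_zero _ (prime_diff (Finset.mem_Ioi.1 (Finset.mem_sigma.1 hx).2).ne).ne_zero
  have hGC : G = C (coeff 0 G) := by
    rcases eq_or_ne G 0 with rfl | hG0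
    · simp
    ext m
    rw [coeff_C]
    split_ifs with hm
    · rw [hm]
    · by_contra hne
      obtain ⟨i, hi⟩ : ∃ i, m i ≠ 0 := by
        by_contra h
        push Not at h
        exact hm (Finsupp.ext fun i => by simpa using (h i).symm)
      have h1 := monomial_le_degreeOf i (mem_support_iff.2 hne)
      have h2 : degreeOf i (dehom ψ) ≤ 3 * (N - 1) := by
        rw [degreeOf_le_iff]
        intro d hd
        obtain ⟨c, rfl⟩ := exists_of_coeff_dehom (mem_support_iff.1 hd)
        simpa using Nat.le_of_lt_succ (c i).isLt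
      rw [hG, degreeOf_mul_eq hV0 hG0] at h2
      have := degreeOf_cubes i
      rw [← hV] at this
      omega
  refine ⟨coeff 0 G, funext fun c => ?_⟩
  have hR : (∏ i, Real.sqrt ((3 * (N - 1)).choose (c i)) : ℝ) ≠ 0 :=
    Finset.prod_ne_zero_iff.2 fun i _ => Real.sqrt_ne_zero'.2
      (Nat.cast_pos.2 (Nat.choose_pos (Nat.le_of_lt_succ (c i).isLt)))
  have hc := coeff_dehom ψ c
  rw [hG, hGC, mul_comm V, coeff_C_mul, hV, allPairs, Finset.prod_sigma] at hc
  rw [laughlin, ← mul_div_assoc, eq_div_iff hR]
  exact hc.symm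

end Vale.Agent.P359.Gap
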