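import Vale.Agent.P359.Gap.Core

/-!
# P359, module M0: the equivariant maps `Jc`

`Jc r a b` intertwines lowering and raising, is `√kappa` times an isometry, has orthogonal images
for different `r`, and these images fill `a ⊗ b`.
-/

open Finset

namespace Vale.Agent.P359.Gap

/-! ### Coefficients with integer arguments -/

/-- Binomial coefficient with integer lower argument. -/
noncomputable def cbin (n : ℕ) (i : ℤ) : ℝ := if 0 ≤ i then (n.choose i.toNat : ℝ) else 0

theorem cbin_natCast (n k : ℕ) : cbin n (k : ℤ) = n.choose k := by simp [cbin]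

theorem cbin_neg {n : ℕ} {i : ℤ} (h : i < 0) : cbin n i = 0 := if_neg (not_le.2 h)

theorem cbin_big {n : ℕ} {i : ℤ} (h : (n : ℤ) < i) : cbin n i = 0 := by
  rw [cbin, if_pos (by omega), Nat.choose_eq_zero_of_lt (by omega), Nat.cast_zero]

theorem cbin_succ (n : ℕ) (i : ℤ) :
    ((i : ℝ) + 1) * cbin n (i + 1) = ((n : ℝ) - i) * cbin n i := by
  rcases lt_trichotomy i (-1) with h | h | h
  · rw [cbin_neg (by omega), cbin_neg (by omega), mul_zero, mul_zero]
  · subst h
    simp [cbin_neg (show (-1 : ℤ) < 0 by omega)]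
  · lift i to ℕ using (by omega) with k
    rw [show (k : ℤ) + 1 = ((k + 1 : ℕ) : ℤ) by omega, cbin_natCast, cbin_natCast]
    push_cast
    have := congrArg (Nat.cast : ℕ → ℝ) (Nat.choose_succ_right_eq n k)
    rcases Nat.lt_or_ge n k with hk | hk
    · simp [Nat.choose_eq_zero_of_lt hk, Nat.choose_eq_zero_of_lt (show n < k + 1 by omega)]
    · rw [Nat.cast_mul, Nat.cast_mul, Nat.cast_sub hk] at this
      push_cast at this
      linarith

/-- Coefficient of the antisymmetric factor. -/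
noncomputable def sbin (r l : ℕ) : ℝ := (-1) ^ (r - l) * (r.choose l : ℝ)

theorem sbin_succ {r l : ℕ} (h : l < r) :
    ((l : ℝ) + 1) * sbin r (l + 1) + ((r : ℝ) - l) * sbin r l = 0 := by
  have hc := congrArg (Nat.cast : ℕ → ℝ) (Nat.choose_succ_right_eq r l)
  rw [Nat.cast_mul, Nat.cast_mul, Nat.cast_sub h.le] at hc
  push_cast at hc
  unfold sbin
  rw [show r - l = r - (l + 1) + 1 by omega, pow_succ]
  linear_combination ((-1 : ℝ) ^ (r - (l + 1))) * hc

/-- Coefficient of `X^i z^j` in `(X-z)^r (1+X)^(a-r) (1+z)^(b-r)`. -/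
noncomputable def fco (r a b : ℕ) (i j : ℤ) : ℝ :=
  ∑ l ∈ range (r + 1), sbin r l * (cbin (a - r) (i - l) * cbin (b - r) (j - r + l))

theorem sbin_cancel (r : ℕ) (G : ℤ → ℝ) :
    ∑ l ∈ range (r + 1), sbin r l * ((l : ℝ) * G ((l : ℤ) - 1)) +
      ∑ l ∈ range (r + 1), sbin r l * (((r : ℝ) - l) * G l) = 0 := by
  rw [sum_range_succ' (fun l : ℕ => sbin r l * ((l : ℝ) * G ((l : ℤ) - 1))),
    sum_range_succ (fun l : ℕ => sbin r l * (((r : ℝ) - l) * G l))]
  simp only [Nat.cast_zero, zero_mul, mul_zero, add_zero, sub_self]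
  rw [← sum_add_distrib]
  refine sum_eq_zero fun l hl => ?_
  rw [show (((l + 1 : ℕ) : ℤ) - 1) = (l : ℤ) by omega]
  have := sbin_succ (mem_range.1 hl)
  push_cast
  linear_combination G l * this

theorem fco_lower {r a b : ℕ} (hra : r ≤ a) (hrb : r ≤ b) (i j : ℤ) :
    ((i : ℝ) + 1) * fco r a b (i + 1) j + ((j : ℝ) + 1) * fco r a b i (j + 1) =
      ((a : ℝ) + b - r - i - j) * fco r a b i j := by
  have h := sbin_cancel r fun l => cbin (a - r) (i - l) * cbin (b - r) (j - r + l + 1)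
  simp only [fco, mul_sum, ← sum_add_distrib]
  rw [← add_zero (∑ l ∈ range (r + 1), ((a : ℝ) + b - r - i - j) *
    (sbin r l * (cbin (a - r) (i - l) * cbin (b - r) (j - r + l)))), ← h, ← sum_add_distrib,
    ← sum_add_distrib]
  refine sum_congr rfl fun l _ => ?_
  have ha := cbin_succ (a - r) (i - l)
  have hb := cbin_succ (b - r) (j - r + l)
  rw [show i - (l : ℤ) + 1 = i + 1 - l by ring] at ha
  rw [show j - (r : ℤ) + l + 1 = j + 1 - r + l by ring] at hb
  rw [show i - ((l : ℤ) - 1) = i + 1 - l by ring,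
    show j - (r : ℤ) + ((l : ℤ) - 1) + 1 = j - r + l by ring,
    show j - (r : ℤ) + l + 1 = j + 1 - r + l by ring]
  push_cast [Nat.cast_sub hra, Nat.cast_sub hrb] at ha hb
  linear_combination (sbin r l * cbin (b - r) (j - r + l)) * ha +
    (sbin r l * cbin (a - r) (i - l)) * hb

theorem fco_raise {r a b : ℕ} (hra : r ≤ a) (hrb : r ≤ b) (i j : ℤ) :
    ((a : ℝ) - i + 1) * fco r a b (i - 1) j + ((b : ℝ) - j + 1) * fco r a b i (j - 1) =
      ((i : ℝ) + j - r) * fco r a b i j := by
  have h := sbin_cancel r fun l => cbin (a - r) (i - 1 - l) * cbin (b - r) (j - r + l)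
  simp only [fco, mul_sum, ← sum_add_distrib]
  rw [← add_zero (∑ l ∈ range (r + 1), ((i : ℝ) + j - r) *
    (sbin r l * (cbin (a - r) (i - l) * cbin (b - r) (j - r + l)))), ← h, ← sum_add_distrib,
    ← sum_add_distrib]
  refine sum_congr rfl fun l _ => ?_
  have ha := cbin_succ (a - r) (i - 1 - l)
  have hb := cbin_succ (b - r) (j - 1 - r + l)
  rw [show i - 1 - (l : ℤ) + 1 = i - l by ring] at ha
  rw [show j - 1 - (r : ℤ) + l + 1 = j - r + l by ring] at hb
  rw [show i - 1 - ((l : ℤ) - 1) = i - l by ring,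
    show j - (r : ℤ) + ((l : ℤ) - 1) = j - 1 - r + l by ring]
  push_cast [Nat.cast_sub hra, Nat.cast_sub hrb] at ha hb
  linear_combination (-(sbin r l * cbin (b - r) (j - r + l))) * ha +
    (-(sbin r l * cbin (a - r) (i - l))) * hb

theorem fco_big {r a b : ℕ} (hra : r ≤ a) (hrb : r ≤ b) {i j : ℤ}
    (h : (a : ℤ) + b - r < i + j ∨ (a : ℤ) < i ∨ (b : ℤ) < j ∨ i < 0 ∨ j < 0) :
    fco r a b i j = 0 := by
  refine sum_eq_zero fun l hl => ?_
  have hl' := mem_range.1 hl
  rcases lt_or_ge (((a - r : ℕ)) : ℤ) (i - l) with h1 | h1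
  · rw [cbin_big h1, zero_mul, mul_zero]
  rcases lt_or_ge (((b - r : ℕ)) : ℤ) (j - r + l) with h2 | h2
  · rw [cbin_big h2, mul_zero, mul_zero]
  rcases lt_or_ge (i - l) (0 : ℤ) with h3 | h3
  · rw [cbin_neg h3, zero_mul, mul_zero]
  rw [cbin_neg (show j - (r : ℤ) + l < 0 by omega), mul_zero, mul_zero]

theorem jcoef_eq (r a b i j k : ℕ) : jcoef r a b i j k =
    if i + j = r + k then fco r a b i j / ((a + b - 2 * r).choose k : ℝ) else 0 := by
  unfold jcoef fco
  split_ifs with h
  · rw [sum_div]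
    refine sum_congr rfl fun l hl => ?_
    have hl' := mem_range.1 hl
    by_cases hg : l ≤ i ∧ r - l ≤ j
    · rw [if_pos ⟨hg.1, hg.2, by omega⟩, show (i : ℤ) - l = ((i - l : ℕ) : ℤ) by omega,
        show (j : ℤ) - r + l = ((j - (r - l) : ℕ) : ℤ) by omega, cbin_natCast, cbin_natCast, sbin]
      ring
    · rw [if_neg fun h' => hg ⟨h'.1, h'.2.1⟩]
      rcases not_and_or.1 hg with g | g
      · rw [cbin_neg (show (i : ℤ) - l < 0 by omega)]; simp
      · rw [cbin_neg (show (j : ℤ) - r + l < 0 by omega)]; simp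
  · exact sum_eq_zero fun l hl => if_neg fun h' => h (by have := mem_range.1 hl; omega)

/-- Square root of a binomial coefficient. -/
noncomputable def sqc (c k : ℕ) : ℝ := Real.sqrt (c.choose k : ℝ)

theorem sqc_pos {c k : ℕ} (h : k ≤ c) : 0 < sqc c k :=
  Real.sqrt_pos.2 (Nat.cast_pos.2 (Nat.choose_pos h))

theorem sqc_sq (c k : ℕ) : sqc c k ^ 2 = (c.choose k : ℝ) := Real.sq_sqrt (Nat.cast_nonneg _)

theorem sqc_big {c k : ℕ} (h : c < k) : sqc c k = 0 := by
  simp [sqc, Nat.choose_eq_zero_of_lt h]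

theorem lower_sqc {c k : ℕ} (h : k ≤ c) : lower c k * sqc c k = ((k : ℝ) + 1) * sqc c (k + 1) ∧
    lower c k * sqc c (k + 1) = ((c : ℝ) - k) * sqc c k := by
  have hk : (k : ℝ) ≤ c := by exact_mod_cast h
  have hp : 0 ≤ ((k : ℝ) + 1) * ((c : ℝ) - k) := mul_nonneg (by positivity) (by linarith)
  have hc := congrArg (Nat.cast : ℕ → ℝ) (Nat.choose_succ_right_eq c k)
  rw [Nat.cast_mul, Nat.cast_mul, Nat.cast_sub h] at hc
  push_cast at hc
  have key : ∀ x y : ℝ, 0 ≤ x → 0 ≤ y → x ^ 2 = y ^ 2 → x = y := fun x y hx hy e =>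
    (pow_left_inj₀ hx hy two_ne_zero).1 e
  have h0 := Real.sqrt_nonneg ((c.choose k : ℝ))
  have h1 := Real.sqrt_nonneg ((c.choose (k + 1) : ℝ))
  refine ⟨key _ _ (mul_nonneg (Real.sqrt_nonneg _) h0) (mul_nonneg (by positivity) h1) ?_,
    key _ _ (mul_nonneg (Real.sqrt_nonneg _) h1) (mul_nonneg (by linarith) h0) ?_⟩
  · rw [mul_pow, mul_pow, sqc_sq, sqc_sq, lower, Real.sq_sqrt hp]
    linear_combination (-((k : ℝ) + 1)) * hc
  · rw [mul_pow, mul_pow, sqc_sq, sqc_sq, lower, Real.sq_sqrt hp]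
    linear_combination ((c : ℝ) - k) * hc

theorem lower_pos {c k : ℕ} (h : k < c) : 0 < lower c k :=
  Real.sqrt_pos.2 (mul_pos (by positivity) (sub_pos.2 (Nat.cast_lt.2 h)))

theorem lower_big {c k : ℕ} (h : c ≤ k) : lower c k = 0 :=
  Real.sqrt_eq_zero_of_nonpos
    (mul_nonpos_of_nonneg_of_nonpos (by positivity) (sub_nonpos.2 (Nat.cast_le.2 h)))

theorem jc_eq (r a b i j k : ℕ) : Jc r a b i j k =
    if i + j = r + k then fco r a b i j / (sqc (a + b - 2 * r) k * (sqc a i * sqc b j)) else 0 := by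
  rw [Jc, jcoef_eq]
  split_ifs with h
  · change fco r a b i j / ((a + b - 2 * r).choose k : ℝ) * sqc (a + b - 2 * r) k /
      (sqc a i * sqc b j) = _
    rw [← sqc_sq]
    rcases eq_or_ne (sqc (a + b - 2 * r) k) 0 with h0 | h0
    · simp [h0]
    · field_simp
  · simp

/-- Selection rule. -/
theorem jc_eq_zero {r a b i j k : ℕ} (h : i + j ≠ r + k) : Jc r a b i j k = 0 := by
  rw [jc_eq, if_neg h]

theorem jc_eq_zero_left {r a b i j k : ℕ} (h : a < i) : Jc r a b i j k = 0 := by
  simp [jc_eq, sqc_big h]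

theorem jc_eq_zero_right {r a b i j k : ℕ} (h : b < j) : Jc r a b i j k = 0 := by
  simp [jc_eq, sqc_big h]

theorem jc_eq_zero_out {r a b i j k : ℕ} (h : a + b - 2 * r < k) : Jc r a b i j k = 0 := by
  simp [jc_eq, sqc_big h]

theorem lower_div {c k : ℕ} (h : k ≤ c) {x : ℝ} (hx : k = c → x = 0) (y : ℝ) :
    lower c k * (x / (sqc c (k + 1) * y)) = ((k : ℝ) + 1) * x / (sqc c k * y) := by
  rcases eq_or_lt_of_le h with rfl | hlt
  · simp [hx rfl]
  have h1 := (sqc_pos h).ne'
  have h2 := (sqc_pos hlt).ne'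
  rw [show sqc c (k + 1) * y = sqc c (k + 1) * y from rfl, ← mul_div_assoc,
    show ((k : ℝ) + 1) = lower c k * sqc c k / sqc c (k + 1) by
      rw [(lower_sqc h).1]; field_simp]
  field_simp

theorem lower_div_pred {c k : ℕ} (h : k + 1 ≤ c) (x y : ℝ) :
    lower c k * (x / (sqc c k * y)) = ((c : ℝ) - k) * x / (sqc c (k + 1) * y) := by
  have hk : k ≤ c := by omega
  have h1 := (sqc_pos hk).ne'
  have h2 := (sqc_pos h).ne'
  rw [← mul_div_assoc, show ((c : ℝ) - k) = lower c k * sqc c (k + 1) / sqc c k by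
    rw [(lower_sqc hk).2]; field_simp]
  field_simp

/-- Lowering commutes with `Jc`. -/
theorem jc_lower {r a b : ℕ} (hra : r ≤ a) (hrb : r ≤ b) (i j k : ℕ) :
    lower a i * Jc r a b (i + 1) j (k + 1) + lower b j * Jc r a b i (j + 1) (k + 1) =
      lower (a + b - 2 * r) k * Jc r a b i j k := by
  rcases lt_or_ge a i with hi | hi
  · simp [jc_eq_zero_left hi, jc_eq_zero_left (show a < i + 1 by omega)]
  rcases lt_or_ge b j with hj | hj
  · simp [jc_eq_zero_right hj, jc_eq_zero_right (show b < j + 1 by omega)]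
  by_cases hs : i + j = r + k
  swap
  · simp [jc_eq_zero hs, jc_eq_zero (show i + 1 + j ≠ r + (k + 1) by omega),
      jc_eq_zero (show i + (j + 1) ≠ r + (k + 1) by omega)]
  rcases lt_or_ge (a + b - 2 * r) k with hk | hk
  · simp [jc_eq_zero_out hk, jc_eq_zero_out (show a + b - 2 * r < k + 1 by omega)]
  rw [jc_eq, if_pos (by omega), jc_eq, if_pos (by omega), jc_eq, if_pos hs]
  set c := a + b - 2 * r with hc
  rw [show sqc c (k + 1) * (sqc a (i + 1) * sqc b j) = sqc a (i + 1) * (sqc c (k + 1) * sqc b j)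
      by ring,
    show sqc c (k + 1) * (sqc a i * sqc b (j + 1)) = sqc b (j + 1) * (sqc c (k + 1) * sqc a i)
      by ring,
    lower_div hi (fun h => fco_big hra hrb (Or.inr (Or.inl (by omega)))),
    lower_div hj (fun h => fco_big hra hrb (Or.inr (Or.inr (Or.inl (by omega)))))]
  have hid := fco_lower hra hrb i j
  push_cast at hid ⊢
  have hsR : (i : ℝ) + j = r + k := by exact_mod_cast hs
  have hcR : (c : ℝ) = a + b - 2 * r := by
    rw [hc, Nat.cast_sub (by omega)]; push_cast; ring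
  rw [show (a : ℝ) + b - r - i - j = (c : ℝ) - k by linarith] at hid
  rcases eq_or_lt_of_le hk with hkc | hkc
  · subst hkc
    simp [sqc_big (Nat.lt_succ_self _), lower_big le_rfl]
  rw [lower_div_pred hkc]
  rw [show sqc a i * (sqc c (k + 1) * sqc b j) = sqc c (k + 1) * (sqc a i * sqc b j) by ring,
    show sqc b j * (sqc c (k + 1) * sqc a i) = sqc c (k + 1) * (sqc a i * sqc b j) by ring,
    ← add_div, hid]

/-- The bottom vector is killed by lowering. -/
theorem jc_lower_zero {r a b : ℕ} (hra : r ≤ a) (hrb : r ≤ b) (i j : ℕ) :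
    lower a i * Jc r a b (i + 1) j 0 + lower b j * Jc r a b i (j + 1) 0 = 0 := by
  rcases lt_or_ge a i with hi | hi
  · simp [jc_eq_zero_left hi, jc_eq_zero_left (show a < i + 1 by omega)]
  rcases lt_or_ge b j with hj | hj
  · simp [jc_eq_zero_right hj, jc_eq_zero_right (show b < j + 1 by omega)]
  by_cases hs : i + j + 1 = r
  swap
  · simp [jc_eq_zero (show i + 1 + j ≠ r + 0 by omega),
      jc_eq_zero (show i + (j + 1) ≠ r + 0 by omega)]
  rw [jc_eq, if_pos (by omega), jc_eq, if_pos (by omega)]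
  set c := a + b - 2 * r
  rw [show sqc c 0 * (sqc a (i + 1) * sqc b j) = sqc a (i + 1) * (sqc c 0 * sqc b j) by ring,
    show sqc c 0 * (sqc a i * sqc b (j + 1)) = sqc b (j + 1) * (sqc c 0 * sqc a i) by ring,
    lower_div hi (fun h => fco_big hra hrb (Or.inr (Or.inl (by omega)))),
    lower_div hj (fun h => fco_big hra hrb (Or.inr (Or.inr (Or.inl (by omega)))))]
  have hid := fco_lower hra hrb i j
  have hz : fco r a b i j = 0 := sum_eq_zero fun l hl => by
    rcases lt_or_ge i l with g | g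
    · rw [cbin_neg (show (i : ℤ) - l < 0 by omega)]; simp
    · rw [cbin_neg (show (j : ℤ) - r + l < 0 by omega)]; simp
  rw [hz, mul_zero] at hid
  push_cast at hid ⊢
  rw [show sqc a i * (sqc c 0 * sqc b j) = sqc c 0 * (sqc a i * sqc b j) by ring,
    show sqc b j * (sqc c 0 * sqc a i) = sqc c 0 * (sqc a i * sqc b j) by ring,
    ← add_div, hid, zero_div]

/-- Raising commutes with `Jc`. -/
theorem jc_raise {r a b : ℕ} (hra : r ≤ a) (hrb : r ≤ b) (i j k : ℕ) :
    (if 0 < i then lower a (i - 1) * Jc r a b (i - 1) j k else 0) +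
      (if 0 < j then lower b (j - 1) * Jc r a b i (j - 1) k else 0) =
      lower (a + b - 2 * r) k * Jc r a b i j (k + 1) := by
  rcases lt_or_ge a i with hi | hi
  · rw [jc_eq_zero_left hi, mul_zero, lower_big (show a ≤ i - 1 by omega)]
    split_ifs <;> simp [jc_eq_zero_left hi]
  rcases lt_or_ge b j with hj | hj
  · rw [jc_eq_zero_right hj, mul_zero, lower_big (show b ≤ j - 1 by omega)]
    split_ifs <;> simp [jc_eq_zero_right hj]
  by_cases hs : i + j = r + (k + 1)
  swap
  · rw [jc_eq_zero hs, mul_zero]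
    split_ifs <;>
      first
        | simp [jc_eq_zero (show i - 1 + j ≠ r + k by omega),
            jc_eq_zero (show i + (j - 1) ≠ r + k by omega)]
        | simp [jc_eq_zero (show i - 1 + j ≠ r + k by omega)]
        | simp [jc_eq_zero (show i + (j - 1) ≠ r + k by omega)]
        | simp
  set c := a + b - 2 * r with hc
  rcases lt_or_ge c k with hk | hk
  · rw [jc_eq_zero_out (k := k + 1) (show a + b - 2 * r < k + 1 by omega), mul_zero]
    split_ifs <;> simp [jc_eq_zero_out (k := k) (show a + b - 2 * r < k from hk)]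
  have e1 : (if 0 < i then lower a (i - 1) * Jc r a b (i - 1) j k else 0) =
      ((a : ℝ) - i + 1) * fco r a b ((i : ℤ) - 1) j / (sqc c k * (sqc a i * sqc b j)) := by
    rcases Nat.eq_zero_or_pos i with rfl | hi0
    · rw [if_neg (lt_irrefl 0), fco_big hra hrb (by omega)]; simp
    · obtain ⟨p, rfl⟩ : ∃ p, i = p + 1 := ⟨i - 1, by omega⟩
      rw [if_pos hi0, Nat.add_sub_cancel, jc_eq, if_pos (by omega),
        show sqc c k * (sqc a p * sqc b j) = sqc a p * (sqc c k * sqc b j) by ring,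
        lower_div_pred hi, show ((p + 1 : ℕ) : ℤ) - 1 = (p : ℤ) by omega]
      push_cast
      ring
  have e2 : (if 0 < j then lower b (j - 1) * Jc r a b i (j - 1) k else 0) =
      ((b : ℝ) - j + 1) * fco r a b i ((j : ℤ) - 1) / (sqc c k * (sqc a i * sqc b j)) := by
    rcases Nat.eq_zero_or_pos j with rfl | hj0
    · rw [if_neg (lt_irrefl 0), fco_big hra hrb (by omega)]; simp
    · obtain ⟨p, rfl⟩ : ∃ p, j = p + 1 := ⟨j - 1, by omega⟩
      rw [if_pos hj0, Nat.add_sub_cancel, jc_eq, if_pos (by omega),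
        show sqc c k * (sqc a i * sqc b p) = sqc b p * (sqc c k * sqc a i) by ring,
        lower_div_pred hj, show ((p + 1 : ℕ) : ℤ) - 1 = (p : ℤ) by omega]
      push_cast
      ring
  have hid := fco_raise hra hrb i j
  push_cast at hid
  have hsR : (i : ℝ) + j = r + ((k : ℝ) + 1) := by exact_mod_cast hs
  rw [show (i : ℝ) + j - r = (k : ℝ) + 1 by linarith] at hid
  rw [e1, e2, ← add_div, hid, jc_eq, if_pos hs]
  rw [show sqc c (k + 1) * (sqc a i * sqc b j) = sqc c (k + 1) * (sqc a i * sqc b j) from rfl,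
    lower_div hk (fun h => fco_big hra hrb (Or.inl (by omega)))]

/-! ### Norms -/

theorem choose_conv (p q : ℕ) : ∀ r, ∑ i ∈ range (r + 1), (p + (r - i)).choose (r - i) *
    (q + i).choose i = (p + q + 1 + r).choose r := by
  induction q generalizing p with
  | zero =>
    intro r
    simp only [zero_add, Nat.choose_self, mul_one, add_zero]
    rw [show ∑ i ∈ range (r + 1), (p + (r - i)).choose (r - i) =
      ∑ i ∈ range (r + 1), (p + i).choose i from sum_range_reflect (fun i => (p + i).choose i) _]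
    induction r with
    | zero => simp
    | succ r ih =>
      rw [sum_range_succ, ih, show p + 1 + (r + 1) = p + 1 + r + 1 by omega,
        Nat.choose_succ_succ' (p + 1 + r) r, show p + (r + 1) = p + 1 + r by omega]
  | succ q ih =>
    intro r
    induction r with
    | zero => simp
    | succ r ihr =>
      rw [sum_range_succ']
      simp only [Nat.succ_sub_succ, Nat.add_zero, Nat.choose_zero_right, mul_one, Nat.sub_zero]
      have e : ∀ i, (q + 1 + (i + 1)).choose (i + 1) =
          (q + 1 + i).choose i + (q + (i + 1)).choose (i + 1) := fun i => by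
        rw [show q + 1 + (i + 1) = q + 1 + i + 1 by omega, Nat.choose_succ_succ',
          show q + (i + 1) = q + 1 + i by omega]
      simp only [e, mul_add, sum_add_distrib]
      rw [ihr, add_assoc]
      have h2 := ih p (r + 1)
      rw [sum_range_succ'] at h2
      simp only [Nat.succ_sub_succ, Nat.add_zero, Nat.choose_zero_right, mul_one,
        Nat.sub_zero] at h2
      rw [h2, show p + (q + 1) + 1 + (r + 1) = p + (q + 1) + 1 + r + 1 by omega,
        Nat.choose_succ_succ', show p + q + 1 + (r + 1) = p + (q + 1) + 1 + r by omega]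

theorem kappa_pos {r a b : ℕ} (hra : r ≤ a) (hrb : r ≤ b) : 0 < kappa r a b :=
  div_pos (Nat.cast_pos.2 (Nat.choose_pos (by omega)))
    (mul_pos (Nat.cast_pos.2 (Nat.choose_pos hra)) (Nat.cast_pos.2 (Nat.choose_pos hrb)))

theorem fco_bottom (r a b : ℕ) {i : ℕ} (hi : i ≤ r) :
    fco r a b i ((r - i : ℕ) : ℤ) = sbin r i := by
  rw [fco, sum_eq_single_of_mem i (mem_range.2 (by omega)) fun l hl hne => ?_]
  · rw [show ((r - i : ℕ) : ℤ) - r + i = ((0 : ℕ) : ℤ) by omega,
      show (i : ℤ) - i = ((0 : ℕ) : ℤ) by omega, cbin_natCast, cbin_natCast]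
    simp
  · rcases lt_or_ge i l with g | g
    · rw [cbin_neg (show (i : ℤ) - l < 0 by omega)]; simp
    · rw [cbin_neg (show ((r - i : ℕ) : ℤ) - r + l < 0 by omega)]; simp

theorem jc_norm_zero {r a b : ℕ} (hra : r ≤ a) (hrb : r ≤ b) :
    ∑ i ∈ range (a + 1), ∑ j ∈ range (b + 1), Jc r a b i j 0 * Jc r a b i j 0 = kappa r a b := by
  have h1 : ∑ i ∈ range (a + 1), ∑ j ∈ range (b + 1), Jc r a b i j 0 * Jc r a b i j 0 =
      ∑ i ∈ range (r + 1), Jc r a b i (r - i) 0 * Jc r a b i (r - i) 0 := by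
    rw [← sum_subset (range_mono (show r + 1 ≤ a + 1 by omega)) fun i _ hi => ?_]
    · refine sum_congr rfl fun i hi => ?_
      have hi' := mem_range.1 hi
      refine sum_eq_single_of_mem (r - i) (mem_range.2 (by omega)) fun j _ hj => ?_
      rw [jc_eq_zero (show i + j ≠ r + 0 by omega), zero_mul]
    · rw [mem_range, not_lt] at hi
      exact sum_eq_zero fun j _ => by rw [jc_eq_zero (show i + j ≠ r + 0 by omega), zero_mul]
  rw [h1, kappa]
  have hA : (a.choose r : ℝ) ≠ 0 := (Nat.cast_pos.2 (Nat.choose_pos hra)).ne'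
  have hB : (b.choose r : ℝ) ≠ 0 := (Nat.cast_pos.2 (Nat.choose_pos hrb)).ne'
  rw [eq_div_iff (mul_ne_zero hA hB), sum_mul]
  have e := choose_conv (a - r) (b - r) r
  rw [show a - r + (b - r) + 1 + r = a + b - r + 1 by omega] at e
  rw [← e, Nat.cast_sum]
  refine sum_congr rfl fun i hi => ?_
  have hi' : i ≤ r := Nat.lt_succ_iff.1 (mem_range.1 hi)
  rw [jc_eq, if_pos (by omega), fco_bottom r a b hi',
    show sqc (a + b - 2 * r) 0 = 1 by simp [sqc], one_mul, div_mul_div_comm,
    show sqc a i * sqc b (r - i) * (sqc a i * sqc b (r - i)) =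
      sqc a i ^ 2 * sqc b (r - i) ^ 2 by ring, sqc_sq, sqc_sq, sbin,
    show (-1 : ℝ) ^ (r - i) * (r.choose i : ℝ) * ((-1 : ℝ) ^ (r - i) * (r.choose i : ℝ)) =
      ((-1 : ℝ) * -1) ^ (r - i) * ((r.choose i : ℝ) * (r.choose i : ℝ)) by rw [mul_pow]; ring,
    show ((-1 : ℝ) * -1) = 1 by norm_num, one_pow, one_mul, div_mul_eq_mul_div,
    div_eq_iff (mul_ne_zero (Nat.cast_pos.2 (Nat.choose_pos (by omega))).ne'
      (Nat.cast_pos.2 (Nat.choose_pos (by omega))).ne')]
  have n1 := Nat.choose_mul hi' (n := a)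
  have n2 := Nat.choose_mul (show r - i ≤ r by omega) (n := b)
  rw [Nat.choose_symm hi', show r - (r - i) = i by omega] at n2
  rw [show a - r + (r - i) = a - i by omega, show b - r + i = b - (r - i) by omega]
  have m1 := congrArg (Nat.cast : ℕ → ℝ) n1
  have m2 := congrArg (Nat.cast : ℕ → ℝ) n2
  push_cast at m1 m2 ⊢
  calc (r.choose i : ℝ) * (r.choose i : ℝ) * ((a.choose r : ℝ) * (b.choose r : ℝ))
      = ((a.choose r : ℝ) * (r.choose i : ℝ)) * ((b.choose r : ℝ) * (r.choose i : ℝ)) := by ring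
    _ = _ := by rw [m1, m2]; ring

/-- Summation by parts for raising. -/
theorem sum_shift (n : ℕ) (w G F : ℕ → ℝ) (hw : w n = 0) :
    ∑ i ∈ range (n + 1), G i * (if 0 < i then w (i - 1) * F (i - 1) else 0) =
      ∑ i ∈ range (n + 1), w i * G (i + 1) * F i := by
  rw [sum_range_succ', sum_range_succ (fun i => w i * G (i + 1) * F i), hw]
  simp only [lt_irrefl, if_false, mul_zero, add_zero, zero_mul, Nat.succ_pos, if_true,
    Nat.add_sub_cancel]
  exact sum_congr rfl fun i _ => by ring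

/-- Raising is adjoint to lowering on a pair of charges. -/
theorem pair_adjoint (a b : ℕ) (G F : ℕ → ℕ → ℝ) :
    ∑ i ∈ range (a + 1), ∑ j ∈ range (b + 1), G i j *
      ((if 0 < i then lower a (i - 1) * F (i - 1) j else 0) +
        (if 0 < j then lower b (j - 1) * F i (j - 1) else 0)) =
    ∑ i ∈ range (a + 1), ∑ j ∈ range (b + 1),
      (lower a i * G (i + 1) j + lower b j * G i (j + 1)) * F i j := by
  simp only [mul_add, add_mul, sum_add_distrib]
  refine congrArg₂ (· + ·) ?_ ?_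
  · rw [sum_comm, sum_comm (s := range (a + 1))]
    exact sum_congr rfl fun j _ =>
      sum_shift a (lower a) (fun i => G i j) (fun i => F i j) (lower_big le_rfl)
  · exact sum_congr rfl fun i _ =>
      sum_shift b (lower b) (fun j => G i j) (fun j => F i j) (lower_big le_rfl)

/-- Inner product of two columns. -/
noncomputable def jgram (r r' a b k k' : ℕ) : ℝ :=
  ∑ i ∈ range (a + 1), ∑ j ∈ range (b + 1), Jc r a b i j k * Jc r' a b i j k'

theorem jgram_step {r r' a b : ℕ} (hra : r ≤ a) (hrb : r ≤ b) (hra' : r' ≤ a) (hrb' : r' ≤ b)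
    (k k' : ℕ) : lower (a + b - 2 * r') k' * jgram r r' a b (k + 1) (k' + 1) =
      lower (a + b - 2 * r) k * jgram r r' a b k k' := by
  have h1 : lower (a + b - 2 * r') k' * jgram r r' a b (k + 1) (k' + 1) =
      ∑ i ∈ range (a + 1), ∑ j ∈ range (b + 1), Jc r a b i j (k + 1) *
        ((if 0 < i then lower a (i - 1) * Jc r' a b (i - 1) j k' else 0) +
          (if 0 < j then lower b (j - 1) * Jc r' a b i (j - 1) k' else 0)) := by
    simp only [jgram, mul_sum, jc_raise hra' hrb']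
    exact sum_congr rfl fun i _ => sum_congr rfl fun j _ => by ring
  rw [h1, pair_adjoint a b (fun i j => Jc r a b i j (k + 1)) (fun i j => Jc r' a b i j k')]
  simp only [jgram, mul_sum, jc_lower hra hrb]
  exact sum_congr rfl fun i _ => sum_congr rfl fun j _ => by ring

theorem jgram_bottom {r r' a b : ℕ} (hra : r ≤ a) (hrb : r ≤ b) (hra' : r' ≤ a) (hrb' : r' ≤ b)
    (k' : ℕ) : lower (a + b - 2 * r') k' * jgram r r' a b 0 (k' + 1) = 0 := by
  have h1 : lower (a + b - 2 * r') k' * jgram r r' a b 0 (k' + 1) =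
      ∑ i ∈ range (a + 1), ∑ j ∈ range (b + 1), Jc r a b i j 0 *
        ((if 0 < i then lower a (i - 1) * Jc r' a b (i - 1) j k' else 0) +
          (if 0 < j then lower b (j - 1) * Jc r' a b i (j - 1) k' else 0)) := by
    simp only [jgram, mul_sum, jc_raise hra' hrb']
    exact sum_congr rfl fun i _ => sum_congr rfl fun j _ => by ring
  rw [h1, pair_adjoint a b (fun i j => Jc r a b i j 0) (fun i j => Jc r' a b i j k')]
  simp [jc_lower_zero hra hrb]

theorem jgram_comm (r r' a b k k' : ℕ) : jgram r r' a b k k' = jgram r' r a b k' k :=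
  sum_congr rfl fun _ _ => sum_congr rfl fun _ _ => mul_comm _ _

theorem jgram_eq_zero {r r' a b k k' : ℕ} (h : r + k ≠ r' + k') : jgram r r' a b k k' = 0 := by
  refine sum_eq_zero fun i _ => sum_eq_zero fun j _ => ?_
  by_cases h1 : i + j = r + k
  · rw [jc_eq_zero (r := r') (k := k') (by omega), mul_zero]
  · rw [jc_eq_zero h1, zero_mul]

/-- `Jc r a b` is a multiple of an isometry. -/
theorem jc_orth {r a b : ℕ} (hra : r ≤ a) (hrb : r ≤ b) {k k' : ℕ} (hk : k ≤ a + b - 2 * r)
    (hk' : k' ≤ a + b - 2 * r) :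
    ∑ i ∈ range (a + 1), ∑ j ∈ range (b + 1), Jc r a b i j k * Jc r a b i j k' =
      if k = k' then kappa r a b else 0 := by
  rcases eq_or_ne k k' with rfl | hne
  · rw [if_pos rfl]
    clear hk'
    induction k with
    | zero => exact jc_norm_zero hra hrb
    | succ k ih =>
      have hs := jgram_step hra hrb hra hrb k k
      exact (mul_left_cancel₀ (lower_pos (show k < a + b - 2 * r by omega)).ne' hs).trans
        (ih (by omega))
  · rw [if_neg hne]
    exact jgram_eq_zero (show r + k ≠ r + k' by omega)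

/-- Different channels are orthogonal. -/
theorem jc_cross {r r' a b : ℕ} (hra : r ≤ a) (hrb : r ≤ b) (hra' : r' ≤ a) (hrb' : r' ≤ b)
    (hne : r ≠ r') (k k' : ℕ) :
    ∑ i ∈ range (a + 1), ∑ j ∈ range (b + 1), Jc r a b i j k * Jc r' a b i j k' = 0 := by
  change jgram r r' a b k k' = 0
  wlog hlt : r < r' generalizing r r' k k'
  · rw [jgram_comm]
    exact this hra' hrb' hra hrb hne.symm k' k (by omega)
  by_cases hs : r + k = r' + k'
  swap
  · exact jgram_eq_zero hs
  rcases lt_or_ge (a + b - 2 * r) k with hk | hk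
  · exact sum_eq_zero fun i _ => sum_eq_zero fun j _ => by rw [jc_eq_zero_out hk, zero_mul]
  induction k' generalizing k with
  | zero =>
    obtain ⟨p, rfl⟩ : ∃ p, k = p + 1 := ⟨k - 1, by omega⟩
    have := jgram_bottom hra' hrb' hra hrb p
    rw [jgram_comm] at this
    exact (mul_eq_zero.1 this).resolve_left (lower_pos (show p < a + b - 2 * r by omega)).ne'
  | succ k' ih =>
    obtain ⟨p, rfl⟩ : ∃ p, k = p + 1 := ⟨k - 1, by omega⟩
    have hs' := jgram_step hra hrb hra' hrb' p k'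
    rcases lt_or_ge k' (a + b - 2 * r') with hk' | hk'
    · rw [ih p (by omega) (by omega), mul_zero] at hs'
      exact (mul_eq_zero.1 hs').resolve_left (lower_pos hk').ne'
    · exact sum_eq_zero fun i _ => sum_eq_zero fun j _ => by
        rw [jc_eq_zero_out (r := r') (k := k' + 1) (show a + b - 2 * r' < k' + 1 by omega),
          mul_zero]

theorem sum_charges (a b : ℕ) : ∀ n, n ≤ min a b + 1 →
    ∑ r ∈ range n, (a + b - 2 * r + 1) = n * (a + b + 2 - n) := by
  intro n hn
  induction n with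
  | zero => simp
  | succ n ih =>
    rw [sum_range_succ, ih (by omega)]
    obtain ⟨d, hd⟩ : ∃ d, a + b = 2 * n + d := ⟨a + b - 2 * n, by omega⟩
    rw [hd, show 2 * n + d - 2 * n = d by omega, show 2 * n + d + 2 - n = n + d + 2 by omega,
      show 2 * n + d + 2 - (n + 1) = n + d + 1 by omega]
    ring

/-- The channels fill the product. -/
theorem jc_complete {a b x y x' y' : ℕ} (hx : x ≤ a) (hy : y ≤ b) (hx' : x' ≤ a) (hy' : y' ≤ b) :
    ∑ r ∈ range (min a b + 1), ∑ Z ∈ range (a + b - 2 * r + 1),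
      Jc r a b x y Z * Jc r a b x' y' Z / kappa r a b = if x = x' ∧ y = y' then 1 else 0 := by
  set U : Matrix (Fin (a + 1) × Fin (b + 1))
      (Σ r : Fin (min a b + 1), Fin (a + b - 2 * (r : ℕ) + 1)) ℝ :=
    Matrix.of fun p q => Jc q.1 a b p.1 p.2 q.2 / Real.sqrt (kappa q.1 a b) with hU
  have hle : ∀ r : Fin (min a b + 1), (r : ℕ) ≤ a ∧ (r : ℕ) ≤ b := fun r => by omega
  have h1 : U.transpose * U = 1 := by
    ext q q'
    simp only [Matrix.mul_apply, Matrix.transpose_apply, hU, Matrix.of_apply, Fintype.sum_prod_type,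
      div_mul_div_comm, ← sum_div]
    rw [Fin.sum_univ_eq_sum_range (fun i => ∑ j : Fin (b + 1),
      Jc q.1 a b i j q.2 * Jc q'.1 a b i j q'.2)]
    simp only [fun i : ℕ => Fin.sum_univ_eq_sum_range
      (fun j => Jc q.1 a b i j q.2 * Jc q'.1 a b i j q'.2) (b + 1)]
    obtain ⟨⟨r, hr⟩, k⟩ := q
    obtain ⟨⟨r', hr'⟩, k'⟩ := q'
    obtain ⟨g1, g2⟩ := hle ⟨r, hr⟩
    obtain ⟨g3, g4⟩ := hle ⟨r', hr'⟩
    simp only at g1 g2 g3 g4 ⊢
    rcases eq_or_ne r r' with rfl | hne
    · rw [jc_orth g1 g2 (Nat.lt_succ_iff.1 k.isLt) (Nat.lt_succ_iff.1 k'.isLt)]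
      rcases eq_or_ne k k' with rfl | hk
      · rw [if_pos rfl, Matrix.one_apply_eq, Real.mul_self_sqrt (kappa_pos g1 g2).le,
          div_self (kappa_pos g1 g2).ne']
      · rw [if_neg (fun h => hk (Fin.ext h)), zero_div, Matrix.one_apply_ne]
        simpa using hk
    · rw [jc_cross g1 g2 g3 g4 hne, zero_div, Matrix.one_apply_ne]
      simp [hne]
  have hcard : Fintype.card (Fin (a + 1) × Fin (b + 1)) =
      Fintype.card (Σ r : Fin (min a b + 1), Fin (a + b - 2 * (r : ℕ) + 1)) := by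
    rw [Fintype.card_sigma, Fintype.card_prod]
    simp only [Fintype.card_fin]
    rw [Fin.sum_univ_eq_sum_range (fun r => a + b - 2 * r + 1), sum_charges a b _ le_rfl]
    rcases Nat.le_total a b with h | h
    · rw [min_eq_left h, show a + b + 2 - (a + 1) = b + 1 by omega]
    · rw [min_eq_right h, show a + b + 2 - (b + 1) = a + 1 by omega, Nat.mul_comm]
  have h2 : U * U.transpose = 1 :=
    (Matrix.mul_eq_one_comm_of_equiv (Fintype.equivOfCardEq hcard).symm).1 h1
  have h3 := congrFun (congrFun h2 (⟨x, Nat.lt_succ_iff.2 hx⟩, ⟨y, Nat.lt_succ_iff.2 hy⟩))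
    (⟨x', Nat.lt_succ_iff.2 hx'⟩, ⟨y', Nat.lt_succ_iff.2 hy'⟩)
  simp only [Matrix.mul_apply, Matrix.transpose_apply, hU, Matrix.of_apply, Fintype.sum_sigma] at h3
  rw [Matrix.one_apply] at h3
  simp only [Prod.mk.injEq, Fin.mk.injEq] at h3
  rw [← h3, ← Fin.sum_univ_eq_sum_range (fun r => ∑ Z ∈ range (a + b - 2 * r + 1),
      Jc r a b x y Z * Jc r a b x' y' Z / kappa r a b)]
  refine sum_congr rfl fun r _ => ?_
  rw [← Fin.sum_univ_eq_sum_range (fun Z =>
    Jc r a b x y Z * Jc r a b x' y' Z / kappa r a b)]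
  refine sum_congr rfl fun Z _ => ?_
  rw [div_mul_div_comm, Real.mul_self_sqrt (kappa_pos (hle r).1 (hle r).2).le]

end Vale.Agent.P359.Gap
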