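import Vale.Agent.P359.Gap.LiftMat
import Vale.Agent.P359.Gap.Ladder
import Vale.Agent.P359.Binomial

/-!
# P359, gap M5: from the highest weight bounds to the three-body form on every slice
-/

open Finset Matrix
open scoped Classical Kronecker

namespace Vale.Agent.P359.Gap.Lift

set_option linter.unusedSectionVars false

/-- `Jc` as a matrix. -/
noncomputable def Jm (r a b c : ℕ) : Matrix (Fin (a + 1) × Fin (b + 1)) (Fin (c + 1)) ℝ :=
  fun p k => Jc r a b p.1 p.2 k

theorem jm_inter {r a b c : ℕ} (hra : r ≤ a) (hrb : r ≤ b) (hc : a + b = c + 2 * r) :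
    Inter (tens (Low a) (Low b)) (Low c) (Jm r a b c) := by
  obtain rfl : c = a + b - 2 * r := by omega
  have hR : ∀ (i : Fin (a + 1)) (j : Fin (b + 1)) (k : Fin (a + b - 2 * r + 1)),
      (Jm r a b (a + b - 2 * r) * Low (a + b - 2 * r)) (i, j) k =
        if 1 ≤ (k : ℕ) then lower (a + b - 2 * r) ((k : ℕ) - 1) * Jc r a b i j ((k : ℕ) - 1)
        else 0 := by
    intro i j k
    simp only [mul_apply, Jm]
    rw [Finset.sum_congr rfl (fun l _ => mul_comm _ _), Low_transpose_sum]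
    split_ifs <;> rfl
  have hR' : ∀ (i : Fin (a + 1)) (j : Fin (b + 1)) (k : Fin (a + b - 2 * r + 1)),
      (Jm r a b (a + b - 2 * r) * (Low (a + b - 2 * r))ᵀ) (i, j) k =
        lower (a + b - 2 * r) k * Jc r a b i j ((k : ℕ) + 1) := by
    intro i j k
    simp only [mul_apply, Jm, transpose_apply]
    rw [Finset.sum_congr rfl (fun l _ => mul_comm _ _), Low_apply_sum]
    split_ifs with h
    · rfl
    · rw [jc_eq_zero_out (by omega), mul_zero]
  constructor
  · ext ⟨i, j⟩ k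
    rw [hR]
    simp only [mul_apply, tens_apply, Jm, add_mul, Finset.sum_add_distrib, Fintype.sum_prod_type,
      ite_mul, zero_mul, Finset.sum_ite_eq, mem_univ, if_true, Finset.sum_ite_irrel,
      Finset.sum_const_zero, Low_apply_sum]
    have hi : (if h : (i : ℕ) + 1 < a + 1 then lower a i * Jc r a b ((i : ℕ) + 1) j k else 0) =
        lower a i * Jc r a b ((i : ℕ) + 1) j k := by
      split_ifs with h
      · rfl
      · rw [jc_eq_zero_left (by omega), mul_zero]
    have hj : (if h : (j : ℕ) + 1 < b + 1 then lower b j * Jc r a b i ((j : ℕ) + 1) k else 0) =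
        lower b j * Jc r a b i ((j : ℕ) + 1) k := by
      split_ifs with h
      · rfl
      · rw [jc_eq_zero_right (by omega), mul_zero]
    rw [hi, hj]
    by_cases hk : 1 ≤ (k : ℕ)
    · rw [if_pos hk]
      have h := jc_lower hra hrb (i : ℕ) (j : ℕ) ((k : ℕ) - 1)
      rwa [Nat.sub_add_cancel hk] at h
    · rw [if_neg hk, show (k : ℕ) = 0 by omega]
      exact jc_lower_zero hra hrb _ _
  · ext ⟨i, j⟩ k
    rw [hR', tens_transpose]
    simp only [mul_apply, tens_apply, Jm, add_mul, Finset.sum_add_distrib, Fintype.sum_prod_type,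
      ite_mul, zero_mul, Finset.sum_ite_eq, mem_univ, if_true, Finset.sum_ite_irrel,
      Finset.sum_const_zero, transpose_apply, Low_transpose_sum]
    rw [← jc_raise hra hrb (i : ℕ) (j : ℕ) (k : ℕ)]
    congr 1

theorem complete_mat (a b : ℕ) (i i' : Fin (a + 1)) (j j' : Fin (b + 1)) :
    ∑ r ∈ range (b + 1), (kappa r a b)⁻¹ *
      ∑ k ∈ range (a + b - 2 * r + 1), Jc r a b i j k * Jc r a b i' j' k =
      if i = i' ∧ j = j' then 1 else 0 := by
  have h := jc_complete (a := a) (b := b) (x := (i : ℕ)) (y := (j : ℕ)) (x' := (i' : ℕ))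
    (y' := (j' : ℕ)) (by omega) (by omega) (by omega) (by omega)
  simp only [Fin.val_inj] at h
  rw [← h]
  symm
  refine Eq.trans ?_ (Finset.sum_subset (s₁ := range (min a b + 1)) ?_ ?_)
  · refine Finset.sum_congr rfl fun r _ => ?_
    rw [Finset.mul_sum]
    exact Finset.sum_congr rfl fun k _ => by ring
  · intro r hr
    simp only [mem_range] at hr ⊢
    omega
  · intro r hr hr'
    simp only [mem_range] at hr hr'
    simp [kappa, Nat.choose_eq_zero_of_lt (show a < r by omega)]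

theorem Jc_degree {r a b i j k : ℕ} (h : Jc r a b i j k ≠ 0) : i + j = k + r := by
  have h' : jcoef r a b i j k ≠ 0 := fun e => h (by simp [Jc, e])
  obtain ⟨l, hl, hl'⟩ := Finset.exists_ne_zero_of_sum_ne_zero h'
  have hl2 := mem_range.1 hl
  by_cases hc : l ≤ i ∧ r - l ≤ j ∧ (i - l) + (j - (r - l)) = k
  · omega
  · exact absurd (if_neg hc) hl'

theorem Jc_out {r a b i j k : ℕ} (h : a + b - 2 * r < k) : Jc r a b i j k = 0 := by
  simp [Jc, Nat.choose_eq_zero_of_lt h]

theorem jcoef_one {Q a b k : ℕ} (hQ : 1 ≤ Q) (h : a + b = k + 1) :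
    jcoef 1 Q Q a b k = ((a : ℝ) - b) * (Q.choose a : ℝ) * (Q.choose b : ℝ) /
      ((Q : ℝ) * ((Q + Q - 2 * 1).choose k : ℝ)) := by
  have hc : ∀ c : ℕ, ((c : ℝ)) * (Q.choose c : ℝ) =
      (Q : ℝ) * (if 1 ≤ c then ((Q - 1).choose (c - 1) : ℝ) else 0) := by
    intro c
    rcases c with _ | c
    · simp
    · simpa using absorb Q c
  have hd : ∀ c : ℕ, ((Q : ℝ) - c) * (Q.choose c : ℝ) = (Q : ℝ) * ((Q - 1).choose c : ℝ) := by
    intro c
    rw [← choose_step, absorb]
  have hQ0 : (Q : ℝ) ≠ 0 := by exact_mod_cast (by omega : Q ≠ 0)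
  have key : ((a : ℝ) - b) * (Q.choose a : ℝ) * (Q.choose b : ℝ) / (Q : ℝ) =
      (if 1 ≤ a then ((Q - 1).choose (a - 1) : ℝ) else 0) * ((Q - 1).choose b : ℝ) -
      ((Q - 1).choose a : ℝ) * (if 1 ≤ b then ((Q - 1).choose (b - 1) : ℝ) else 0) := by
    rw [div_eq_iff hQ0]
    refine mul_left_cancel₀ hQ0 ?_
    linear_combination ((Q : ℝ) - b) * (Q.choose b : ℝ) * hc a
      - ((Q : ℝ) - a) * (Q.choose a : ℝ) * hc b
      + (Q : ℝ) * (if 1 ≤ a then ((Q - 1).choose (a - 1) : ℝ) else 0) * hd b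
      - (Q : ℝ) * (if 1 ≤ b then ((Q - 1).choose (b - 1) : ℝ) else 0) * hd a
  rw [← div_div, key]
  simp only [jcoef, Finset.sum_range_succ, Finset.sum_range_zero, zero_add]
  split_ifs <;> simp_all <;> first | omega | ring

theorem pairVec_eq (Q S : ℕ) (a b : Fin (Q + 1)) (h1 : 1 ≤ S) (_h2 : S ≤ 2 * Q - 1) :
    pairVec Q S a b = -(Q : ℝ) * Real.sqrt ((2 * Q - 2).choose (S - 1)) *
      Jc 1 Q Q a b (S - 1) := by
  by_cases h : (a : ℕ) + b = S
  · rw [pairVec, if_pos h, Jc, jcoef_one (k := S - 1) (by omega) (by omega),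
      show Q + Q - 2 * 1 = 2 * Q - 2 by omega]
    have hc : (0 : ℝ) < ((2 * Q - 2).choose (S - 1) : ℝ) := by
      exact_mod_cast Nat.choose_pos (by omega)
    have hQ0 : (Q : ℝ) ≠ 0 := by exact_mod_cast (by omega : Q ≠ 0)
    have ha : (0 : ℝ) < (Q.choose a : ℝ) := by exact_mod_cast Nat.choose_pos (by omega)
    have hb : (0 : ℝ) < (Q.choose b : ℝ) := by exact_mod_cast Nat.choose_pos (by omega)
    have s1 := Real.sqrt_pos.2 ha
    have s2 := Real.sqrt_pos.2 hb
    have e1 := Real.mul_self_sqrt hc.le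
    have e2 := Real.mul_self_sqrt ha.le
    have e3 := Real.mul_self_sqrt hb.le
    field_simp
    grobner
  · rw [pairVec, if_neg h]
    by_cases hJ : Jc 1 Q Q a b (S - 1) = 0
    · rw [hJ, mul_zero]
    · exact absurd (Jc_degree hJ) (by omega)

theorem pairNormSq_eq (Q S : ℕ) (h1 : 1 ≤ S) (h2 : S ≤ 2 * Q - 1) :
    pairNormSq Q S = (Q : ℝ) ^ 2 * ((2 * Q - 2).choose (S - 1) : ℝ) * kappa 1 Q Q := by
  have hQ0 : (Q : ℝ) ≠ 0 := by exact_mod_cast (by omega : Q ≠ 0)
  have hk : kappa 1 Q Q = 2 / (Q : ℝ) := by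
    simp only [kappa, Nat.choose_one_right, show Q + Q - 1 + 1 = 2 * Q by omega]
    push_cast
    field_simp
  have hsum : pairNormSq Q S =
      ∑ a ∈ range (S + 1), ((S : ℝ) - 2 * a) ^ 2 * (Q.choose a : ℝ) * (Q.choose (S - a) : ℝ) := by
    simp only [pairNormSq]
    calc _ = ∑ a : Fin (Q + 1), if (a : ℕ) ≤ S then ((S : ℝ) - 2 * (a : ℕ)) ^ 2 *
          (Q.choose a : ℝ) * (Q.choose (S - a) : ℝ) else 0 := by
            refine Finset.sum_congr rfl fun a _ => ?_
            by_cases hab : (a : ℕ) ≤ S ∧ S - a ≤ Q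
            · rw [if_pos hab.1, Finset.sum_eq_single (⟨S - a, by omega⟩ : Fin (Q + 1))]
              · rw [pairVec, if_pos (show (a : ℕ) + (S - a) = S by omega), mul_pow, mul_pow,
                  Real.sq_sqrt (Nat.cast_nonneg _), Real.sq_sqrt (Nat.cast_nonneg _),
                  Nat.cast_sub hab.1]
                ring
              · intro b _ hb
                rw [pairVec, if_neg (fun e => hb (Fin.ext (show (b : ℕ) = S - a by omega)))]
                ring
              · simp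
            · rw [Finset.sum_eq_zero fun b _ => ?_]
              · split_ifs with h
                · rw [Nat.choose_eq_zero_of_lt (show Q < S - a by omega)]
                  simp
                · rfl
              · rw [pairVec, if_neg (by omega)]
                ring
      _ = ∑ a ∈ (range (Q + 1)).filter (fun a => a ≤ S),
          ((S : ℝ) - 2 * a) ^ 2 * (Q.choose a : ℝ) * (Q.choose (S - a) : ℝ) := by
            rw [Finset.sum_filter, Finset.sum_range]
      _ = _ := by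
            refine Finset.sum_subset (fun a ha => ?_) (fun a ha ha' => ?_)
            · simp only [mem_filter, mem_range] at ha ⊢; omega
            · simp only [mem_filter, mem_range] at ha ha'
              rw [Nat.choose_eq_zero_of_lt (show Q < a by omega)]
              simp
  rw [hk, hsum]
  rcases lt_or_ge Q 2 with hQ | hQ
  · obtain rfl : Q = 1 := by omega
    obtain rfl : S = 1 := by omega
    norm_num [Finset.sum_range_succ]
  · rw [centred Q S h1 hQ]
    field_simp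

/-- Indices of impurity and two particles. -/
abbrev I3 (P Q : ℕ) := (Fin (P + 1) × Fin (Q + 1)) × Fin (Q + 1)

/-- Lowering on the three factors. -/
noncomputable def L3 (P Q : ℕ) : Matrix (I3 P Q) (I3 P Q) ℝ :=
  tens (tens (Low P) (Low Q)) (Low Q)

/-- The degree. -/
def deg3 {P Q : ℕ} (p : I3 P Q) : ℕ := (p.1.1 : ℕ) + p.1.2 + p.2

theorem L3_ladder (P Q : ℕ) : Ladder (L3 P Q) deg3 ((P : ℝ) + Q + Q) :=
  ((Low_ladder P).tens (Low_ladder Q)).tens (Low_ladder Q)

/-- Exchange of the two particles. -/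
def sw (P Q : ℕ) : I3 P Q ≃ I3 P Q where
  toFun p := ((p.1.1, p.2), p.1.2)
  invFun p := ((p.1.1, p.2), p.1.2)
  left_inv _ := rfl
  right_inv _ := rfl

theorem L3_swap (P Q : ℕ) : (L3 P Q).submatrix (sw P Q) (sw P Q) = L3 P Q := by
  ext ⟨⟨M, x⟩, y⟩ ⟨⟨M', x'⟩, y'⟩
  simp only [L3, submatrix_apply, tens_apply, sw, Equiv.coe_fn_mk, Prod.mk.injEq]
  by_cases h1 : M = M' <;> by_cases h2 : x = x' <;> by_cases h3 : y = y' <;>
    simp [h1, h2, h3] <;> abel

/-- A function on the three factors as a vector. -/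
def vec (P Q : ℕ) (f : ℕ → Fin (Q + 1) → Fin (Q + 1) → ℝ) : I3 P Q → ℝ :=
  fun p => f p.1.1 p.1.2 p.2

theorem self_form {ι κ' : Type*} [Fintype ι] [Fintype κ'] (G : Matrix ι κ' ℝ) (v : ι → ℝ) :
    v ⬝ᵥ ((G * Gᵀ) *ᵥ v) = (Gᵀ *ᵥ v) ⬝ᵥ (Gᵀ *ᵥ v) := by
  rw [← mulVec_mulVec, dotProduct_mulVec, ← mulVec_transpose]

/-! ### The squares -/

/-- The channels of a square are genuine at flux `Q`. -/
def Adm (Q : ℕ) (t : Sq) : Prop :=
  -(Q : ℤ) < t.n ∧ ∀ r ∈ t.S, 0 ≤ (r : ℤ) + t.n ∧ 2 * r ≤ Q ∧ 2 * ((r : ℤ) + t.n) ≤ Q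

/-- The map of one square on the impurity and the first particle. -/
noncomputable def Amat (t : Sq) (Q : ℕ) : Matrix (I3 (t.outChg Q) Q) (I3 (impChg Q) Q) ℝ :=
  ∑ r ∈ t.S, t.coef Q r •
    ((Jm (t.outCh r) (t.outChg Q) Q (chg Q r) * (Jm r (impChg Q) Q (chg Q r))ᵀ) ⊗ₖ
      (1 : Matrix (Fin (Q + 1)) (Fin (Q + 1)) ℝ))

/-- The form of the cross term of one square. -/
noncomputable def Kcross (t : Sq) (Q : ℕ) : Matrix (I3 (impChg Q) Q) (I3 (impChg Q) Q) ℝ :=
  (Amat t Q)ᵀ * (Amat t Q).submatrix (sw _ Q) (sw _ Q)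

theorem adm_out {Q : ℕ} {t : Sq} (ht : Adm Q t) {r : ℕ} (hr : r ∈ t.S) :
    t.outCh r ≤ t.outChg Q ∧ t.outCh r ≤ Q ∧ r ≤ impChg Q ∧ r ≤ Q ∧
      t.outChg Q + Q = chg Q r + 2 * t.outCh r ∧ impChg Q + Q = chg Q r + 2 * r := by
  obtain ⟨h0, h⟩ := ht
  obtain ⟨h1, h2, h3⟩ := h r hr
  simp only [Sq.outCh, Sq.outChg, impChg, chg]
  omega

theorem Amat_inter {Q : ℕ} {t : Sq} (ht : Adm Q t) :
    Inter (L3 (t.outChg Q) Q) (L3 (impChg Q) Q) (Amat t Q) := by
  refine Inter.sum _ _ fun r hr => Inter.smul _ ?_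
  obtain ⟨a1, a2, a3, a4, a5, a6⟩ := adm_out ht hr
  exact (((jm_inter a1 a2 a5).comp (jm_inter a3 a4 a6).transpose)).right (Low Q)

theorem Kcross_inter {Q : ℕ} {t : Sq} (ht : Adm Q t) :
    Inter (L3 (impChg Q) Q) (L3 (impChg Q) Q) (Kcross t Q) := by
  refine (Amat_inter ht).transpose.comp ?_
  have h := (Amat_inter ht).reindex (sw (t.outChg Q) Q) (sw (impChg Q) Q)
  rwa [L3_swap, L3_swap] at h

theorem Amat_apply (t : Sq) (Q : ℕ) (f : ℕ → Fin (Q + 1) → Fin (Q + 1) → ℝ)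
    (o : I3 (t.outChg Q) Q) :
    (Amat t Q *ᵥ vec (impChg Q) Q f) o = t.apply3 f o.1.1 o.1.2 o.2 := by
  obtain ⟨⟨y, x⟩, x'⟩ := o
  simp only [Amat, Matrix.sum_mulVec, Finset.sum_apply, smul_mulVec, Pi.smul_apply, smul_eq_mul,
    Sq.apply3]
  refine Finset.sum_congr rfl fun r _ => ?_
  congr 1
  simp only [mulVec, dotProduct, Fintype.sum_prod_type, kroneckerMap_apply, one_apply, mul_ite,
    ite_mul, mul_one, zero_mul, mul_zero, Finset.sum_ite_eq, mem_univ, if_true, mul_apply,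
    transpose_apply, Jm, vec, Finset.sum_mul, Finset.mul_sum, Finset.sum_range]
  rw [Finset.sum_comm_cycle]
  exact Finset.sum_congr rfl fun Z _ => Finset.sum_congr rfl fun M _ =>
    Finset.sum_congr rfl fun u _ => by ring

theorem Kcross_form (t : Sq) (Q : ℕ) (f : ℕ → Fin (Q + 1) → Fin (Q + 1) → ℝ) :
    vec (impChg Q) Q f ⬝ᵥ (Kcross t Q *ᵥ vec (impChg Q) Q f) = t.cross3 f := by
  rw [Kcross, ← mulVec_mulVec, dotProduct_mulVec, ← mulVec_transpose, transpose_transpose]
  have h2 : ∀ o, ((Amat t Q).submatrix (sw _ Q) (sw _ Q) *ᵥ vec (impChg Q) Q f) o =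
      t.apply3 (fun M u v => f M v u) o.1.1 o.2 o.1.2 := by
    intro o
    rw [submatrix_mulVec_equiv]
    show (Amat t Q *ᵥ (vec (impChg Q) Q f ∘ (sw _ Q).symm)) (sw _ Q o) = _
    exact Amat_apply t Q (fun M u v => f M v u) (sw _ Q o)
  simp only [dotProduct, h2, Amat_apply, Fintype.sum_prod_type, Sq.cross3, Finset.sum_range]

/-! ### The pair energy -/

/-- Contraction of the two particles with the spin `Q-1` space. -/
noncomputable def Bpair (Q : ℕ) :
    Matrix (I3 (impChg Q) Q) (Fin (impChg Q + 1) × Fin (impChg Q + 1)) ℝ :=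
  ((1 : Matrix (Fin (impChg Q + 1)) (Fin (impChg Q + 1)) ℝ) ⊗ₖ Jm 1 Q Q (impChg Q)).submatrix
    (Equiv.prodAssoc _ _ _) id

theorem L3_assoc (P Q : ℕ) :
    (tens (Low P) (tens (Low Q) (Low Q))).submatrix (Equiv.prodAssoc _ _ _)
      (Equiv.prodAssoc _ _ _) = L3 P Q := by
  ext ⟨⟨M, x⟩, y⟩ ⟨⟨M', x'⟩, y'⟩
  simp only [L3, submatrix_apply, tens_apply, Equiv.prodAssoc_apply, Prod.mk.injEq]
  by_cases h1 : M = M' <;> by_cases h2 : x = x' <;> by_cases h3 : y = y' <;>
    simp [h1, h2, h3] <;> abel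

theorem Bpair_inter {Q : ℕ} (hQ : 1 ≤ Q) :
    Inter (L3 (impChg Q) Q) (tens (Low (impChg Q)) (Low (impChg Q))) (Bpair Q) := by
  have h := ((jm_inter (r := 1) (a := Q) (b := Q) (c := impChg Q) hQ hQ
    (by unfold impChg; omega)).left (Low (impChg Q))).reindex
    (Equiv.prodAssoc _ _ _) (Equiv.refl _)
  rw [L3_assoc] at h
  simpa [Bpair] using h

theorem pair_form {Q : ℕ} (hQ : 1 ≤ Q) (f : ℕ → Fin (Q + 1) → Fin (Q + 1) → ℝ) :
    (kappa 1 Q Q)⁻¹ * (vec (impChg Q) Q f ⬝ᵥ ((Bpair Q * (Bpair Q)ᵀ) *ᵥ vec (impChg Q) Q f)) =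
      ∑ M ∈ range (impChg Q + 1), ∑ S ∈ Icc 1 (2 * Q - 1),
        (∑ a, ∑ b, pairVec Q S a b * f M a b) ^ 2 / pairNormSq Q S := by
  have hb : ∀ M k : Fin (impChg Q + 1), ((Bpair Q)ᵀ *ᵥ vec (impChg Q) Q f) (M, k) =
      ∑ a : Fin (Q + 1), ∑ b : Fin (Q + 1), Jc 1 Q Q a b k * f M a b := by
    intro M k
    simp only [mulVec, dotProduct, transpose_apply, Bpair, submatrix_apply, Fintype.sum_prod_type,
      Equiv.prodAssoc_apply, id_eq, kroneckerMap_apply, one_apply, ite_mul, one_mul, zero_mul, vec,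
      Jm]
    rw [Finset.sum_eq_single M (fun N _ hN => by simp [hN]) (by simp)]
    simp
  rw [self_form, dotProduct, Fintype.sum_prod_type, Finset.mul_sum, Finset.sum_range]
  refine Finset.sum_congr rfl fun M _ => ?_
  have hi : Icc 1 (2 * Q - 1) = (range (impChg Q + 1)).image (fun k => k + 1) := by
    ext S
    simp only [mem_Icc, mem_image, mem_range, impChg]
    exact ⟨fun h => ⟨S - 1, by omega, by omega⟩, by rintro ⟨k, hk, rfl⟩; omega⟩
  rw [hi, Finset.sum_image (fun x _ y _ h => by simpa using h), Finset.sum_range, Finset.mul_sum]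
  refine Finset.sum_congr rfl fun k _ => ?_
  have hk := k.isLt
  have hk' : (k : ℕ) + 1 ≤ 2 * Q - 1 := by simp only [impChg] at hk; omega
  have hc : ((2 * Q - 2).choose k : ℝ) ≠ 0 := by
    exact_mod_cast (Nat.choose_pos (by simp only [impChg] at hk; omega)).ne'
  have hQ0 : (Q : ℝ) ≠ 0 := by exact_mod_cast (by omega : Q ≠ 0)
  simp only [pairVec_eq Q _ _ _ (Nat.le_add_left 1 _) hk',
    pairNormSq_eq Q _ (Nat.le_add_left 1 _) hk', Nat.add_sub_cancel, hb, mul_assoc,
    ← Finset.mul_sum]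
  rw [mul_pow, mul_pow, neg_sq, Real.sq_sqrt (Nat.cast_nonneg _)]
  field_simp

/-! ### The isotypic projections -/

/-- The channel `r` of impurity and first particle coupled to the second in channel `q`. -/
noncomputable def Gmat (Q r q : ℕ) :
    Matrix (I3 (impChg Q) Q) (Fin (chg Q r + Q - 2 * q + 1)) ℝ :=
  (Jm r (impChg Q) Q (chg Q r) ⊗ₖ (1 : Matrix (Fin (Q + 1)) (Fin (Q + 1)) ℝ)) *
    Jm q (chg Q r) Q (chg Q r + Q - 2 * q)

/-- Its weight. -/
noncomputable def gw (Q r q : ℕ) : ℝ :=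
  (kappa r (impChg Q) Q)⁻¹ * (kappa q (chg Q r) Q)⁻¹

theorem gw_zero {Q r q : ℕ} (h : ¬(r ≤ impChg Q ∧ r ≤ Q ∧ q ≤ chg Q r ∧ q ≤ Q)) :
    gw Q r q = 0 := by
  by_contra hne
  refine h ?_
  refine ⟨?_, ?_, ?_, ?_⟩ <;> refine le_of_not_gt fun hlt => hne ?_ <;>
    simp [gw, kappa, Nat.choose_eq_zero_of_lt hlt]

theorem Gmat_inter {Q r q : ℕ} (h : r ≤ impChg Q ∧ r ≤ Q ∧ q ≤ chg Q r ∧ q ≤ Q) :
    Inter (L3 (impChg Q) Q) (Low (chg Q r + Q - 2 * q)) (Gmat Q r q) := by
  obtain ⟨h1, h2, h3, h4⟩ := h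
  exact ((jm_inter h1 h2 (by simp only [impChg, chg] at *; omega)).right (Low Q)).comp
    (jm_inter h3 h4 (by omega))

theorem Gmat_T_apply (Q r q : ℕ) (f : ℕ → Fin (Q + 1) → Fin (Q + 1) → ℝ)
    (Z : Fin (chg Q r + Q - 2 * q + 1)) :
    ((Gmat Q r q)ᵀ *ᵥ vec (impChg Q) Q f) Z =
      ∑ M ∈ range (impChg Q + 1), ∑ x : Fin (Q + 1), ∑ x' : Fin (Q + 1),
        ∑ Y ∈ range (chg Q r + 1),
          Jc q (chg Q r) Q Y x' Z * Jc r (impChg Q) Q M x Y * f M x x' := by
  simp only [mulVec, dotProduct, transpose_apply, Gmat, mul_apply, Fintype.sum_prod_type,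
    kroneckerMap_apply, one_apply, mul_ite, ite_mul, mul_one, zero_mul, mul_zero,
    Finset.sum_ite_eq, mem_univ, if_true, vec, Finset.sum_range, Jm, Finset.sum_mul]
  exact Finset.sum_congr rfl fun M _ => Finset.sum_congr rfl fun x _ =>
    Finset.sum_congr rfl fun x' _ => Finset.sum_congr rfl fun Y _ => by ring

/-- The projection on the degree `m` part. -/
noncomputable def Kproj (Q m : ℕ) : Matrix (I3 (impChg Q) Q) (I3 (impChg Q) Q) ℝ :=
  ∑ r ∈ range (m + 1), gw Q r (m - r) • (Gmat Q r (m - r) * (Gmat Q r (m - r))ᵀ)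

theorem Kproj_form (Q m : ℕ) (f : ℕ → Fin (Q + 1) → Fin (Q + 1) → ℝ) :
    vec (impChg Q) Q f ⬝ᵥ (Kproj Q m *ᵥ vec (impChg Q) Q f) = projDeg m f := by
  simp only [Kproj, Matrix.sum_mulVec, dotProduct_sum, smul_mulVec, dotProduct_smul, smul_eq_mul,
    projDeg, self_form]
  refine Finset.sum_congr rfl fun r _ => ?_
  rw [gw, ← mul_inv, div_eq_inv_mul]
  congr 1
  rw [dotProduct, Finset.sum_range]
  refine Finset.sum_congr rfl fun Z _ => ?_
  rw [Gmat_T_apply, sq]

theorem Kproj_inter (Q m : ℕ) :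
    Inter (L3 (impChg Q) Q) (L3 (impChg Q) Q) (Kproj Q m) := by
  refine Inter.sum _ _ fun r _ => ?_
  by_cases h : r ≤ impChg Q ∧ r ≤ Q ∧ m - r ≤ chg Q r ∧ m - r ≤ Q
  · exact ((Gmat_inter h).comp (Gmat_inter h).transpose).smul _
  · rw [gw_zero h, zero_smul]
    exact Inter.zero

/-- Completeness of the channels on three factors. -/
theorem one_eq (Q : ℕ) :
    (1 : Matrix (I3 (impChg Q) Q) (I3 (impChg Q) Q) ℝ) =
      ∑ r ∈ range (Q + 1), ∑ q ∈ range (Q + 1), gw Q r q • (Gmat Q r q * (Gmat Q r q)ᵀ) := by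
  have hJ : ∀ a b : ℕ, (1 : Matrix (Fin (a + 1) × Fin (b + 1)) (Fin (a + 1) × Fin (b + 1)) ℝ) =
      ∑ r ∈ range (b + 1), (kappa r a b)⁻¹ •
        (Jm r a b (a + b - 2 * r) * (Jm r a b (a + b - 2 * r))ᵀ) := by
    intro a b
    ext ⟨i, j⟩ ⟨i', j'⟩
    simp only [Matrix.sum_apply, Matrix.smul_apply, mul_apply, transpose_apply, Jm, smul_eq_mul,
      one_apply, Prod.mk.injEq]
    rw [← complete_mat a b i i' j j']
    simp only [Finset.sum_range (n := a + b - 2 * _ + 1)]
  have hc : ∀ r ∈ range (Q + 1), impChg Q + Q - 2 * r = chg Q r ∨ (kappa r (impChg Q) Q)⁻¹ = 0 := by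
    intro r _
    by_cases h : r ≤ impChg Q
    · left; simp only [impChg, chg] at *; omega
    · right; simp [kappa, Nat.choose_eq_zero_of_lt (not_le.1 h)]
  have e1 : (1 : Matrix (I3 (impChg Q) Q) (I3 (impChg Q) Q) ℝ) =
      ∑ r ∈ range (Q + 1), (kappa r (impChg Q) Q)⁻¹ •
        ((Jm r (impChg Q) Q (chg Q r) * (Jm r (impChg Q) Q (chg Q r))ᵀ) ⊗ₖ
          (1 : Matrix (Fin (Q + 1)) (Fin (Q + 1)) ℝ)) := by
    calc (1 : Matrix (I3 (impChg Q) Q) (I3 (impChg Q) Q) ℝ)
        = (1 : Matrix (Fin (impChg Q + 1) × Fin (Q + 1)) (Fin (impChg Q + 1) × Fin (Q + 1)) ℝ) ⊗ₖ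
            (1 : Matrix (Fin (Q + 1)) (Fin (Q + 1)) ℝ) := one_kronecker_one.symm
      _ = _ := by
        rw [hJ (impChg Q) Q]
        ext p p'
        simp only [kroneckerMap_apply, Matrix.sum_apply, Matrix.smul_apply, smul_eq_mul,
          Finset.sum_mul]
        refine Finset.sum_congr rfl fun r hr => ?_
        rcases hc r hr with h | h
        · rw [h]; ring
        · rw [h]; ring
  conv_lhs => rw [e1]
  refine Finset.sum_congr rfl fun r _ => ?_
  have : ∀ q ∈ range (Q + 1), gw Q r q • (Gmat Q r q * (Gmat Q r q)ᵀ) =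
      (kappa r (impChg Q) Q)⁻¹ •
        ((Jm r (impChg Q) Q (chg Q r) ⊗ₖ (1 : Matrix (Fin (Q + 1)) (Fin (Q + 1)) ℝ)) *
          ((kappa q (chg Q r) Q)⁻¹ • (Jm q (chg Q r) Q (chg Q r + Q - 2 * q) *
            (Jm q (chg Q r) Q (chg Q r + Q - 2 * q))ᵀ)) *
          (Jm r (impChg Q) Q (chg Q r) ⊗ₖ (1 : Matrix (Fin (Q + 1)) (Fin (Q + 1)) ℝ))ᵀ) := by
    intro q _
    simp only [Gmat, gw, transpose_mul, Matrix.mul_assoc, Matrix.mul_smul, Matrix.smul_mul,
      smul_smul]
  rw [Finset.sum_congr rfl this, ← Finset.smul_sum, ← Matrix.sum_mul, ← Matrix.mul_sum,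
    ← hJ (chg Q r) Q, Matrix.mul_one, ← kroneckerMap_transpose, ← mul_kronecker_mul,
    transpose_one, Matrix.one_mul]

/-- The degree projection is the identity on highest weight vectors. -/
theorem Kproj_hw {Q d : ℕ} {v : I3 (impChg Q) Q → ℝ} (hv : Homog deg3 d v)
    (h0 : L3 (impChg Q) Q *ᵥ v = 0) : v ⬝ᵥ (Kproj Q d *ᵥ v) = v ⬝ᵥ v := by
  set w : ℕ → ℕ → ℝ := fun r q => gw Q r q *
    (((Gmat Q r q)ᵀ *ᵥ v) ⬝ᵥ ((Gmat Q r q)ᵀ *ᵥ v)) with hw
  have hL : v ⬝ᵥ (Kproj Q d *ᵥ v) = ∑ r ∈ range (d + 1), w r (d - r) := by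
    simp only [Kproj, Matrix.sum_mulVec, dotProduct_sum, smul_mulVec, dotProduct_smul, smul_eq_mul,
      self_form, hw]
  have hR : v ⬝ᵥ v = ∑ r ∈ range (Q + 1), ∑ q ∈ range (Q + 1), w r q := by
    conv_lhs => rw [show v ⬝ᵥ v = v ⬝ᵥ ((1 : Matrix _ _ ℝ) *ᵥ v) by rw [one_mulVec], one_eq Q]
    simp only [Matrix.sum_mulVec, dotProduct_sum, smul_mulVec, dotProduct_smul, smul_eq_mul,
      self_form, hw]
  have hz : ∀ r q, r + q ≠ d → w r q = 0 := by
    intro r q hne
    by_cases h : r ≤ impChg Q ∧ r ≤ Q ∧ q ≤ chg Q r ∧ q ≤ Q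
    · suffices hg : (Gmat Q r q)ᵀ *ᵥ v = 0 by simp [hw, hg]
      have hlow : Low (chg Q r + Q - 2 * q) *ᵥ ((Gmat Q r q)ᵀ *ᵥ v) = 0 := by
        rw [mulVec_mulVec, (Gmat_inter h).transpose.low, ← mulVec_mulVec, h0, mulVec_zero]
      funext Z
      by_cases hZ : (Z : ℕ) = 0
      · refine Finset.sum_eq_zero fun p _ => ?_
        show (Gmat Q r q)ᵀ Z p * v p = 0
        by_cases hp : deg3 p = d
        · have : Gmat Q r q p Z = 0 := by
            refine Finset.sum_eq_zero fun y _ => ?_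
            by_contra hne'
            obtain ⟨ha, hb⟩ := mul_ne_zero_iff.1 hne'
            simp only [kroneckerMap_apply, Jm] at ha hb
            obtain ⟨ha1, ha2⟩ := mul_ne_zero_iff.1 ha
            have e1 := Jc_degree ha1
            have e2 := Jc_degree hb
            have e3 : p.2 = y.2 := by
              by_contra h3
              exact ha2 (one_apply_ne h3)
            simp only [deg3, e3] at hp
            omega
          rw [transpose_apply, this, zero_mul]
        · rw [hv p hp, mul_zero]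
      · have hk := congrFun hlow ⟨(Z : ℕ) - 1, by omega⟩
        rw [mulVec, dotProduct, Low_apply_sum,
          dif_pos (show (Z : ℕ) - 1 + 1 < chg Q r + Q - 2 * q + 1 by omega)] at hk
        rcases mul_eq_zero.1 hk with h1 | h1
        · exact absurd h1 (lower_pos (show (Z : ℕ) - 1 < chg Q r + Q - 2 * q by omega)).ne'
        · simpa [Nat.sub_add_cancel (by omega : 1 ≤ (Z : ℕ))] using h1
    · simp [hw, gw_zero h]
  have hbig : ∀ r q, (Q < r ∨ Q < q) → w r q = 0 := fun r q h => by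
    simp [hw, gw_zero (Q := Q) (r := r) (q := q) (by omega)]
  rw [hL, hR]
  calc ∑ r ∈ range (d + 1), w r (d - r)
      = ∑ r ∈ (range (d + 1)).filter (fun r => r ≤ Q ∧ d - r ≤ Q), w r (d - r) := by
        refine (Finset.sum_subset (filter_subset _ _) fun r hr hr' => hbig _ _ ?_).symm
        by_contra hh
        exact hr' (mem_filter.2 ⟨hr, by omega, by omega⟩)
    _ = ∑ r ∈ range (Q + 1), ∑ q ∈ range (Q + 1), w r q := by
        rw [← Finset.sum_product']
        symm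
        refine Eq.trans ?_ (Finset.sum_image (f := fun p : ℕ × ℕ => w p.1 p.2)
          (g := fun r => (r, d - r)) (fun x _ y _ h => congrArg Prod.fst h))
        refine (Finset.sum_subset ?_ fun p hp hp' => hz _ _ ?_).symm
        · intro p hp
          simp only [mem_image, mem_filter, mem_range] at hp
          obtain ⟨r, ⟨-, h1, h2⟩, rfl⟩ := hp
          simp only [mem_product, mem_range]
          omega
        · simp only [mem_product, mem_range] at hp
          intro he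
          refine hp' (mem_image.2 ⟨p.1, mem_filter.2 ⟨mem_range.2 (by omega), by omega, by omega⟩,
            Prod.ext rfl (show d - p.1 = p.2 by omega)⟩)

/-! ### Vectors coming from four fermions -/

/-- Coordinates of four factors. -/
def e4 (Q : ℕ) : Config 4 Q ≃
    ((Fin (Q + 1) × Fin (Q + 1)) × Fin (Q + 1)) × Fin (Q + 1) where
  toFun d := (((d 0, d 1), d 2), d 3)
  invFun p := ![p.1.1.1, p.1.1.2, p.1.2, p.2]
  left_inv d := by ext i; fin_cases i <;> rfl
  right_inv p := rfl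

theorem e4_apply (Q : ℕ) (d : Config 4 Q) : e4 Q d = (((d 0, d 1), d 2), d 3) := rfl

/-- Lowering on four factors. -/
noncomputable def L4 (Q : ℕ) : Matrix (Config 4 Q) (Config 4 Q) ℝ :=
  (tens (tens (tens (Low Q) (Low Q)) (Low Q)) (Low Q)).submatrix (e4 Q) (e4 Q)

/-- Contraction of the first two of four factors. -/
noncomputable def Tmat (Q : ℕ) : Matrix (I3 (impChg Q) Q) (Config 4 Q) ℝ :=
  (((Jm 1 Q Q (impChg Q))ᵀ ⊗ₖ (1 : Matrix (Fin (Q + 1)) (Fin (Q + 1)) ℝ)) ⊗ₖ
    (1 : Matrix (Fin (Q + 1)) (Fin (Q + 1)) ℝ)).submatrix id (e4 Q)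

theorem Tmat_inter {Q : ℕ} (hQ : 1 ≤ Q) : Inter (L3 (impChg Q) Q) (L4 Q) (Tmat Q) := by
  have h := ((((jm_inter (r := 1) (a := Q) (b := Q) (c := impChg Q) hQ hQ
    (by unfold impChg; omega)).transpose.right (Low Q)).right (Low Q))).reindex
    (Equiv.refl _) (e4 Q)
  simpa [L3, L4, Tmat] using h

theorem Tmat_apply (Q : ℕ) (φ : Config 4 Q → ℝ) :
    Tmat Q *ᵥ φ = vec (impChg Q) Q (fun M x y => toImp φ M ![x, y]) := by
  funext p
  obtain ⟨⟨M, x⟩, y⟩ := p
  rw [mulVec, dotProduct, ← Equiv.sum_comp (e4 Q).symm]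
  simp only [Tmat, submatrix_apply, id_eq, Equiv.apply_symm_apply, Fintype.sum_prod_type,
    kroneckerMap_apply, transpose_apply, one_apply, mul_ite, ite_mul, mul_one, zero_mul, mul_zero,
    Finset.sum_ite_eq, mem_univ, if_true, Jm, vec, toImp]
  rfl

theorem L4_apply (Q : ℕ) (c d : Config 4 Q) :
    L4 Q c d = ∑ i, if ∀ j, j ≠ i → c j = d j then Low Q (c i) (d i) else 0 := by
  simp only [L4, submatrix_apply, tens_apply, e4_apply, Prod.mk.injEq,
    Fin.sum_univ_four]
  by_cases h0 : c 0 = d 0 <;> by_cases h1 : c 1 = d 1 <;> by_cases h2 : c 2 = d 2 <;>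
    by_cases h3 : c 3 = d 3 <;> simp [Fin.forall_fin_succ, h0, h1, h2, h3]

theorem L4_perm (Q : ℕ) (σ : Equiv.Perm (Fin 4)) (c d : Config 4 Q) :
    L4 Q (c ∘ σ) (d ∘ σ) = L4 Q c d := by
  rw [L4_apply, L4_apply, ← Equiv.sum_comp σ (fun i =>
    if ∀ j, j ≠ i → c j = d j then Low Q (c i) (d i) else 0)]
  refine Finset.sum_congr rfl fun i _ => if_congr ⟨fun h j hj => ?_, fun h j hj => ?_⟩ rfl rfl
  · simpa using h (σ.symm j) (fun e => hj (by rw [← e, Equiv.apply_symm_apply]))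
  · exact h (σ j) (fun e => hj (σ.injective e))

theorem perm_mulVec_antisym {Q : ℕ} {M : Matrix (Config 4 Q) (Config 4 Q) ℝ}
    (hM : ∀ (σ : Equiv.Perm (Fin 4)) c d, M (c ∘ σ) (d ∘ σ) = M c d) {φ : Config 4 Q → ℝ}
    (hφ : IsAntisym φ) : IsAntisym (M *ᵥ φ) := by
  intro c σ
  simp only [mulVec, dotProduct, Finset.mul_sum]
  rw [← Equiv.sum_comp (Equiv.arrowCongr σ.symm (Equiv.refl (Fin (Q + 1))))]
  refine Finset.sum_congr rfl fun d _ => ?_
  have : Equiv.arrowCongr σ.symm (Equiv.refl (Fin (Q + 1))) d = d ∘ σ := rfl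
  rw [this, hM, hφ]
  ring

/-- Images of antisymmetric four-factor tensors. -/
noncomputable def Wsub (Q : ℕ) : Submodule ℝ (I3 (impChg Q) Q → ℝ) where
  carrier := {v | ∃ φ : Config 4 Q → ℝ, IsAntisym φ ∧ Tmat Q *ᵥ φ = v}
  zero_mem' := ⟨0, fun _ _ => by simp, mulVec_zero _⟩
  add_mem' := by
    rintro u v ⟨φ, hφ, rfl⟩ ⟨ψ, hψ, rfl⟩
    exact ⟨φ + ψ, fun c σ => by simp [hφ c σ, hψ c σ, mul_add], mulVec_add _ _ _⟩
  smul_mem' := by
    rintro a v ⟨φ, hφ, rfl⟩
    exact ⟨a • φ, fun c σ => by simp [hφ c σ]; ring, mulVec_smul _ _ _⟩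

theorem Wsub_stable {Q : ℕ} (hQ : 1 ≤ Q) : Stable (L3 (impChg Q) Q) deg3 (Wsub Q) := by
  have hT := Tmat_inter hQ
  refine ⟨?_, ?_, ?_⟩
  · rintro v ⟨φ, hφ, rfl⟩
    exact ⟨L4 Q *ᵥ φ, perm_mulVec_antisym (L4_perm Q) hφ, by
      rw [mulVec_mulVec, mulVec_mulVec, hT.low]⟩
  · rintro v ⟨φ, hφ, rfl⟩
    exact ⟨(L4 Q)ᵀ *ᵥ φ, perm_mulVec_antisym (fun σ c d => L4_perm Q σ d c) hφ, by
      rw [mulVec_mulVec, mulVec_mulVec, hT.high]⟩
  · rintro d v ⟨φ, hφ, rfl⟩
    refine ⟨fun c => if ∑ i, (c i : ℕ) = d + 1 then φ c else 0, ?_, ?_⟩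
    · intro c σ
      show (if ∑ i, ((c ∘ σ) i : ℕ) = d + 1 then φ (c ∘ σ) else 0) =
        _ * (if ∑ i, (c i : ℕ) = d + 1 then φ c else 0)
      rw [show ∑ i, ((c ∘ σ) i : ℕ) = ∑ i, (c i : ℕ) from
        Equiv.sum_comp σ (fun i => (c i : ℕ)), hφ c σ]
      split_ifs <;> simp
    · funext p
      simp only [part, mulVec, dotProduct]
      have key : ∀ c, Tmat Q p c ≠ 0 → ∑ i, (c i : ℕ) = deg3 p + 1 := by
        intro c hc
        simp only [Tmat, submatrix_apply, id_eq, kroneckerMap_apply, transpose_apply, Jm, e4_apply,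
          one_apply] at hc
        by_cases h2 : p.1.2 = c 2 <;> by_cases h3 : p.2 = c 3 <;> simp [h2, h3] at hc
        have := Jc_degree hc
        simp only [Fin.sum_univ_four, deg3, h2, h3]
        omega
      by_cases hd : deg3 p = d
      · rw [if_pos hd]
        refine Finset.sum_congr rfl fun c _ => ?_
        by_cases hc : Tmat Q p c = 0
        · simp [hc]
        · rw [if_pos (by rw [key c hc, hd])]
      · rw [if_neg hd]
        refine Finset.sum_eq_zero fun c _ => ?_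
        by_cases hc : Tmat Q p c = 0
        · simp [hc]
        · rw [if_neg (by rw [key c hc]; omega), mul_zero]

theorem toImp_anti {Q : ℕ} {φ : Config 4 Q → ℝ} (hφ : IsAntisym φ) (M : ℕ) (x y : Fin (Q + 1)) :
    toImp φ M ![y, x] = -toImp φ M ![x, y] := by
  simp only [toImp, ← Finset.sum_neg_distrib]
  refine Finset.sum_congr rfl fun a _ => Finset.sum_congr rfl fun b _ => ?_
  have h := hφ (Fin.cons a (Fin.cons b ![x, y])) (Equiv.swap 2 3)
  rw [Equiv.Perm.sign_swap (by decide)] at h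
  have e : (Fin.cons a (Fin.cons b ![x, y]) : Config 4 Q) ∘ Equiv.swap 2 3 =
      Fin.cons a (Fin.cons b ![y, x]) := by
    funext i; fin_cases i <;> rfl
  rw [e] at h
  rw [h]
  push_cast
  ring

theorem toImp_supp {K Q : ℕ} (φ : Config (K + 2) Q → ℝ) {M : ℕ} (hM : impChg Q < M)
    (c : Config K Q) : toImp φ M c = 0 :=
  Finset.sum_eq_zero fun a _ => Finset.sum_eq_zero fun b _ => by
    rw [Jc_out (by unfold impChg at hM; omega), zero_mul]

theorem isHW3_of {Q d : ℕ} {φ : Config 4 Q → ℝ} (hφ : IsAntisym φ)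
    (hd : Homog deg3 d (Tmat Q *ᵥ φ)) (h0 : L3 (impChg Q) Q *ᵥ (Tmat Q *ᵥ φ) = 0) :
    IsHW3 Q d (fun M x y => toImp φ M ![x, y]) := by
  refine ⟨fun M x y => toImp_anti hφ M x y, fun M x y hne => ?_,
    fun M x y hM => toImp_supp φ hM _, fun M x y hM => ?_⟩
  · by_cases hM : M ≤ impChg Q
    · have h := hd ((⟨M, by omega⟩, x), y) hne
      rw [Tmat_apply] at h
      exact h
    · exact toImp_supp φ (not_le.1 hM) _
  · have h := congrFun h0 ((⟨M, by omega⟩, x), y)
    rw [Tmat_apply] at h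
    simp only [mulVec, dotProduct, L3, tens_apply, Fintype.sum_prod_type, vec, add_mul, ite_mul,
      zero_mul, Finset.sum_add_distrib, Finset.sum_ite_irrel,
      Finset.sum_const_zero, Finset.sum_ite_eq, mem_univ, if_true, Low_apply_sum,
      Pi.zero_apply] at h
    by_cases hM' : M + 1 < impChg Q + 1
    · rw [dif_pos hM'] at h
      linarith
    · rw [dif_neg hM'] at h
      rw [show toImp φ (M + 1) ![x, y] = 0 from toImp_supp φ (by omega) _]
      linarith

/-! ### The lift -/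

theorem q3_form {Q : ℕ} (hQ : 1 ≤ Q) (sq : List Sq) (f : ℕ → Fin (Q + 1) → Fin (Q + 1) → ℝ) :
    vec (impChg Q) Q f ⬝ᵥ (((kappa 1 Q Q)⁻¹ • (Bpair Q * (Bpair Q)ᵀ) -
      (2 : ℝ) • (sq.map fun t => Kcross t Q).sum) *ᵥ vec (impChg Q) Q f) = q3 sq f := by
  rw [sub_mulVec, dotProduct_sub, smul_mulVec, dotProduct_smul, smul_mulVec, dotProduct_smul,
    smul_eq_mul, smul_eq_mul, pair_form hQ, q3]
  congr 2
  induction sq with
  | nil => simp
  | cons t l ih =>
      rw [List.map_cons, List.sum_cons, List.map_cons, List.sum_cons, add_mulVec, dotProduct_add,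
        ih, Kcross_form]

theorem normSq_vec {Q : ℕ} (f : ℕ → Fin (Q + 1) → Fin (Q + 1) → ℝ) :
    vec (impChg Q) Q f ⬝ᵥ vec (impChg Q) Q f = normSq3 f := by
  simp only [normSq3, dotProduct, Fintype.sum_prod_type, vec, Finset.sum_range, sq]

/-- The form on four-fermion images. -/
theorem lift_four {Q : ℕ} (hQ : 1 ≤ Q) {sq : List Sq} (hsq : ∀ t ∈ sq, Adm Q t) {s : ℕ → ℝ}
    (hs : ∀ m, 0 ≤ s m)
    (hb : ∀ m ≤ 2 * Q, FullBound sq Q m (s m) ∨ RangeBound sq Q m (s m))
    {φ : Config 4 Q → ℝ} (hφ : IsAntisym φ) :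
    -(∑ m ∈ range (2 * Q + 1), s m * projDeg m (fun M x y => toImp φ M ![x, y])) ≤
      q3 sq (fun M x y => toImp φ M ![x, y]) := by
  set K := (kappa 1 Q Q)⁻¹ • (Bpair Q * (Bpair Q)ᵀ) -
    (2 : ℝ) • (sq.map fun t => Kcross t Q).sum + ∑ m ∈ range (2 * Q + 1), s m • Kproj Q m with hK
  have hform : ∀ f, vec (impChg Q) Q f ⬝ᵥ (K *ᵥ vec (impChg Q) Q f) =
      q3 sq f + ∑ m ∈ range (2 * Q + 1), s m * projDeg m f := by
    intro f
    rw [hK, add_mulVec, dotProduct_add, q3_form hQ, Matrix.sum_mulVec, dotProduct_sum]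
    simp only [smul_mulVec, dotProduct_smul, smul_eq_mul, Kproj_form]
  have hI : Inter (L3 (impChg Q) Q) (L3 (impChg Q) Q) K := by
    have h1 : Inter (L3 (impChg Q) Q) (L3 (impChg Q) Q) (sq.map fun t => Kcross t Q).sum := by
      clear hb hform hK K
      induction sq with
      | nil => simpa using Inter.zero
      | cons t l ih =>
          rw [List.map_cons, List.sum_cons]
          have h2 := Kcross_inter (hsq t (List.mem_cons_self ..))
          have h3 := ih (fun u hu => hsq u (List.mem_cons_of_mem _ hu))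
          exact ⟨by rw [Matrix.mul_add, Matrix.add_mul, h2.low, h3.low],
            by rw [Matrix.mul_add, Matrix.add_mul, h2.high, h3.high]⟩
    have h2 := ((Bpair_inter hQ).comp (Bpair_inter hQ).transpose).smul (kappa 1 Q Q)⁻¹
    have h3 : Inter (L3 (impChg Q) Q) (L3 (impChg Q) Q)
        (∑ m ∈ range (2 * Q + 1), s m • Kproj Q m) :=
      Inter.sum _ _ fun m _ => (Kproj_inter Q m).smul _
    have h4 := h1.smul (2 : ℝ)
    constructor
    · rw [hK, Matrix.mul_add, Matrix.mul_sub, Matrix.add_mul, Matrix.sub_mul, h2.low, h3.low,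
        h4.low]
    · rw [hK, Matrix.mul_add, Matrix.mul_sub, Matrix.add_mul, Matrix.sub_mul, h2.high, h3.high,
        h4.high]
  have hpos : 0 ≤ vec (impChg Q) Q (fun M x y => toImp φ M ![x, y]) ⬝ᵥ
      (K *ᵥ vec (impChg Q) Q (fun M x y => toImp φ M ![x, y])) := by
    refine nonneg_of_hw (L3_ladder _ _) (Wsub_stable hQ) hI.commute.1 hI.commute.2 ?_
      ⟨φ, hφ, Tmat_apply Q φ⟩
    rintro d hd h ⟨χ, hχ, rfl⟩ hhom h0
    have hd' : d ≤ 2 * Q := by
      have : ((2 * d : ℕ) : ℝ) ≤ ((impChg Q + Q + Q : ℕ) : ℝ) := by push_cast; exact hd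
      have := Nat.cast_le.1 this
      simp only [impChg] at this
      omega
    have hW := isHW3_of hχ hhom h0
    have hP := Kproj_hw hhom h0
    rw [Tmat_apply] at hP ⊢
    rw [Kproj_form, normSq_vec] at hP
    rw [hform]
    have hq : -(s d * normSq3 (fun M x y => toImp χ M ![x, y])) ≤
        q3 sq (fun M x y => toImp χ M ![x, y]) := by
      rcases hb d hd' with h | h
      · exact h _ hW
      · exact h χ hχ hW
    have hge : s d * normSq3 (fun M x y => toImp χ M ![x, y]) ≤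
        ∑ m ∈ range (2 * Q + 1), s m * projDeg m (fun M x y => toImp χ M ![x, y]) := by
      rw [← hP]
      refine Finset.single_le_sum (f := fun m => s m * projDeg m
        (fun M x y => toImp χ M ![x, y])) (fun m _ => mul_nonneg (hs m) ?_)
        (mem_range.2 (by omega))
      refine Finset.sum_nonneg fun r _ => div_nonneg (Finset.sum_nonneg fun Z _ => sq_nonneg _) ?_
      exact mul_nonneg (div_nonneg (Nat.cast_nonneg _) (by positivity))
        (div_nonneg (Nat.cast_nonneg _) (by positivity))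
    linarith
  rw [hform] at hpos
  linarith

/-- **M5.** Highest weight bounds give the three-body bound on every slice. -/
theorem lift {K Q : ℕ} (hQ : 1 ≤ Q) (sq : List Sq) (hsq : ∀ t ∈ sq, Adm Q t) (s : ℕ → ℝ)
    (hs : ∀ m, 0 ≤ s m)
    (hb : ∀ m ≤ 2 * Q, FullBound sq Q m (s m) ∨ RangeBound sq Q m (s m))
    (φ : Config (K + 2) Q → ℝ) (hφ : IsAntisym φ) (a b : Fin K) (hab : a ≠ b) (c : Config K Q) :
    -(∑ m ∈ range (2 * Q + 1), s m * projDeg m (slice (toImp φ) a b c)) ≤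
      q3 sq (slice (toImp φ) a b c) := by
  let emb : Fin 4 → Fin (K + 2) := ![0, 1, a.succ.succ, b.succ.succ]
  have hemb : Function.Injective emb := by
    intro i j h
    have h' := congrArg Fin.val h
    have hab' : (a : ℕ) ≠ b := fun e => hab (Fin.ext e)
    fin_cases i <;> fin_cases j <;> simp [emb] at h' ⊢ <;> omega
  let base : Config (K + 2) Q := Fin.cons 0 (Fin.cons 0 c)
  let χ : Config 4 Q → ℝ := fun d => φ (Function.extend emb d base)
  have hχ : IsAntisym χ := by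
    intro d σ
    let E : Fin 4 ≃ {x : Fin (K + 2) // x ∈ Set.range emb} := Equiv.ofInjective emb hemb
    have hsign := Equiv.Perm.sign_extendDomain σ E
    have hcomp : Function.extend emb (d ∘ σ) base =
        Function.extend emb d base ∘ (σ.extendDomain E) := by
      funext x
      by_cases hx : x ∈ Set.range emb
      · obtain ⟨i, rfl⟩ := hx
        have : (σ.extendDomain E) (emb i) = emb (σ i) := σ.extendDomain_apply_image E i
        rw [Function.comp_apply, this, hemb.extend_apply, hemb.extend_apply]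
        rfl
      · rw [Function.comp_apply, Equiv.Perm.extendDomain_apply_not_subtype σ E hx,
          Function.extend_apply' _ _ _ (fun h => hx h), Function.extend_apply' _ _ _ (fun h => hx h)]
    show φ (Function.extend emb (d ∘ σ) base) = _
    rw [hcomp, hφ _ (σ.extendDomain E), hsign]
  have hslice : slice (toImp φ) a b c = fun M x y => toImp χ M ![x, y] := by
    funext M x y
    simp only [slice, toImp]
    refine Finset.sum_congr rfl fun u _ => Finset.sum_congr rfl fun v _ => ?_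
    congr 2
    funext i
    by_cases hi : i ∈ Set.range emb
    · obtain ⟨j, rfl⟩ := hi
      rw [hemb.extend_apply]
      fin_cases j <;> simp [emb, hab, (Fin.succ_ne_zero _).symm]
    · rw [Function.extend_apply' _ _ _ (fun h => hi h)]
      induction i using Fin.cases with
      | zero => exact absurd ⟨0, rfl⟩ hi
      | succ i =>
          induction i using Fin.cases with
          | zero => exact absurd ⟨1, rfl⟩ hi
          | succ i =>
              have h2 : i ≠ a := fun e => hi ⟨2, by simp [emb, e]⟩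
              have h3 : i ≠ b := fun e => hi ⟨3, by simp [emb, e]⟩
              simp [base, h2, h3]
  rw [hslice]
  exact lift_four hQ hsq hs hb hχ

end Vale.Agent.P359.Gap.Lift
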