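import Vale.Agent.P359.Gap.Ladder

/-!
# P359, gap: exchange on impurity and particle

`triVecZ Q r Z` is the vector `Z` of channel `r` after splitting the impurity. Exchanging the two
outer particles commutes with lowering, hence acts as the scalar `-wch Q r / 2` on channel `r`.
-/

open Finset

namespace Vale.Agent.P359.Gap.Red

/-- The three-factor vector of channel `r` and degree `Z`. -/
noncomputable def triVecZ (Q r Z i j l : ℕ) : ℝ :=
  ∑ M ∈ range (impChg Q + 1), Jc r (impChg Q) Q M l Z * Jc 1 Q Q i j M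

/-- Matrix element of the exchange. -/
noncomputable def exch (Q r Z r' Z' : ℕ) : ℝ :=
  ∑ i ∈ range (Q + 1), ∑ j ∈ range (Q + 1), ∑ l ∈ range (Q + 1),
    triVecZ Q r Z i j l * triVecZ Q r' Z' i l j

variable {Q : ℕ}

lemma impChg_eq (Q : ℕ) : Q + Q - 2 * 1 = impChg Q := by unfold impChg; omega

lemma chg_eq (hQ : 2 ≤ Q) {r : ℕ} (hr : r ≤ Q) : impChg Q + Q - 2 * r = chg Q r := by
  unfold impChg chg; omega

lemma lower_self (c : ℕ) : lower c c = 0 := lower_big le_rfl

lemma shift_adjoint (c : ℕ) (u v : ℕ → ℝ) :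
    ∑ i ∈ range (c + 1), (if 0 < i then lower c (i - 1) * u (i - 1) else 0) * v i =
      ∑ i ∈ range (c + 1), u i * (lower c i * v (i + 1)) := by
  rw [Finset.sum_range_succ', Finset.sum_range_succ (fun i => u i * (lower c i * v (i + 1))),
    lower_self]
  simp only [lt_irrefl, if_false, zero_mul, mul_zero, add_zero, Nat.succ_pos, if_true,
    Nat.add_sub_cancel]
  exact Finset.sum_congr rfl fun i _ => by ring

/-- Sum of the three lowerings. -/
noncomputable def low3 (Q : ℕ) (g : ℕ → ℕ → ℕ → ℝ) (i j l : ℕ) : ℝ :=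
  lower Q i * g (i + 1) j l + lower Q j * g i (j + 1) l + lower Q l * g i j (l + 1)

/-- Sum of the three raisings. -/
noncomputable def high3 (Q : ℕ) (g : ℕ → ℕ → ℕ → ℝ) (i j l : ℕ) : ℝ :=
  (if 0 < i then lower Q (i - 1) * g (i - 1) j l else 0) +
    (if 0 < j then lower Q (j - 1) * g i (j - 1) l else 0) +
      (if 0 < l then lower Q (l - 1) * g i j (l - 1) else 0)

lemma high3_adjoint (Q : ℕ) (f g : ℕ → ℕ → ℕ → ℝ) :
    ∑ i ∈ range (Q + 1), ∑ j ∈ range (Q + 1), ∑ l ∈ range (Q + 1), high3 Q f i j l * g i j l =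
      ∑ i ∈ range (Q + 1), ∑ j ∈ range (Q + 1), ∑ l ∈ range (Q + 1), f i j l * low3 Q g i j l := by
  simp only [high3, low3, add_mul, mul_add, Finset.sum_add_distrib]
  congr 1
  · congr 1
    · rw [Finset.sum_comm_cycle]
      conv_rhs => rw [Finset.sum_comm_cycle]
      refine Finset.sum_congr rfl fun l _ => ?_
      rw [Finset.sum_comm]
      conv_rhs => rw [Finset.sum_comm]
      exact Finset.sum_congr rfl fun j _ => shift_adjoint Q (fun i => f i j l) (fun i => g i j l)
    · refine Finset.sum_congr rfl fun i _ => ?_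
      rw [Finset.sum_comm]
      conv_rhs => rw [Finset.sum_comm]
      exact Finset.sum_congr rfl fun l _ => shift_adjoint Q (fun j => f i j l) (fun j => g i j l)
  · exact Finset.sum_congr rfl fun i _ => Finset.sum_congr rfl fun j _ =>
      shift_adjoint Q (fun l => f i j l) (fun l => g i j l)

lemma triVecZ_low (hQ : 2 ≤ Q) {r : ℕ} (hr : r ≤ Q) (Z i j l : ℕ) :
    low3 Q (triVecZ Q r (Z + 1)) i j l = lower (chg Q r) Z * triVecZ Q r Z i j l := by
  have hr' : r ≤ impChg Q := by unfold impChg; omega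
  unfold low3 triVecZ
  have e : ∑ M ∈ range (impChg Q + 1), Jc r (impChg Q) Q M l (Z + 1) *
      (lower Q i * Jc 1 Q Q (i + 1) j M + lower Q j * Jc 1 Q Q i (j + 1) M) =
      ∑ M ∈ range (impChg Q + 1),
        lower (impChg Q) M * Jc r (impChg Q) Q (M + 1) l (Z + 1) * Jc 1 Q Q i j M := by
    rw [Finset.sum_range_succ', Finset.sum_range_succ (fun M =>
        lower (impChg Q) M * Jc r (impChg Q) Q (M + 1) l (Z + 1) * Jc 1 Q Q i j M),
      jc_lower_zero (by omega) (by omega), lower_self]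
    simp only [mul_zero, zero_mul]
    refine congrArg₂ _ (Finset.sum_congr rfl fun M _ => ?_) rfl
    rw [jc_lower (by omega) (by omega), impChg_eq]
    ring
  calc _ = (∑ M ∈ range (impChg Q + 1), Jc r (impChg Q) Q M l (Z + 1) *
      (lower Q i * Jc 1 Q Q (i + 1) j M + lower Q j * Jc 1 Q Q i (j + 1) M)) +
      lower Q l * ∑ M ∈ range (impChg Q + 1),
        Jc r (impChg Q) Q M (l + 1) (Z + 1) * Jc 1 Q Q i j M := by
        simp only [Finset.mul_sum, ← Finset.sum_add_distrib]
        exact Finset.sum_congr rfl fun M _ => by ring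
    _ = _ := by
        rw [e, Finset.mul_sum, Finset.mul_sum, ← Finset.sum_add_distrib]
        refine Finset.sum_congr rfl fun M _ => ?_
        rw [← chg_eq hQ hr]
        linear_combination Jc 1 Q Q i j M * jc_lower hr' hr M l Z

lemma triVecZ_low_zero (hQ : 2 ≤ Q) {r : ℕ} (hr : r ≤ Q) (i j l : ℕ) :
    low3 Q (triVecZ Q r 0) i j l = 0 := by
  have hr' : r ≤ impChg Q := by unfold impChg; omega
  unfold low3 triVecZ
  have e : ∑ M ∈ range (impChg Q + 1), Jc r (impChg Q) Q M l 0 *
      (lower Q i * Jc 1 Q Q (i + 1) j M + lower Q j * Jc 1 Q Q i (j + 1) M) =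
      ∑ M ∈ range (impChg Q + 1),
        lower (impChg Q) M * Jc r (impChg Q) Q (M + 1) l 0 * Jc 1 Q Q i j M := by
    rw [Finset.sum_range_succ', Finset.sum_range_succ (fun M =>
        lower (impChg Q) M * Jc r (impChg Q) Q (M + 1) l 0 * Jc 1 Q Q i j M),
      jc_lower_zero (by omega) (by omega), lower_self]
    simp only [mul_zero, zero_mul]
    refine congrArg₂ _ (Finset.sum_congr rfl fun M _ => ?_) rfl
    rw [jc_lower (by omega) (by omega), impChg_eq]
    ring
  calc _ = (∑ M ∈ range (impChg Q + 1), Jc r (impChg Q) Q M l 0 *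
      (lower Q i * Jc 1 Q Q (i + 1) j M + lower Q j * Jc 1 Q Q i (j + 1) M)) +
      lower Q l * ∑ M ∈ range (impChg Q + 1),
        Jc r (impChg Q) Q M (l + 1) 0 * Jc 1 Q Q i j M := by
        simp only [Finset.mul_sum, ← Finset.sum_add_distrib]
        exact Finset.sum_congr rfl fun M _ => by ring
    _ = _ := by
        rw [e, Finset.mul_sum, ← Finset.sum_add_distrib]
        refine Finset.sum_eq_zero fun M _ => ?_
        rw [← mul_assoc, ← add_mul, jc_lower_zero hr' hr M l, zero_mul]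

lemma triVecZ_high (hQ : 2 ≤ Q) {r : ℕ} (hr : r ≤ Q) (Z i j l : ℕ) :
    high3 Q (triVecZ Q r Z) i j l = lower (chg Q r) Z * triVecZ Q r (Z + 1) i j l := by
  have hr' : r ≤ impChg Q := by unfold impChg; omega
  have e : ∑ M ∈ range (impChg Q + 1), Jc r (impChg Q) Q M l Z *
      (lower (impChg Q) M * Jc 1 Q Q i j (M + 1)) =
      ∑ M ∈ range (impChg Q + 1),
        (if 0 < M then lower (impChg Q) (M - 1) * Jc r (impChg Q) Q (M - 1) l Z else 0) *
          Jc 1 Q Q i j M :=
    (shift_adjoint _ (fun M => Jc r (impChg Q) Q M l Z) (fun M => Jc 1 Q Q i j M)).symm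
  have hij : ∀ M, lower (impChg Q) M * Jc 1 Q Q i j (M + 1) =
      (if 0 < i then lower Q (i - 1) * Jc 1 Q Q (i - 1) j M else 0) +
        (if 0 < j then lower Q (j - 1) * Jc 1 Q Q i (j - 1) M else 0) := by
    intro M
    rw [jc_raise (by omega) (by omega), impChg_eq]
  unfold high3 triVecZ
  calc _ = (∑ M ∈ range (impChg Q + 1), Jc r (impChg Q) Q M l Z *
        ((if 0 < i then lower Q (i - 1) * Jc 1 Q Q (i - 1) j M else 0) +
          (if 0 < j then lower Q (j - 1) * Jc 1 Q Q i (j - 1) M else 0))) +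
      ∑ M ∈ range (impChg Q + 1),
        (if 0 < l then lower Q (l - 1) * Jc r (impChg Q) Q M (l - 1) Z else 0) *
          Jc 1 Q Q i j M := by
        simp only [Finset.mul_sum, mul_add, Finset.sum_add_distrib]
        congr 1
        · congr 1 <;> split_ifs <;> first
            | simp
            | exact Finset.sum_congr rfl fun M _ => by ring
        · split_ifs <;> first
            | simp
            | exact Finset.sum_congr rfl fun M _ => by ring
    _ = _ := by
        simp only [← hij]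
        rw [e, Finset.mul_sum, ← Finset.sum_add_distrib]
        refine Finset.sum_congr rfl fun M _ => ?_
        rw [← add_mul, jc_raise hr' hr M l Z, chg_eq hQ hr]
        ring

lemma triVecZ_eq_zero {r Z i j l : ℕ} (h : i + j + l ≠ r + Z + 1) : triVecZ Q r Z i j l = 0 := by
  refine Finset.sum_eq_zero fun M _ => ?_
  by_cases h1 : M + l = r + Z
  · rw [jc_eq_zero (show i + j ≠ 1 + M by omega), mul_zero]
  · rw [jc_eq_zero h1, zero_mul]

lemma exch_symm (r Z r' Z' : ℕ) : exch Q r' Z' r Z = exch Q r Z r' Z' := by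
  refine Finset.sum_congr rfl fun i _ => ?_
  rw [Finset.sum_comm]
  exact Finset.sum_congr rfl fun j _ => Finset.sum_congr rfl fun l _ => mul_comm _ _

lemma exch_deg {r Z r' Z' : ℕ} (h : r + Z ≠ r' + Z') : exch Q r Z r' Z' = 0 := by
  refine Finset.sum_eq_zero fun i _ => Finset.sum_eq_zero fun j _ => Finset.sum_eq_zero fun l _ => ?_
  by_cases h1 : i + j + l = r + Z + 1
  · rw [triVecZ_eq_zero (show i + l + j ≠ r' + Z' + 1 by omega), mul_zero]
  · rw [triVecZ_eq_zero h1, zero_mul]

/-- Exchange commutes with lowering. -/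
lemma exch_low (hQ : 2 ≤ Q) {r r' : ℕ} (hr : r ≤ Q) (Z W : ℕ) :
    (∑ i ∈ range (Q + 1), ∑ j ∈ range (Q + 1), ∑ l ∈ range (Q + 1),
      triVecZ Q r Z i j l * low3 Q (triVecZ Q r' W) i l j) =
      lower (chg Q r) Z * exch Q r (Z + 1) r' W := by
  have h := high3_adjoint Q (triVecZ Q r Z) (fun i j l => triVecZ Q r' W i l j)
  simp only [triVecZ_high hQ hr] at h
  rw [exch, Finset.mul_sum]
  simp only [Finset.mul_sum]
  refine Eq.trans ?_ (h.symm.trans ?_)
  · refine Finset.sum_congr rfl fun i _ => Finset.sum_congr rfl fun j _ =>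
      Finset.sum_congr rfl fun l _ => ?_
    unfold low3
    ring
  · exact Finset.sum_congr rfl fun i _ => Finset.sum_congr rfl fun j _ =>
      Finset.sum_congr rfl fun l _ => by ring

lemma exch_step (hQ : 2 ≤ Q) {r r' : ℕ} (hr : r ≤ Q) (hr' : r' ≤ Q) (Z Z' : ℕ) :
    lower (chg Q r) Z * exch Q r (Z + 1) r' (Z' + 1) =
      lower (chg Q r') Z' * exch Q r Z r' Z' := by
  rw [← exch_low hQ hr, exch, Finset.mul_sum]
  refine Finset.sum_congr rfl fun i _ => ?_
  rw [Finset.mul_sum]
  refine Finset.sum_congr rfl fun j _ => ?_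
  rw [Finset.mul_sum]
  refine Finset.sum_congr rfl fun l _ => ?_
  rw [triVecZ_low hQ hr']
  ring

lemma exch_bottom (hQ : 2 ≤ Q) {r r' : ℕ} (hr : r ≤ Q) (hr' : r' ≤ Q) {Z : ℕ}
    (hZ : Z < chg Q r) : exch Q r (Z + 1) r' 0 = 0 := by
  have h := exch_low (r' := r') hQ hr Z 0
  simp only [triVecZ_low_zero hQ hr', mul_zero, Finset.sum_const_zero] at h
  exact (mul_eq_zero.1 h.symm).resolve_left (lower_pos hZ).ne'

lemma exch_ne_aux (hQ : 2 ≤ Q) {r r' : ℕ} (hr : r ≤ Q) (hr' : r' ≤ Q) (hlt : r < r') :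
    ∀ Z' Z : ℕ, Z ≤ chg Q r → exch Q r Z r' Z' = 0 := by
  intro Z'
  induction Z' with
  | zero =>
    intro Z hZ
    by_cases h : r + Z = r' + 0
    · obtain ⟨d, rfl⟩ : ∃ d, Z = d + 1 := ⟨Z - 1, by omega⟩
      exact exch_bottom hQ hr hr' (by omega)
    · exact exch_deg h
  | succ Z' ih =>
    intro Z hZ
    by_cases h : r + Z = r' + (Z' + 1)
    · obtain ⟨d, rfl⟩ : ∃ d, Z = d + 1 := ⟨Z - 1, by omega⟩
      have h1 := exch_step hQ hr hr' d Z'
      rw [ih d (by omega), mul_zero] at h1
      exact (mul_eq_zero.1 h1).resolve_left (lower_pos (by omega)).ne'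
    · exact exch_deg h

lemma triVecZ_zero (hQ : 2 ≤ Q) {r : ℕ} (hr : r ≤ Q) (i j l : ℕ) :
    triVecZ Q r 0 i j l = triVec Q r i j l := by
  unfold triVecZ triVec
  refine (Finset.sum_subset (fun M hM => ?_) (fun M _ hM => ?_)).symm
  · simp [impChg] at hM ⊢; omega
  · simp at hM
    rw [jc_eq_zero (show M + l ≠ r + 0 by omega), zero_mul]

lemma triVec_normSq (hQ : 2 ≤ Q) {r : ℕ} (hr : r ≤ Q) :
    ∑ i ∈ range (Q + 1), ∑ j ∈ range (Q + 1), ∑ l ∈ range (Q + 1), triVec Q r i j l ^ 2 =
      kappa 1 Q Q * kappa r (impChg Q) Q := by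
  have hr' : r ≤ impChg Q := by unfold impChg; omega
  calc ∑ i ∈ range (Q + 1), ∑ j ∈ range (Q + 1), ∑ l ∈ range (Q + 1), triVec Q r i j l ^ 2
      = ∑ l ∈ range (Q + 1), ∑ M ∈ range (impChg Q + 1), ∑ M' ∈ range (impChg Q + 1),
          Jc r (impChg Q) Q M l 0 * Jc r (impChg Q) Q M' l 0 *
            ∑ i ∈ range (Q + 1), ∑ j ∈ range (Q + 1), Jc 1 Q Q i j M * Jc 1 Q Q i j M' := by
        simp only [← triVecZ_zero hQ hr, triVecZ, sq, Finset.sum_mul_sum]
        rw [Finset.sum_comm_cycle]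
        refine Finset.sum_congr rfl fun l _ => ?_
        simp only [Finset.mul_sum]
        rw [Finset.sum_comm_cycle]
        refine Finset.sum_congr rfl fun M _ => ?_
        rw [Finset.sum_comm_cycle]
        exact Finset.sum_congr rfl fun M' _ => Finset.sum_congr rfl fun i _ =>
          Finset.sum_congr rfl fun j _ => by ring
    _ = ∑ l ∈ range (Q + 1), ∑ M ∈ range (impChg Q + 1),
          kappa 1 Q Q * (Jc r (impChg Q) Q M l 0 * Jc r (impChg Q) Q M l 0) := by
        refine Finset.sum_congr rfl fun l _ => Finset.sum_congr rfl fun M hM => ?_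
        have hb : ∀ M' ∈ range (impChg Q + 1), ∑ i ∈ range (Q + 1), ∑ j ∈ range (Q + 1),
            Jc 1 Q Q i j M * Jc 1 Q Q i j M' = if M = M' then kappa 1 Q Q else 0 := by
          intro M' hM'
          simp only [Finset.mem_range] at hM hM'
          exact jc_orth (by omega) (by omega) (by rw [impChg_eq]; omega) (by rw [impChg_eq]; omega)
        rw [Finset.sum_congr rfl fun M' hM' => by rw [hb M' hM']]
        simp only [mul_ite, mul_zero, Finset.sum_ite_eq, hM, if_true]
        ring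
    _ = kappa 1 Q Q * kappa r (impChg Q) Q := by
        rw [Finset.sum_comm]
        simp only [← Finset.mul_sum]
        rw [jc_orth hr' hr (Nat.zero_le _) (Nat.zero_le _), if_pos rfl]

/-- The exchange is the scalar `-wch Q r / 2` on channel `r`. -/
theorem exch_eq (hQ : 2 ≤ Q) {r r' Z Z' : ℕ} (hr : r ≤ Q) (hr' : r' ≤ Q)
    (hZ : Z ≤ chg Q r) (hZ' : Z' ≤ chg Q r') :
    exch Q r Z r' Z' =
      if r = r' ∧ Z = Z' then -wch Q r / 2 * kappa 1 Q Q * kappa r (impChg Q) Q else 0 := by
  rcases lt_trichotomy r r' with h | h | h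
  · rw [if_neg (by omega), exch_ne_aux hQ hr hr' h Z' Z hZ]
  · subst h
    by_cases hz : Z = Z'
    · subst hz
      rw [if_pos ⟨rfl, rfl⟩]
      induction Z with
      | zero =>
        have hk : kappa 1 Q Q * kappa r (impChg Q) Q ≠ 0 :=
          (mul_pos (kappa_pos (by omega) (by omega))
            (kappa_pos (by unfold impChg; omega) hr)).ne'
        unfold exch wch
        simp only [triVecZ_zero hQ hr, triVec_normSq hQ hr]
        field_simp
        rw [mul_assoc, mul_div_assoc, div_self hk, mul_one]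
      | succ Z ih =>
        have h := exch_step hQ hr hr Z Z
        rw [mul_left_cancel₀ (lower_pos (by omega)).ne' h]
        exact ih (by omega) (by omega)
    · rw [if_neg (by omega)]; exact exch_deg (by omega)
  · rw [if_neg (by omega), ← exch_symm, exch_ne_aux hQ hr' hr h Z Z' hZ']

end Vale.Agent.P359.Gap.Red
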