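import Vale.Agent.P359.Binomial
import Vale.Agent.P359.Gap.Exchange

/-!
# P359, gap: reduction to the impurity inequality

`ham` is the sum over pairs of the projections onto the spin `Q-1` subspace. For antisymmetric `φ`
both `⟪φ, H φ⟫` and `⟪H φ, H φ⟫` are expressed by `toImp φ`, and the impurity bound gives the gap.
-/

open Finset
open scoped Classical

namespace Vale.Agent.P359.Gap.Red

variable {N K Q : ℕ}

/-! ### The spin `Q-1` vectors -/

lemma kappa_one (hQ : 1 ≤ Q) : kappa 1 Q Q = 2 / (Q : ℝ) := by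
  unfold kappa
  have h : Q + Q - 1 + 1 = 2 * Q := by omega
  rw [h, Nat.choose_one_right, Nat.choose_one_right]
  push_cast
  field_simp

lemma jc_one_eq (hQ : 1 ≤ Q) (i j : Fin (Q + 1)) (k : ℕ) :
    Jc 1 Q Q i j k =
      -pairVec Q (k + 1) i j / ((Q : ℝ) * Real.sqrt ((2 * Q - 2).choose k)) := by
  obtain ⟨q, rfl⟩ : ∃ q, Q = q + 1 := ⟨Q - 1, by omega⟩
  have hi := i.isLt
  have hj := j.isLt
  unfold Jc jcoef pairVec
  rw [show q + 1 + (q + 1) - 2 * 1 = 2 * (q + 1) - 2 by omega]
  simp only [Finset.sum_range_succ, Finset.sum_range_zero, zero_add, Nat.sub_zero,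
    Nat.choose_zero_right, Nat.choose_self, Nat.cast_one, pow_one, mul_one, Nat.sub_self,
    pow_zero, one_mul, Nat.add_sub_cancel, zero_le, true_and]
  have hCi : (0 : ℝ) < Real.sqrt (((q + 1).choose (i : ℕ) : ℕ) : ℝ) :=
    Real.sqrt_pos.2 (by exact_mod_cast Nat.choose_pos (by omega))
  have hCj : (0 : ℝ) < Real.sqrt (((q + 1).choose (j : ℕ) : ℕ) : ℝ) :=
    Real.sqrt_pos.2 (by exact_mod_cast Nat.choose_pos (by omega))
  have low : ∀ a : ℕ, a ≤ q + 1 →
      ((q : ℝ) + 1) * (q.choose a : ℝ) = ((q + 1).choose a : ℝ) * ((q : ℝ) + 1 - a) := by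
    intro a ha
    have h := Nat.choose_mul_succ_eq q a
    have : ((q.choose a * (q + 1) : ℕ) : ℝ) = (((q + 1).choose a * (q + 1 - a) : ℕ) : ℝ) := by
      exact_mod_cast h
    push_cast [Nat.cast_sub ha] at this
    linarith
  have high : ∀ a : ℕ, 1 ≤ a →
      ((q : ℝ) + 1) * (q.choose (a - 1) : ℝ) = ((q + 1).choose a : ℝ) * a := by
    intro a ha
    obtain ⟨b, rfl⟩ : ∃ b, a = b + 1 := ⟨a - 1, by omega⟩
    have h := absorb (q + 1) b
    rw [Nat.add_sub_cancel] at h ⊢
    push_cast at h ⊢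
    linarith
  by_cases h : (i : ℕ) + j = k + 1
  · rw [if_pos h]
    have e1 : ((q : ℝ) + 1) ^ 2 * ((if 1 ≤ (j : ℕ) ∧ (i : ℕ) + ((j : ℕ) - 1) = k then
        -1 * (q.choose (i : ℕ) : ℝ) * (q.choose ((j : ℕ) - 1) : ℝ) else 0)) =
        -((q + 1).choose (i : ℕ) : ℝ) * ((q + 1).choose (j : ℕ) : ℝ) * ((q : ℝ) + 1 - i) * j := by
      rcases Nat.eq_zero_or_pos (j : ℕ) with hz | hp
      · simp [hz]
      · rw [if_pos ⟨hp, by omega⟩]
        linear_combination (-((q : ℝ) + 1) * (q.choose ((j : ℕ) - 1) : ℝ)) * low (i : ℕ) (by omega)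
          - (((q + 1).choose (i : ℕ) : ℝ) * ((q : ℝ) + 1 - (i : ℕ))) * high (j : ℕ) hp
    have e2 : ((q : ℝ) + 1) ^ 2 * ((if 1 ≤ (i : ℕ) ∧ (i : ℕ) - 1 + (j : ℕ) = k then
        (q.choose ((i : ℕ) - 1) : ℝ) * (q.choose (j : ℕ) : ℝ) else 0)) =
        ((q + 1).choose (i : ℕ) : ℝ) * ((q + 1).choose (j : ℕ) : ℝ) * ((q : ℝ) + 1 - j) * i := by
      rcases Nat.eq_zero_or_pos (i : ℕ) with hz | hp
      · simp [hz]
      · rw [if_pos ⟨hp, by omega⟩]
        linear_combination (((q : ℝ) + 1) * (q.choose ((i : ℕ) - 1) : ℝ)) * low (j : ℕ) (by omega)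
          + (((q + 1).choose (j : ℕ) : ℝ) * ((q : ℝ) + 1 - (j : ℕ))) * high (i : ℕ) hp
    have hk : k ≤ 2 * (q + 1) - 2 ∨ 2 * (q + 1) - 2 < k := le_or_gt _ _
    rcases hk with hk | hk
    · set C : ℝ := ((2 * (q + 1) - 2).choose k : ℝ) with hC
      have hCpos : (0 : ℝ) < Real.sqrt C :=
        Real.sqrt_pos.2 (by rw [hC]; exact_mod_cast Nat.choose_pos hk)
      have hCC : C = Real.sqrt C * Real.sqrt C :=
        (Real.mul_self_sqrt (by rw [hC]; positivity)).symm
      have hii : (((q + 1).choose (i : ℕ) : ℕ) : ℝ) =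
        Real.sqrt (((q + 1).choose (i : ℕ) : ℕ) : ℝ) * Real.sqrt (((q + 1).choose (i : ℕ) : ℕ) : ℝ) :=
        (Real.mul_self_sqrt (by positivity)).symm
      have hjj : (((q + 1).choose (j : ℕ) : ℕ) : ℝ) =
        Real.sqrt (((q + 1).choose (j : ℕ) : ℕ) : ℝ) * Real.sqrt (((q + 1).choose (j : ℕ) : ℕ) : ℝ) :=
        (Real.mul_self_sqrt (by positivity)).symm
      generalize hsi : Real.sqrt (((q + 1).choose (i : ℕ) : ℕ) : ℝ) = si at hii hCi ⊢
      generalize hsj : Real.sqrt (((q + 1).choose (j : ℕ) : ℕ) : ℝ) = sj at hjj hCj ⊢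
      generalize hsC : Real.sqrt C = sC at hCC hCpos ⊢
      rw [← zero_div C, ← ite_div, ← ite_div, ← add_div]
      generalize hA : (if 1 ≤ (j : ℕ) ∧ (i : ℕ) + ((j : ℕ) - 1) = k then
        -1 * (q.choose (i : ℕ) : ℝ) * (q.choose ((j : ℕ) - 1) : ℝ) else 0) = A at e1 ⊢
      generalize hB : (if 1 ≤ (i : ℕ) ∧ (i : ℕ) - 1 + (j : ℕ) = k then
        (q.choose ((i : ℕ) - 1) : ℝ) * (q.choose (j : ℕ) : ℝ) else 0) = B at e2 ⊢
      have key : ((q : ℝ) + 1) * (A + B) = si * si * (sj * sj) * ((i : ℕ) - (j : ℕ) : ℝ) := by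
        refine mul_left_cancel₀ (show ((q : ℝ) + 1) ≠ 0 by positivity) ?_
        rw [← hii, ← hjj]
        linear_combination e1 + e2
      rw [hCC]
      push_cast
      field_simp
      linear_combination key
    · rw [Nat.choose_eq_zero_of_lt hk]
      simp
  · rw [if_neg h, if_neg (by rintro ⟨h1, h2⟩; omega), if_neg (by rintro ⟨h1, h2⟩; omega)]
    simp

lemma kappa_one_pos (hQ : 1 ≤ Q) : 0 < kappa 1 Q Q := by
  rw [kappa_one hQ]
  have : (0 : ℝ) < Q := by exact_mod_cast hQ
  positivity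

lemma pairNormSq_succ (hQ : 1 ≤ Q) {k : ℕ} (hk : k ≤ impChg Q) :
    pairNormSq Q (k + 1) =
      (Q : ℝ) ^ 2 * ((2 * Q - 2).choose k : ℝ) * kappa 1 Q Q := by
  unfold impChg at hk
  have e : (Q : ℝ) ^ 2 * ((2 * Q - 2).choose k : ℝ) * kappa 1 Q Q =
      2 * Q * ((2 * Q - 2).choose k : ℝ) := by
    rw [kappa_one hQ]
    have : (0 : ℝ) < Q := by exact_mod_cast hQ
    field_simp
  rw [e]
  rcases eq_or_lt_of_le hQ with rfl | hQ2
  · obtain rfl : k = 0 := by omega
    simp [pairNormSq, pairVec, Fin.sum_univ_two]; norm_num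
  · have := centred Q (k + 1) (by omega) hQ2
    rw [Nat.add_sub_cancel] at this
    rw [← this]
    unfold pairNormSq pairVec
    rw [Fin.sum_univ_eq_sum_range
      (fun a => ∑ b : Fin (Q + 1), (if a + (b : ℕ) = k + 1 then
        ((b : ℝ) - a) * Real.sqrt (Q.choose a) * Real.sqrt (Q.choose b) else 0) ^ 2)]
    set F := fun a : ℕ => ((((k + 1 : ℕ) : ℝ) - 2 * a) ^ 2 * (Q.choose a : ℝ) *
      (Q.choose (k + 1 - a) : ℝ))
    have hin : ∀ a ∈ range (Q + 1), ∑ b : Fin (Q + 1), (if a + (b : ℕ) = k + 1 then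
        ((b : ℝ) - a) * Real.sqrt (Q.choose a) * Real.sqrt (Q.choose b) else 0) ^ 2 =
        if a ≤ k + 1 then F a else 0 := by
      intro a _
      split_ifs with ha
      · rcases le_or_gt (k + 1 - a) Q with hb | hb
        · rw [Finset.sum_eq_single (⟨k + 1 - a, by omega⟩ : Fin (Q + 1))]
          · rw [if_pos (by simp only; omega)]
            simp only [F]
            rw [Nat.cast_sub ha, mul_pow, mul_pow, Real.sq_sqrt (by positivity),
              Real.sq_sqrt (by positivity)]
            push_cast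
            ring
          · intro b _ hne
            rw [if_neg (fun h => hne (Fin.ext (by simp only; omega)))]
            simp
          · simp
        · simp only [F]
          rw [Nat.choose_eq_zero_of_lt hb]
          simp only [Nat.cast_zero, mul_zero]
          refine Finset.sum_eq_zero fun b _ => ?_
          have := b.isLt
          rw [if_neg (by omega)]
          simp
      · refine Finset.sum_eq_zero fun b _ => ?_
        rw [if_neg (by omega)]
        simp
    rw [Finset.sum_congr rfl hin, ← Finset.sum_filter]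
    refine Finset.sum_subset (fun a ha => ?_) (fun a ha hna => ?_)
    · simp only [Finset.mem_filter, Finset.mem_range] at ha ⊢; omega
    · simp only [Finset.mem_filter, Finset.mem_range] at ha hna
      simp only [F]
      rw [Nat.choose_eq_zero_of_lt (show Q < a by omega)]
      simp

lemma jc_one_orth (hQ : 1 ≤ Q) {k k' : ℕ} (hk : k ≤ impChg Q) :
    ∑ i : Fin (Q + 1), ∑ j : Fin (Q + 1), Jc 1 Q Q i j k * Jc 1 Q Q i j k' =
      if k = k' then kappa 1 Q Q else 0 := by
  split_ifs with h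
  · subst h
    have hC : (0 : ℝ) < ((2 * Q - 2).choose k : ℝ) := by
      exact_mod_cast Nat.choose_pos hk
    have hQ0 : (0 : ℝ) < Q := by exact_mod_cast hQ
    have e : ∀ i j : Fin (Q + 1), Jc 1 Q Q i j k * Jc 1 Q Q i j k =
        pairVec Q (k + 1) i j ^ 2 / ((Q : ℝ) ^ 2 * ((2 * Q - 2).choose k : ℝ)) := by
      intro i j
      rw [jc_one_eq hQ, ← sq, div_pow, neg_sq, mul_pow, Real.sq_sqrt hC.le]
    simp only [e, ← Finset.sum_div]
    change pairNormSq Q (k + 1) / _ = _
    rw [pairNormSq_succ hQ hk]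
    field_simp
  · refine Finset.sum_eq_zero fun i _ => Finset.sum_eq_zero fun j _ => ?_
    rw [jc_one_eq hQ, jc_one_eq hQ]
    unfold pairVec
    by_cases h1 : (i : ℕ) + j = k + 1
    · rw [if_neg (show ¬ (i : ℕ) + j = k' + 1 by omega)]; simp
    · rw [if_neg h1]; simp

lemma jc_one_swap (hQ : 1 ≤ Q) (i j : Fin (Q + 1)) (k : ℕ) :
    Jc 1 Q Q j i k = -Jc 1 Q Q i j k := by
  rw [jc_one_eq hQ, jc_one_eq hQ]
  unfold pairVec
  rcases eq_or_ne ((i : ℕ) + j) (k + 1) with h | h
  · rw [if_pos h, if_pos (by omega)]; ring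
  · rw [if_neg h, if_neg (by omega)]; simp

/-- Component of `ψ` on the vector `M` of the spin `Q-1` space of the factors `i, j`. -/
noncomputable def pairCoef (i j : Fin N) (M : ℕ) (c : Config N Q) (ψ : Config N Q → ℝ) : ℝ :=
  ∑ a : Fin (Q + 1), ∑ b : Fin (Q + 1),
    Jc 1 Q Q a b M * ψ (Function.update (Function.update c i a) j b)

/-- The projection onto the spin `Q-1` space of the factors `i, j`. -/
noncomputable def pairProj (i j : Fin N) (ψ : Config N Q → ℝ) : Config N Q → ℝ := fun c =>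
  (∑ M ∈ range (impChg Q + 1), Jc 1 Q Q (c i) (c j) M * pairCoef i j M c ψ) / kappa 1 Q Q

/-- The ordered pairs `i < j`. -/
noncomputable def pairs₂ (N : ℕ) : Finset (Fin N × Fin N) :=
  univ.filter fun x => x.1 < x.2

/-- The Hamiltonian. -/
noncomputable def ham (ψ : Config N Q → ℝ) : Config N Q → ℝ := fun c =>
  ∑ x ∈ pairs₂ N, pairProj x.1 x.2 ψ c

lemma update_pair_update {α : Type*} (c : Fin N → α) {i j : Fin N} (hij : i ≠ j) (a b u v : α) :
    Function.update (Function.update (Function.update (Function.update c i a) j b) i u) j v =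
      Function.update (Function.update c i u) j v := by
  funext x
  rcases eq_or_ne x j with rfl | hj
  · simp
  rcases eq_or_ne x i with rfl | hi
  · simp [hij]
  · simp [Function.update_of_ne hj, Function.update_of_ne hi]

lemma sum_config_split {i j : Fin N} (hij : i ≠ j) (f : Config N Q → ℝ) :
    ∑ c, f c = ∑ d ∈ restConfigs i j, ∑ a : Fin (Q + 1), ∑ b : Fin (Q + 1),
      f (Function.update (Function.update d i a) j b) := by
  simp only [← Finset.sum_product']
  refine Finset.sum_nbij' (fun c => (Function.update (Function.update c i 0) j 0, c i, c j))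
    (fun p => Function.update (Function.update p.1 i p.2.1) j p.2.2) ?_ ?_ ?_ ?_ ?_
  · intro c _; simp [restConfigs, hij]
  · intro p _; simp
  · intro c _; simp only [update_pair_update c hij]; simp
  · rintro ⟨d, a, b⟩ h
    simp [restConfigs] at h
    obtain ⟨hi, hj⟩ := h
    simp only [update_pair_update d hij, Function.update_self, Function.update_of_ne hij]
    have : Function.update (Function.update d i 0) j 0 = d := by
      rw [← hi, Function.update_eq_self, hi, ← hj, Function.update_eq_self]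
    rw [this]
  · intro c _; simp only [update_pair_update c hij]; simp

lemma sum_restConfigs_zero_one (f : Config (K + 2) Q → ℝ) :
    ∑ d ∈ restConfigs (0 : Fin (K + 2)) 1, f d =
      ∑ c : Config K Q, f (Fin.cons 0 (Fin.cons 0 c)) := by
  refine Finset.sum_nbij' (fun d => Fin.tail (Fin.tail d)) (fun c => Fin.cons 0 (Fin.cons 0 c))
    ?_ ?_ ?_ ?_ ?_
  · intro d _; simp
  · intro c _; simp [restConfigs]
  · intro d h
    simp [restConfigs] at h
    funext x
    refine Fin.cases ?_ (fun y => ?_) x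
    · simp [h.1]
    · refine Fin.cases ?_ (fun z => ?_) y
      · simpa using h.2.symm
      · simp [Fin.tail]
  · intro c _; simp
  · intro d h
    simp [restConfigs] at h
    congr 1
    funext x
    refine Fin.cases ?_ (fun y => ?_) x
    · simp [h.1]
    · refine Fin.cases ?_ (fun z => ?_) y
      · simpa using h.2
      · simp [Fin.tail]

lemma pairCoef_update {i j : Fin N} (hij : i ≠ j) (M : ℕ) (c : Config N Q) (ψ : Config N Q → ℝ)
    (a b : Fin (Q + 1)) :
    pairCoef i j M (Function.update (Function.update c i a) j b) ψ = pairCoef i j M c ψ := by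
  simp only [pairCoef, update_pair_update c hij]

lemma inner'_pairProj {i j : Fin N} (hij : i ≠ j) (φ ψ : Config N Q → ℝ) :
    inner' φ (pairProj i j ψ) =
      (∑ d ∈ restConfigs i j, ∑ M ∈ range (impChg Q + 1),
        pairCoef i j M d φ * pairCoef i j M d ψ) / kappa 1 Q Q := by
  unfold inner'
  rw [sum_config_split hij, Finset.sum_div]
  refine Finset.sum_congr rfl fun d _ => ?_
  simp only [pairProj, pairCoef_update hij, Function.update_self, Function.update_of_ne hij]
  simp only [mul_div_assoc', ← Finset.sum_div, Finset.mul_sum]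
  congr 1
  conv_lhs => arg 2; intro a; rw [Finset.sum_comm]
  rw [Finset.sum_comm]
  refine Finset.sum_congr rfl fun M _ => ?_
  conv_rhs => rw [pairCoef, Finset.sum_mul]
  refine Finset.sum_congr rfl fun a _ => ?_
  rw [Finset.sum_mul]
  exact Finset.sum_congr rfl fun b _ => by ring

lemma inner'_ham_comm (φ ψ : Config N Q → ℝ) : inner' φ (ham ψ) = inner' (ham φ) ψ := by
  have e : ∀ f g : Config N Q → ℝ, inner' f (ham g) =
      ∑ x ∈ pairs₂ N, inner' f (pairProj x.1 x.2 g) := by
    intro f g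
    simp only [inner', ham, Finset.mul_sum]
    exact Finset.sum_comm
  have hc : inner' (ham φ) ψ = inner' ψ (ham φ) := Finset.sum_congr rfl fun _ _ => mul_comm _ _
  rw [hc, e, e]
  refine Finset.sum_congr rfl fun x hx => ?_
  have hne : x.1 ≠ x.2 := (Finset.mem_filter.1 hx).2.ne
  rw [inner'_pairProj hne, inner'_pairProj hne]
  simp only [mul_comm]

lemma energy_eq_inner'_ham (hQ : 1 ≤ Q) (ψ : Config N Q → ℝ) :
    energy ψ = inner' ψ (ham ψ) := by
  have e : inner' ψ (ham ψ) = ∑ x ∈ pairs₂ N, inner' ψ (pairProj x.1 x.2 ψ) := by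
    simp only [inner', ham, Finset.mul_sum]
    exact Finset.sum_comm
  rw [e]
  refine Finset.sum_congr rfl fun x hx => ?_
  rw [inner'_pairProj (Finset.mem_filter.1 hx).2.ne, Finset.sum_div]
  refine Finset.sum_congr rfl fun d _ => ?_
  rw [Finset.sum_div, show Finset.Icc 1 (2 * Q - 1) = Finset.Ico 1 (2 * Q) by
    ext; simp; omega, Finset.sum_Ico_eq_sum_range]
  refine Finset.sum_congr (by unfold impChg; congr 1; omega) fun k hk => ?_
  have hk' : k ≤ impChg Q := by simp [impChg] at hk ⊢; omega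
  have hp : pairCoef x.1 x.2 k d ψ = -pairAmp (1 + k) x.1 x.2 d ψ /
      ((Q : ℝ) * Real.sqrt ((2 * Q - 2).choose k)) := by
    simp only [pairCoef, pairAmp, jc_one_eq hQ, add_comm 1 k, ← Finset.sum_neg_distrib,
      Finset.sum_div]
    exact Finset.sum_congr rfl fun a _ => Finset.sum_congr rfl fun b _ => by ring
  rw [hp, add_comm 1 k, pairNormSq_succ hQ hk']
  rw [← sq, div_pow, neg_sq, mul_pow, Real.sq_sqrt (by positivity)]
  rw [div_div]

lemma sum_pairs₂_eq (g : Fin N → Fin N → ℝ) :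
    ∑ x ∈ pairs₂ N, g x.1 x.2 = ∑ i, ∑ j, if i < j then g i j else 0 := by
  rw [pairs₂, Finset.sum_filter, ← Finset.univ_product_univ, Finset.sum_product]

lemma sum_pairs₂_succ (g : Fin (N + 1) → Fin (N + 1) → ℝ) :
    ∑ x ∈ pairs₂ (N + 1), g x.1 x.2 =
      ∑ a : Fin N, g 0 a.succ + ∑ x ∈ pairs₂ N, g x.1.succ x.2.succ := by
  rw [sum_pairs₂_eq, sum_pairs₂_eq (fun i j => g i.succ j.succ)]
  simp [Fin.sum_univ_succ, Fin.succ_pos, Fin.succ_lt_succ_iff]

lemma card_pairs₂ (N : ℕ) : (#(pairs₂ N) : ℝ) = (N.choose 2 : ℝ) := by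
  induction N with
  | zero => simp [pairs₂]
  | succ n ih =>
    have h := sum_pairs₂_succ (N := n) (fun _ _ => (1 : ℝ))
    simp at h
    rw [h, ih, Nat.choose_succ_succ, Nat.choose_one_right]
    push_cast
    ring

lemma pairProj_swap (hQ : 1 ≤ Q) {i j : Fin N} (hij : i ≠ j) (ψ : Config N Q → ℝ) :
    pairProj j i ψ = pairProj i j ψ := by
  funext c
  unfold pairProj
  congr 1
  refine Finset.sum_congr rfl fun M _ => ?_
  have h : pairCoef j i M c ψ = -pairCoef i j M c ψ := by
    unfold pairCoef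
    rw [Finset.sum_comm, ← Finset.sum_neg_distrib]
    refine Finset.sum_congr rfl fun a _ => ?_
    rw [← Finset.sum_neg_distrib]
    refine Finset.sum_congr rfl fun b _ => ?_
    rw [jc_one_swap hQ, Function.update_comm hij.symm]
    ring
  rw [h, jc_one_swap hQ (c i) (c j)]
  ring

lemma pairProj_perm {ψ : Config N Q → ℝ} (hψ : IsAntisym ψ) (σ : Equiv.Perm (Fin N))
    (i j : Fin N) (c : Config N Q) :
    pairProj i j ψ (c ∘ σ) = ((Equiv.Perm.sign σ : ℤ) : ℝ) * pairProj (σ i) (σ j) ψ c := by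
  have h : ∀ M, pairCoef i j M (c ∘ σ) ψ =
      ((Equiv.Perm.sign σ : ℤ) : ℝ) * pairCoef (σ i) (σ j) M c ψ := by
    intro M
    simp only [pairCoef, Finset.mul_sum]
    refine Finset.sum_congr rfl fun a _ => Finset.sum_congr rfl fun b _ => ?_
    rw [← Function.update_comp_eq_of_injective _ σ.injective,
      ← Function.update_comp_eq_of_injective _ σ.injective, hψ]
    ring
  simp only [pairProj, h, Function.comp_apply]
  rw [← mul_div_assoc, Finset.mul_sum]
  congr 1
  exact Finset.sum_congr rfl fun M _ => by ring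

lemma sum_pairs₂_perm (g : Fin N → Fin N → ℝ) (hg : ∀ i j, i ≠ j → g j i = g i j)
    (σ : Equiv.Perm (Fin N)) :
    ∑ x ∈ pairs₂ N, g (σ x.1) (σ x.2) = ∑ x ∈ pairs₂ N, g x.1 x.2 := by
  refine Finset.sum_nbij' (fun x => (min (σ x.1) (σ x.2), max (σ x.1) (σ x.2)))
    (fun x => (min (σ.symm x.1) (σ.symm x.2), max (σ.symm x.1) (σ.symm x.2))) ?_ ?_ ?_ ?_ ?_
  · intro x hx
    simp [pairs₂] at hx ⊢
    exact hx.ne'
  · intro x hx
    simp [pairs₂] at hx ⊢
    exact hx.ne'
  · intro x hx
    simp [pairs₂] at hx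
    rcases le_total (σ x.1) (σ x.2) with h | h <;> simp [h, hx.le]
  · intro x hx
    simp [pairs₂] at hx
    rcases le_total (σ.symm x.1) (σ.symm x.2) with h | h <;> simp [h, hx.le]
  · intro x hx
    simp [pairs₂] at hx
    rcases le_total (σ x.1) (σ x.2) with h | h <;> simp [h]
    exact (hg _ _ (σ.injective.ne hx.ne)).symm

lemma ham_antisym (hQ : 1 ≤ Q) {ψ : Config N Q → ℝ} (hψ : IsAntisym ψ) : IsAntisym (ham ψ) := by
  intro c σ
  simp only [ham, pairProj_perm hψ, ← Finset.mul_sum]
  congr 1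
  exact sum_pairs₂_perm (fun i j => pairProj i j ψ c)
    (fun i j hij => congrFun (pairProj_swap hQ hij ψ) c) σ

lemma pairCoef_zero_one (M : ℕ) (φ : Config (K + 2) Q → ℝ) (x y : Fin (Q + 1)) (c : Config K Q) :
    pairCoef 0 1 M (Fin.cons x (Fin.cons y c)) φ = toImp φ M c := by
  unfold pairCoef toImp
  refine Finset.sum_congr rfl fun a _ => Finset.sum_congr rfl fun b _ => ?_
  rw [Fin.update_cons_zero, show (1 : Fin (K + 2)) = (0 : Fin (K + 1)).succ from rfl,
    ← Fin.cons_update, Fin.update_cons_zero]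

lemma inner'_pairProj_eq_imp {φ ψ : Config (K + 2) Q → ℝ} (hφ : IsAntisym φ)
    (hψ : IsAntisym ψ) {i j : Fin (K + 2)} (hij : i ≠ j) :
    inner' φ (pairProj i j ψ) =
      (∑ M ∈ range (impChg Q + 1), ∑ c, toImp φ M c * toImp ψ M c) / kappa 1 Q Q := by
  let σ₁ : Equiv.Perm (Fin (K + 2)) := Equiv.swap 0 i
  let σ : Equiv.Perm (Fin (K + 2)) := σ₁ * Equiv.swap 1 (σ₁ j)
  have hk : σ₁ j ≠ 0 := by
    intro h
    have := congrArg σ₁ h
    simp [σ₁] at this
    exact hij this.symm
  have h0 : σ 0 = i := by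
    simp only [σ, Equiv.Perm.mul_apply]
    rw [Equiv.swap_apply_of_ne_of_ne (by simp) hk.symm]
    simp [σ₁]
  have h1 : σ 1 = j := by simp [σ, σ₁]
  have e : inner' φ (pairProj i j ψ) = inner' φ (pairProj 0 1 ψ) := by
    conv_rhs => rw [inner', ← Equiv.sum_comp (Equiv.arrowCongr σ.symm (Equiv.refl _))]
    refine Finset.sum_congr rfl fun c _ => ?_
    have hc : (Equiv.arrowCongr σ.symm (Equiv.refl (Fin (Q + 1)))) c = c ∘ σ := by
      funext x; simp [Equiv.arrowCongr]
    rw [hc, hφ, pairProj_perm hψ, h0, h1]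
    rcases Int.units_eq_one_or (Equiv.Perm.sign σ) with h | h <;> simp [h]
  rw [e, inner'_pairProj (by simp), sum_restConfigs_zero_one, Finset.sum_comm]
  simp only [pairCoef_zero_one]

lemma toImp_sum {ι : Type*} (s : Finset ι) (g : ι → Config (K + 2) Q → ℝ) (M : ℕ)
    (c : Config K Q) :
    toImp (fun d => ∑ x ∈ s, g x d) M c = ∑ x ∈ s, toImp (g x) M c := by
  simp only [toImp, Finset.mul_sum]
  symm
  rw [Finset.sum_comm]
  refine Finset.sum_congr rfl fun a _ => ?_
  exact Finset.sum_comm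

lemma toImp_pairProj_zero_one (hQ : 1 ≤ Q) (φ : Config (K + 2) Q → ℝ) {M : ℕ}
    (hM : M ≤ impChg Q) (c : Config K Q) :
    toImp (pairProj 0 1 φ) M c = toImp φ M c := by
  have hκ := (kappa_one_pos hQ).ne'
  calc toImp (pairProj 0 1 φ) M c
      = (∑ M' ∈ range (impChg Q + 1), (∑ a : Fin (Q + 1), ∑ b : Fin (Q + 1),
          Jc 1 Q Q a b M * Jc 1 Q Q a b M') * toImp φ M' c) / kappa 1 Q Q := by
        conv_lhs => rw [toImp]
        simp only [pairProj, pairCoef_zero_one, Fin.cons_zero, Fin.cons_one,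
          mul_div_assoc', ← Finset.sum_div, Finset.mul_sum]
        congr 1
        rw [Finset.sum_comm_cycle]
        simp only [Finset.sum_mul]
        refine Finset.sum_congr rfl fun M' _ => Finset.sum_congr rfl fun a _ =>
          Finset.sum_congr rfl fun b _ => ?_
        ring
    _ = toImp φ M c := by
        rw [Finset.sum_eq_single M]
        · rw [jc_one_orth hQ hM, if_pos rfl]; field_simp
        · intro M' _ hne
          rw [jc_one_orth hQ hM, if_neg hne.symm, zero_mul]
        · intro h; simp at h; omega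

lemma toImp_pairProj_succ (φ : Config (K + 2) Q → ℝ) (a b : Fin K) (M : ℕ) (c : Config K Q) :
    toImp (pairProj a.succ.succ b.succ.succ φ) M c = pairProj a b (toImp φ M) c := by
  simp only [toImp, pairProj, pairCoef, Fin.cons_succ, ← Fin.cons_update, mul_div_assoc',
    ← Finset.sum_div, Finset.mul_sum]
  congr 1
  rw [Finset.sum_comm_cycle]
  refine Finset.sum_congr rfl fun M' _ => ?_
  rw [Finset.sum_comm_cycle]
  refine Finset.sum_congr rfl fun u _ => ?_
  rw [Finset.sum_comm_cycle]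
  exact Finset.sum_congr rfl fun v _ => Finset.sum_congr rfl fun x _ =>
    Finset.sum_congr rfl fun y _ => by ring

lemma swap_one_succ {φ : Config (K + 2) Q → ℝ} (hφ : IsAntisym φ) (a : Fin K)
    (u v y : Fin (Q + 1)) (c : Config K Q) :
    φ (Fin.cons u (Fin.cons y (Function.update c a v))) =
      -φ (Fin.cons u (Fin.cons v (Function.update c a y))) := by
  have hne : (1 : Fin (K + 2)) ≠ a.succ.succ := by simp [Fin.ext_iff]
  have hc : (Fin.cons u (Fin.cons y (Function.update c a v)) : Config (K + 2) Q) =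
      (Fin.cons u (Fin.cons v (Function.update c a y)) : Config (K + 2) Q) ∘
        Equiv.swap 1 a.succ.succ := by
    funext x
    refine Fin.cases ?_ (fun z => ?_) x
    · simp [Equiv.swap_apply_of_ne_of_ne, Fin.ext_iff]
    refine Fin.cases ?_ (fun w => ?_) z
    · rw [Function.comp_apply, Fin.succ_zero_eq_one, Equiv.swap_apply_left, ← Fin.succ_zero_eq_one]
      simp only [Fin.cons_succ, Fin.cons_zero, Function.update_self]
    · rw [Function.comp_apply]
      rcases eq_or_ne w a with rfl | hw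
      · rw [Equiv.swap_apply_right, ← Fin.succ_zero_eq_one]
        simp only [Fin.cons_succ, Fin.cons_zero, Function.update_self]
      · rw [Equiv.swap_apply_of_ne_of_ne (by simp [Fin.ext_iff]) (by simp [hw])]
        simp only [Fin.cons_succ, Function.update_of_ne hw]
  rw [hc, hφ, Equiv.Perm.sign_swap hne]
  simp

lemma toImp_pairProj_zero_succ {φ : Config (K + 2) Q → ℝ} (hφ : IsAntisym φ) (a : Fin K)
    (M : ℕ) (c : Config K Q) :
    toImp (pairProj 0 a.succ.succ φ) M c =
      -(∑ x : Fin (Q + 1), ∑ y : Fin (Q + 1), ∑ M' ∈ range (impChg Q + 1),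
        Jc 1 Q Q x y M * Jc 1 Q Q x (c a) M' * toImp φ M' (Function.update c a y)) /
          kappa 1 Q Q := by
  have h : ∀ x y M', pairCoef 0 a.succ.succ M' (Fin.cons x (Fin.cons y c)) φ =
      -toImp φ M' (Function.update c a y) := by
    intro x y M'
    simp only [pairCoef, toImp, Fin.update_cons_zero, ← Fin.cons_update,
      ← Finset.sum_neg_distrib]
    refine Finset.sum_congr rfl fun u _ => Finset.sum_congr rfl fun v _ => ?_
    rw [swap_one_succ hφ]
    ring
  rw [toImp]
  simp only [pairProj, h, Fin.cons_zero, Fin.cons_succ, mul_div_assoc', ← Finset.sum_div,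
    Finset.mul_sum, ← Finset.sum_neg_distrib]
  congr 1
  exact Finset.sum_congr rfl fun x _ => Finset.sum_congr rfl fun y _ =>
    Finset.sum_congr rfl fun M' _ => by ring

lemma toImp_pairProj_one_succ (hQ : 1 ≤ Q) {φ : Config (K + 2) Q → ℝ} (hφ : IsAntisym φ)
    (a : Fin K) (M : ℕ) (c : Config K Q) :
    toImp (pairProj 1 a.succ.succ φ) M c = toImp (pairProj 0 a.succ.succ φ) M c := by
  have h : ∀ x y : Fin (Q + 1), pairProj 1 a.succ.succ φ (Fin.cons x (Fin.cons y c)) =
      -pairProj 0 a.succ.succ φ (Fin.cons y (Fin.cons x c)) := by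
    intro x y
    have hc : (Fin.cons x (Fin.cons y c) : Config (K + 2) Q) =
        (Fin.cons y (Fin.cons x c) : Config (K + 2) Q) ∘ Equiv.swap 0 1 := by
      funext z
      refine Fin.cases ?_ (fun w => ?_) z
      · simp
      refine Fin.cases ?_ (fun v => ?_) w
      · simp
      · simp [Equiv.swap_apply_of_ne_of_ne, Fin.ext_iff]
    rw [hc, pairProj_perm hφ, Equiv.Perm.sign_swap (by simp)]
    have : Equiv.swap (0 : Fin (K + 2)) 1 a.succ.succ = a.succ.succ :=
      Equiv.swap_apply_of_ne_of_ne (by simp [Fin.ext_iff]) (by simp [Fin.ext_iff])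
    rw [this, Equiv.swap_apply_right]
    simp
  simp only [toImp, h]
  rw [Finset.sum_comm]
  refine Finset.sum_congr rfl fun y _ => Finset.sum_congr rfl fun x _ => ?_
  rw [jc_one_swap hQ]
  ring

lemma toImp_ham (hQ : 1 ≤ Q) {φ : Config (K + 2) Q → ℝ} (hφ : IsAntisym φ) {M : ℕ}
    (hM : M ≤ impChg Q) (c : Config K Q) :
    toImp (ham φ) M c = toImp φ M c
      - 2 / kappa 1 Q Q * (∑ a : Fin K, ∑ x : Fin (Q + 1), ∑ y : Fin (Q + 1),
          ∑ M' ∈ range (impChg Q + 1), Jc 1 Q Q x y M * Jc 1 Q Q x (c a) M' *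
            toImp φ M' (Function.update c a y))
      + ham (toImp φ M) c := by
  unfold ham
  rw [toImp_sum, sum_pairs₂_succ (fun i j => toImp (pairProj i j φ) M c),
    sum_pairs₂_succ (fun i j : Fin (K + 1) => toImp (pairProj i.succ j.succ φ) M c),
    Fin.sum_univ_succ]
  simp only [Fin.succ_zero_eq_one, toImp_pairProj_zero_one hQ φ hM, toImp_pairProj_one_succ hQ hφ,
    toImp_pairProj_succ, toImp_pairProj_zero_succ hφ]
  simp only [div_eq_mul_inv, ← Finset.sum_mul, Finset.sum_neg_distrib]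
  ring

/-! ### The one-body form -/

lemma triVecZ_exchange (hQ : 2 ≤ Q) {r r' Z Z' : ℕ} (hr : r ≤ Q) (hr' : r' ≤ Q)
    (hZ : Z ≤ chg Q r) (hZ' : Z' ≤ chg Q r') :
    ∑ i : Fin (Q + 1), ∑ j : Fin (Q + 1), ∑ l : Fin (Q + 1),
      triVecZ Q r Z i j l * triVecZ Q r' Z' i l j =
        if r = r' ∧ Z = Z' then -wch Q r / 2 * kappa 1 Q Q * kappa r (impChg Q) Q else 0 := by
  rw [← exch_eq hQ hr hr' hZ hZ', exch]
  simp only [Finset.sum_range]

lemma jc_imp_complete (hQ : 2 ≤ Q) {M M' : ℕ} (hM : M ≤ impChg Q) (hM' : M' ≤ impChg Q)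
    (x x' : Fin (Q + 1)) :
    ∑ r ∈ range (Q + 1), ∑ Z ∈ range (chg Q r + 1),
        Jc r (impChg Q) Q M x Z * Jc r (impChg Q) Q M' x' Z / kappa r (impChg Q) Q =
      if M = M' ∧ x = x' then 1 else 0 := by
  have h := jc_complete hM (Nat.le_of_lt_succ x.isLt) hM' (Nat.le_of_lt_succ x'.isLt)
  rw [show min (impChg Q) Q = Q by unfold impChg; omega] at h
  simp only [Fin.ext_iff]
  rw [← h]
  refine Finset.sum_congr rfl fun r hr => ?_
  rw [chg_eq hQ (Nat.lt_succ_iff.1 (Finset.mem_range.1 hr))]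

lemma kappa_imp_pos (hQ : 2 ≤ Q) {r : ℕ} (hr : r ≤ Q) : 0 < kappa r (impChg Q) Q := by
  have h : r ≤ impChg Q := by unfold impChg; omega
  unfold kappa
  refine div_pos ?_ (mul_pos ?_ ?_) <;> exact_mod_cast Nat.choose_pos (by omega)

lemma sum_config_split_one (a : Fin N) (f : Config N Q → ℝ) :
    ∑ c, f c = ∑ d ∈ univ.filter (fun d : Config N Q => d a = 0), ∑ x : Fin (Q + 1),
      f (Function.update d a x) := by
  simp only [← Finset.sum_product']
  refine Finset.sum_nbij' (fun c => (Function.update c a 0, c a))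
    (fun p => Function.update p.1 a p.2) ?_ ?_ ?_ ?_ ?_
  · intro c _; simp
  · intro p _; simp
  · intro c _; simp
  · rintro ⟨d, x⟩ h
    simp at h
    simp [← h]
  · intro c _; simp

/-- The exchange form of one particle and the impurity. -/
lemma exchange_form (hQ : 2 ≤ Q) (f : ℕ → Fin (Q + 1) → ℝ) :
    -(2 / kappa 1 Q Q) * (∑ x : Fin (Q + 1), ∑ y : Fin (Q + 1), ∑ l : Fin (Q + 1),
      (∑ M ∈ range (impChg Q + 1), Jc 1 Q Q x y M * f M l) *
        (∑ M ∈ range (impChg Q + 1), Jc 1 Q Q x l M * f M y)) =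
    ∑ r ∈ range (Q + 1), wch Q r * ((∑ Z ∈ range (chg Q r + 1),
      (∑ M ∈ range (impChg Q + 1), ∑ u : Fin (Q + 1), Jc r (impChg Q) Q M u Z * f M u) ^ 2) /
        kappa r (impChg Q) Q) := by
  set P := (range (Q + 1)).sigma (fun r => range (chg Q r + 1)) with hP
  set κ := fun p : Σ _ : ℕ, ℕ => kappa p.1 (impChg Q) Q
  set amp := fun p : Σ _ : ℕ, ℕ =>
    ∑ M ∈ range (impChg Q + 1), ∑ u : Fin (Q + 1), Jc p.1 (impChg Q) Q M u p.2 * f M u
  have hS : ∀ x y l : Fin (Q + 1), ∑ M ∈ range (impChg Q + 1), Jc 1 Q Q x y M * f M l =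
      ∑ p ∈ P, amp p / κ p * triVecZ Q p.1 p.2 x y l := by
    intro x y l
    symm
    calc ∑ p ∈ P, amp p / κ p * triVecZ Q p.1 p.2 x y l
        = ∑ M ∈ range (impChg Q + 1), Jc 1 Q Q x y M * ∑ M' ∈ range (impChg Q + 1),
            ∑ u : Fin (Q + 1), (∑ p ∈ P, Jc p.1 (impChg Q) Q M l p.2 *
              Jc p.1 (impChg Q) Q M' u p.2 / κ p) * f M' u := by
          simp only [amp, triVecZ, div_eq_mul_inv, Finset.sum_mul, Finset.mul_sum]
          rw [Finset.sum_comm]
          refine Finset.sum_congr rfl fun M _ => ?_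
          rw [Finset.sum_comm]
          refine Finset.sum_congr rfl fun M' _ => ?_
          rw [Finset.sum_comm]
          exact Finset.sum_congr rfl fun u _ => Finset.sum_congr rfl fun p _ => by ring
      _ = _ := by
          refine Finset.sum_congr rfl fun M hM => ?_
          congr 1
          have hc : ∀ M' ∈ range (impChg Q + 1), ∀ u : Fin (Q + 1),
              (∑ p ∈ P, Jc p.1 (impChg Q) Q M l p.2 * Jc p.1 (impChg Q) Q M' u p.2 / κ p) =
                if M = M' ∧ l = u then 1 else 0 := by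
            intro M' hM' u
            rw [hP, Finset.sum_sigma]
            exact jc_imp_complete hQ (Nat.lt_succ_iff.1 (Finset.mem_range.1 hM))
              (Nat.lt_succ_iff.1 (Finset.mem_range.1 hM')) l u
          rw [Finset.sum_congr rfl fun M' hM' => Finset.sum_congr rfl fun u _ => by rw [hc M' hM' u]]
          rw [Finset.sum_eq_single M (fun M' _ h => by simp [h.symm]) (fun h => absurd hM h)]
          simp
  have hA : ∀ p ∈ P, ∀ q ∈ P, ∑ x : Fin (Q + 1), ∑ y : Fin (Q + 1), ∑ l : Fin (Q + 1),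
      (amp p / κ p * triVecZ Q p.1 p.2 x y l) * (amp q / κ q * triVecZ Q q.1 q.2 x l y) =
      if p = q then (-wch Q p.1 / 2 * kappa 1 Q Q) * (amp p ^ 2 / κ p) else 0 := by
    intro p hp q hq
    rw [hP, Finset.mem_sigma, Finset.mem_range, Finset.mem_range] at hp hq
    have e : ∀ x y l : Fin (Q + 1),
        (amp p / κ p * triVecZ Q p.1 p.2 x y l) * (amp q / κ q * triVecZ Q q.1 q.2 x l y) =
        amp p / κ p * (amp q / κ q) * (triVecZ Q p.1 p.2 x y l * triVecZ Q q.1 q.2 x l y) := by
      intros; ring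
    simp only [e, ← Finset.mul_sum]
    rw [triVecZ_exchange hQ (by omega) (by omega) (by omega) (by omega)]
    rcases eq_or_ne p q with rfl | hne
    · have : κ p ≠ 0 := (kappa_imp_pos hQ (by omega)).ne'
      rw [if_pos ⟨rfl, rfl⟩, if_pos rfl]
      change amp p / κ p * (amp p / κ p) * (-wch Q p.1 / 2 * kappa 1 Q Q * κ p) = _
      field_simp
    · rw [if_neg hne, if_neg (fun h => hne (Sigma.ext h.1 (heq_of_eq h.2))), mul_zero]
  have key : (∑ x : Fin (Q + 1), ∑ y : Fin (Q + 1), ∑ l : Fin (Q + 1),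
      (∑ M ∈ range (impChg Q + 1), Jc 1 Q Q x y M * f M l) *
        (∑ M ∈ range (impChg Q + 1), Jc 1 Q Q x l M * f M y)) =
      ∑ p ∈ P, (-wch Q p.1 / 2 * kappa 1 Q Q) * (amp p ^ 2 / κ p) := by
    simp only [hS, Finset.sum_mul_sum]
    calc _ = ∑ p ∈ P, ∑ q ∈ P, if p = q then
          (-wch Q p.1 / 2 * kappa 1 Q Q) * (amp p ^ 2 / κ p) else 0 := ?_
      _ = _ := Finset.sum_congr rfl fun p hp => by simp [hp]
    rw [← Finset.sum_congr rfl fun p hp => Finset.sum_congr rfl fun q hq => hA p hp q hq]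
    symm
    rw [Finset.sum_comm_cycle]
    refine Finset.sum_congr rfl fun x _ => ?_
    rw [Finset.sum_comm_cycle]
    refine Finset.sum_congr rfl fun y _ => ?_
    rw [Finset.sum_comm_cycle]
  rw [key, hP, Finset.sum_sigma, Finset.mul_sum]
  refine Finset.sum_congr rfl fun r _ => ?_
  rw [Finset.sum_div, Finset.mul_sum, Finset.mul_sum]
  refine Finset.sum_congr rfl fun Z _ => ?_
  have : kappa 1 Q Q ≠ 0 := (kappa_one_pos (by omega)).ne'
  simp only [amp, κ]
  field_simp

/-- The cross term of the pairs through one factor is the one-body form. -/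
lemma cross_eq_oneBody (hQ : 2 ≤ Q) (ψ : ImpState K Q) :
    ∑ M ∈ range (impChg Q + 1), ∑ c, ψ M c *
      (-(2 / kappa 1 Q Q) * (∑ a : Fin K, ∑ x : Fin (Q + 1), ∑ y : Fin (Q + 1),
          ∑ M' ∈ range (impChg Q + 1), Jc 1 Q Q x y M * Jc 1 Q Q x (c a) M' *
            ψ M' (Function.update c a y))) =
      oneBody (wch Q) ψ := by
  unfold oneBody chanWeight
  simp only [Finset.mul_sum]
  rw [Finset.sum_comm_cycle]
  refine Finset.sum_congr rfl fun a _ => ?_
  rw [Finset.sum_congr rfl fun M _ => sum_config_split_one a _]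
  simp only [Finset.sum_comm (t := univ.filter fun d : Config K Q => d a = 0), Finset.sum_div,
    Finset.mul_sum]
  refine Finset.sum_congr rfl fun d _ => ?_
  simp only [← Finset.mul_sum, ← Finset.sum_div]
  refine Eq.trans ?_ (Eq.trans (exchange_form hQ fun M u => ψ M (Function.update d a u)) ?_)
  · simp only [Function.update_self, Function.update_idem, Finset.mul_sum, Finset.sum_mul]
    rw [Finset.sum_comm_cycle]
    refine Finset.sum_congr rfl fun x _ => ?_
    rw [Finset.sum_comm_cycle]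
    refine Finset.sum_congr rfl fun y _ => ?_
    rw [Finset.sum_comm]
    refine Finset.sum_congr rfl fun l _ => ?_
    rw [Finset.sum_comm]
    exact Finset.sum_congr rfl fun M' _ => Finset.sum_congr rfl fun M _ => by ring
  · rfl

lemma energy_nonneg' (ψ : Config N Q → ℝ) : 0 ≤ energy ψ :=
  Finset.sum_nonneg fun _ _ => Finset.sum_nonneg fun _ _ => Finset.sum_nonneg fun _ _ =>
    div_nonneg (sq_nonneg _) (Finset.sum_nonneg fun _ _ => Finset.sum_nonneg fun _ _ => sq_nonneg _)

lemma ham_add_smul (x y : Config N Q → ℝ) (t : ℝ) : ham (x + t • y) = ham x + t • ham y := by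
  funext c
  simp only [ham, pairProj, pairCoef, Pi.add_apply, Pi.smul_apply, smul_eq_mul, mul_add,
    Finset.sum_add_distrib, add_div, Finset.mul_sum, ← mul_div_assoc]
  congr 1
  refine Finset.sum_congr rfl fun x _ => ?_
  congr 1
  exact Finset.sum_congr rfl fun M _ => Finset.sum_congr rfl fun a _ =>
    Finset.sum_congr rfl fun b _ => by ring

lemma inner'_add_smul_left (x y z : Config N Q → ℝ) (t : ℝ) :
    inner' (x + t • y) z = inner' x z + t * inner' y z := by
  simp only [inner', Pi.add_apply, Pi.smul_apply, smul_eq_mul, add_mul, Finset.sum_add_distrib,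
    Finset.mul_sum, mul_assoc]

lemma inner'_comm' (x y : Config N Q → ℝ) : inner' x y = inner' y x :=
  Finset.sum_congr rfl fun _ _ => mul_comm _ _

lemma energy_add_smul (hQ : 1 ≤ Q) (x y : Config N Q → ℝ) (t : ℝ) :
    energy (x + t • y) = energy x + 2 * t * inner' y (ham x) + t ^ 2 * energy y := by
  rw [energy_eq_inner'_ham hQ, energy_eq_inner'_ham hQ x, energy_eq_inner'_ham hQ y, ham_add_smul,
    inner'_add_smul_left, inner'_comm' x, inner'_comm' y (_ + _), inner'_add_smul_left,
    inner'_add_smul_left, inner'_comm' (ham y) x, inner'_ham_comm x y, inner'_comm' (ham x) y,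
    inner'_comm' (ham x) x, inner'_comm' (ham y) y]
  ring

lemma inner'_ham_sq_le (hQ : 1 ≤ Q) (x y : Config N Q → ℝ) :
    inner' y (ham x) ^ 2 ≤ energy x * energy y := by
  have h := discrim_le_zero (a := energy y) (b := 2 * inner' y (ham x)) (c := energy x) fun t => by
    have h := energy_nonneg' (x + t • y)
    rw [energy_add_smul hQ] at h
    linarith
  unfold discrim at h
  linarith

/-- The space of antisymmetric tensors. -/
def antisymSub (N Q : ℕ) : Submodule ℝ (Config N Q → ℝ) where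
  carrier := {ψ | IsAntisym ψ}
  add_mem' := by
    intro a b ha hb c σ
    simp only [Pi.add_apply, ha c σ, hb c σ, mul_add]
  zero_mem' := by intro c σ; simp
  smul_mem' := by
    intro t a ha c σ
    simp only [Pi.smul_apply, smul_eq_mul, ha c σ]
    ring

end Vale.Agent.P359.Gap.Red

namespace Vale.Agent.P359.Gap

open Red

variable {N K Q : ℕ}

/-! ### Main statements -/

/-- The energy in impurity form. -/
theorem energy_eq_imp (hQ : 2 ≤ Q) {φ : Config (K + 2) Q → ℝ} (hφ : IsAntisym φ) :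
    energy φ = ((K + 2).choose 2 : ℝ) / kappa 1 Q Q * impNormSq (toImp φ) := by
  rw [energy_eq_inner'_ham (by omega)]
  have e : inner' φ (ham φ) = ∑ x ∈ pairs₂ (K + 2), inner' φ (pairProj x.1 x.2 φ) := by
    simp only [inner', ham, Finset.mul_sum]
    exact Finset.sum_comm
  rw [e, Finset.sum_congr rfl fun x hx =>
    inner'_pairProj_eq_imp hφ hφ (Finset.mem_filter.1 hx).2.ne]
  rw [Finset.sum_const, nsmul_eq_mul, card_pairs₂]
  simp only [impNormSq, sq]
  ring

/-- The square of the Hamiltonian in impurity form. -/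
theorem ham_normSq_eq (hQ : 2 ≤ Q) {φ : Config (K + 2) Q → ℝ} (hφ : IsAntisym φ) :
    inner' (ham φ) (ham φ) = ((K + 2).choose 2 : ℝ) / kappa 1 Q Q *
      (impNormSq (toImp φ) + oneBody (wch Q) (toImp φ) + hF (toImp φ)) := by
  have hH := ham_antisym (show 1 ≤ Q by omega) hφ
  have e : inner' (ham φ) (ham φ) = ∑ x ∈ pairs₂ (K + 2), inner' (ham φ) (pairProj x.1 x.2 φ) := by
    simp only [inner', ham, Finset.mul_sum]
    exact Finset.sum_comm
  rw [e, Finset.sum_congr rfl fun x hx =>
    inner'_pairProj_eq_imp hH hφ (Finset.mem_filter.1 hx).2.ne]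
  rw [Finset.sum_const, nsmul_eq_mul, card_pairs₂, ← cross_eq_oneBody hQ]
  have hh : hF (toImp φ) = ∑ M ∈ range (impChg Q + 1), ∑ c, toImp φ M c * ham (toImp φ M) c :=
    Finset.sum_congr rfl fun M _ => energy_eq_inner'_ham (by omega) _
  rw [hh, impNormSq, ← Finset.sum_add_distrib, ← Finset.sum_add_distrib, div_mul_eq_mul_div,
    ← mul_div_assoc]
  congr 2
  refine Finset.sum_congr rfl fun M hM => ?_
  rw [← Finset.sum_add_distrib, ← Finset.sum_add_distrib]
  refine Finset.sum_congr rfl fun c _ => ?_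
  rw [toImp_ham (by omega) hφ (Nat.lt_succ_iff.1 (Finset.mem_range.1 hM))]
  ring

/-- The impurity bound gives the gap above the kernel. -/
theorem energy_gap_of_impBound {γ : ℝ} (hγ : 0 < γ) (hN : 2 ≤ N) (hQ : 2 ≤ Q)
    (hB : ImpBound γ Q) {L : Config N Q → ℝ} (hL : IsAntisym L) (hL0 : energy L = 0)
    (hker : ∀ ψ : Config N Q → ℝ, IsAntisym ψ → energy ψ = 0 → ∃ c : ℝ, ψ = c • L)
    {ψ : Config N Q → ℝ} (hψ : IsAntisym ψ) :
    γ * (inner' ψ ψ - inner' L ψ ^ 2 / inner' L L) ≤ energy ψ := by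
  obtain ⟨K, rfl⟩ : ∃ K, N = K + 2 := ⟨N - 2, by omega⟩
  have hQ1 : 1 ≤ Q := by omega
  have hbound : ∀ χ : Config (K + 2) Q → ℝ, IsAntisym χ →
      γ * energy χ ≤ inner' (ham χ) (ham χ) := by
    intro χ hχ
    rw [energy_eq_imp hQ hχ, ham_normSq_eq hQ hχ, mul_left_comm]
    exact mul_le_mul_of_nonneg_left (hB K χ hχ)
      (div_nonneg (Nat.cast_nonneg _) (kappa_one_pos hQ1).le)
  have hHL : ham L = 0 := by
    have h := inner'_ham_sq_le hQ1 L (ham L)
    rw [hL0, zero_mul] at h
    have h0 : inner' (ham L) (ham L) = 0 := by nlinarith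
    funext c
    have := (Finset.sum_eq_zero_iff_of_nonneg fun d _ => mul_self_nonneg (ham L d)).1 h0 c
      (Finset.mem_univ c)
    simpa using this
  have hLham : ∀ χ, inner' L (ham χ) = 0 := fun χ => by
    rw [inner'_ham_comm, hHL]; simp [inner']
  have hLL : inner' L L = 0 → L = 0 := by
    intro h0
    funext c
    simpa using (Finset.sum_eq_zero_iff_of_nonneg fun d _ => mul_self_nonneg (L d)).1 h0 c
      (Finset.mem_univ c)
  let S : antisymSub (K + 2) Q →ₗ[ℝ] antisymSub (K + 2) Q :=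
    { toFun := fun χ => ⟨ham χ.1 + inner' L χ.1 • L,
        (antisymSub _ _).add_mem (ham_antisym hQ1 χ.2) ((antisymSub _ _).smul_mem _ hL)⟩
      map_add' := by
        intro a b
        apply Subtype.ext
        have h := ham_add_smul a.1 b.1 1
        have h' := inner'_add_smul_left a.1 b.1 L 1
        simp only [one_smul, one_mul] at h h'
        simp only [Submodule.coe_add, h, inner'_comm' L, h']
        module
      map_smul' := by
        intro t a
        apply Subtype.ext
        have h := ham_add_smul 0 a.1 t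
        have h' := inner'_add_smul_left 0 a.1 L t
        have z : ham (0 : Config (K + 2) Q → ℝ) = 0 := by
          funext c; simp [ham, pairProj, pairCoef]
        have z' : inner' (0 : Config (K + 2) Q → ℝ) L = 0 := by simp [inner']
        simp only [zero_add, z, z'] at h h'
        simp only [Submodule.coe_smul, h, inner'_comm' L, h', RingHom.id_apply]
        module }
  have hinj : Function.Injective S := by
    rw [injective_iff_map_eq_zero]
    intro χ h
    have h1 : ham χ.1 + inner' L χ.1 • L = 0 := congrArg Subtype.val h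
    have h2 : inner' L χ.1 * inner' L L = 0 := by
      have h3 : inner' (ham χ.1 + inner' L χ.1 • L) L = 0 := by rw [h1]; simp [inner']
      rw [inner'_add_smul_left, inner'_comm' (ham _), hLham, zero_add] at h3
      exact h3
    have h4 : inner' L χ.1 • L = 0 := by
      rcases mul_eq_zero.1 h2 with h5 | h5
      · simp [h5]
      · simp [hLL h5]
    rw [h4, add_zero] at h1
    have h6 : energy χ.1 = 0 := by rw [energy_eq_inner'_ham hQ1, h1]; simp [inner']
    obtain ⟨c, hc⟩ := hker χ.1 χ.2 h6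
    apply Subtype.ext
    have h7 : inner' L χ.1 = c * inner' L L := by
      simp only [hc, inner', Pi.smul_apply, smul_eq_mul, Finset.mul_sum]
      exact Finset.sum_congr rfl fun d _ => by ring
    rw [h7, mul_smul] at h4
    rcases eq_or_ne (inner' L L) 0 with h5 | h5
    · simp [hc, hLL h5]
    · rw [smul_smul, mul_comm c, ← smul_smul, smul_eq_zero] at h4
      simpa [hc] using h4.resolve_left h5
  set c : ℝ := inner' L ψ / inner' L L with hc
  set ψ1 : Config (K + 2) Q → ℝ := ψ + (-c) • L with hψ1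
  have hm : ψ1 ∈ antisymSub (K + 2) Q :=
    (antisymSub _ _).add_mem hψ ((antisymSub _ _).smul_mem _ hL)
  obtain ⟨χ, hχ⟩ := (LinearMap.injective_iff_surjective.1 hinj) ⟨ψ1, hm⟩
  have hχ1 : ham χ.1 + inner' L χ.1 • L = ψ1 := congrArg Subtype.val hχ
  have horth : inner' L ψ1 = 0 := by
    rw [inner'_comm', hψ1, inner'_add_smul_left, inner'_comm' ψ, hc]
    rcases eq_or_ne (inner' L L) 0 with h5 | h5
    · simp [hLL h5, inner']
    · field_simp
      ring
  have hH : ham χ.1 = ψ1 := by
    have h3 : inner' (ham χ.1 + inner' L χ.1 • L) L = 0 := by rw [hχ1, inner'_comm', horth]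
    rw [inner'_add_smul_left, inner'_comm' (ham _), hLham, zero_add] at h3
    rcases mul_eq_zero.1 h3 with h5 | h5
    · simpa [h5] using hχ1
    · simpa [hLL h5] using hχ1
  have he : energy ψ1 = energy ψ := by
    rw [hψ1, energy_add_smul hQ1, hL0, hLham]
    ring
  have hn : inner' ψ1 ψ1 = inner' ψ ψ - inner' L ψ ^ 2 / inner' L L := by
    conv_lhs => arg 1; rw [hψ1]
    rw [inner'_add_smul_left, horth, mul_zero, add_zero, inner'_comm', hψ1, inner'_add_smul_left, hc]
    ring
  rw [← hn, ← he]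
  have h1 := inner'_ham_sq_le hQ1 χ.1 ψ1
  rw [hH] at h1
  have h2 := hbound χ.1 χ.2
  rw [hH] at h2
  have h3 : 0 ≤ energy ψ1 := energy_nonneg' _
  rcases eq_or_lt_of_le (show 0 ≤ inner' ψ1 ψ1 from Finset.sum_nonneg fun d _ => mul_self_nonneg _)
    with h4 | h4
  · rw [← h4, mul_zero]; exact h3
  · nlinarith

end Vale.Agent.P359.Gap
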