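import Vale.Agent.P359.Gap.Ladder

/-!
# P359, gap: the expansion of the squares

For each square, `0 ≤ ‖z ψ + ∑ a, A_a ψ‖²` bounds the one-body part `diag` below by the cross
terms `cross3`. No symmetry of `ψ` is needed.
-/

open Finset
open scoped Classical

namespace Vale.Agent.P359.Gap

variable {K Q : ℕ}

/-- The channels of a square fit into the charges. -/
def Sq.Fits (s : Sq) (Q : ℕ) : Prop := ∀ r ∈ s.S, (r : ℤ) + 2 * |s.n| + 2 ≤ Q

/-- The map `A_a` of a square. -/
noncomputable def Sq.op (s : Sq) (a : Fin K) (ψ : ImpState K Q) (y : ℕ) (c : Config K Q) : ℝ :=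
  ∑ r ∈ s.S, s.coef Q r * ∑ Z ∈ range (chg Q r + 1),
    Jc (s.outCh r) (s.outChg Q) Q y (c a) Z * chanAmp r a ψ Z c

lemma chanAmp_update (r : ℕ) (a : Fin K) (ψ : ImpState K Q) (Z : ℕ) (c : Config K Q)
    (x : Fin (Q + 1)) : chanAmp r a ψ Z (Function.update c a x) = chanAmp r a ψ Z c := by
  simp [chanAmp, Function.update_idem]

lemma sum_config_one (a : Fin K) (f : Config K Q → ℝ) :
    ∑ c, f c = ∑ d ∈ univ.filter (fun c : Config K Q => c a = 0), ∑ x : Fin (Q + 1),
      f (Function.update d a x) := by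
  rw [← Finset.sum_product']
  refine Finset.sum_nbij' (fun c => (Function.update c a 0, c a))
    (fun p => Function.update p.1 a p.2) ?_ ?_ ?_ ?_ ?_
  · intro c _; simp
  · intro p _; simp
  · intro c _; simp
  · intro p hp
    simp at hp
    ext1
    · simp [← hp]
    · simp
  · intro c _; simp

lemma sum_config_two (a b : Fin K) (hab : a ≠ b) (f : Config K Q → ℝ) :
    ∑ c, f c = ∑ d ∈ restConfigs a b, ∑ x : Fin (Q + 1), ∑ x' : Fin (Q + 1),
      f (Function.update (Function.update d a x) b x') := by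
  rw [← Finset.sum_product', ← Finset.sum_product']
  refine Finset.sum_nbij' (fun c => ((Function.update (Function.update c a 0) b 0, c a), c b))
    (fun p => Function.update (Function.update p.1.1 a p.1.2) b p.2) ?_ ?_ ?_ ?_ ?_
  · intro c _
    simp [restConfigs, hab]
  · intro p _; simp
  · intro c _
    funext i
    by_cases hb : i = b
    · subst hb; simp
    · by_cases ha : i = a
      · subst ha; simp [hb]
      · simp [ha, hb]
  · intro p hp
    simp [restConfigs] at hp
    refine Prod.ext (Prod.ext (funext fun i => ?_) ?_) ?_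
    · by_cases hb : i = b
      · subst hb; simp [hp.2]
      · by_cases ha : i = a
        · subst ha; simp [hb, hp.1]
        · simp [ha, hb]
    · simp [hab]
    · simp
  · intro c _
    congr 1
    funext i
    by_cases hb : i = b
    · subst hb; simp
    · by_cases ha : i = a
      · subst ha; simp [hb]
      · simp [ha, hb]

lemma orth_sum (R : Finset ℕ) (r' : ℕ → ℕ) (C : ℕ) (m : ℕ → ℕ) (v : ℕ → ℕ → ℝ)
    (hr : ∀ r ∈ R, r' r ≤ C ∧ r' r ≤ Q) (hm : ∀ r ∈ R, m r = C + Q - 2 * r' r)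
    (hinj : Set.InjOn r' R) :
    ∑ y ∈ range (C + 1), ∑ x ∈ range (Q + 1),
        (∑ r ∈ R, ∑ Z ∈ range (m r + 1), v r Z * Jc (r' r) C Q y x Z) ^ 2 =
      ∑ r ∈ R, kappa (r' r) C Q * ∑ Z ∈ range (m r + 1), v r Z ^ 2 := by
  simp only [sq, Finset.sum_mul, Finset.mul_sum]
  calc _ = ∑ r ∈ R, ∑ Z ∈ range (m r + 1), ∑ t ∈ R, ∑ Z' ∈ range (m t + 1), v r Z * v t Z' *
        ∑ y ∈ range (C + 1), ∑ x ∈ range (Q + 1),
          Jc (r' r) C Q y x Z * Jc (r' t) C Q y x Z' := by
        simp only [Finset.mul_sum]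
        rw [Finset.sum_congr rfl fun y _ => Finset.sum_comm, Finset.sum_comm]
        refine Finset.sum_congr rfl fun r _ => ?_
        rw [Finset.sum_congr rfl fun y _ => Finset.sum_comm, Finset.sum_comm]
        refine Finset.sum_congr rfl fun Z _ => ?_
        rw [Finset.sum_congr rfl fun y _ => Finset.sum_comm, Finset.sum_comm]
        refine Finset.sum_congr rfl fun t _ => ?_
        rw [Finset.sum_congr rfl fun y _ => Finset.sum_comm, Finset.sum_comm]
        refine Finset.sum_congr rfl fun Z' _ => ?_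
        exact Finset.sum_congr rfl fun y _ => Finset.sum_congr rfl fun x _ => by ring
    _ = _ := by
        refine Finset.sum_congr rfl fun r hr' => Finset.sum_congr rfl fun Z hZ => ?_
        have hZ' : Z ≤ m r := Nat.lt_succ_iff.1 (mem_range.1 hZ)
        rw [Finset.sum_eq_single_of_mem r hr', Finset.sum_eq_single_of_mem Z hZ]
        · rw [jc_orth (hr r hr').1 (hr r hr').2 (hm r hr' ▸ hZ') (hm r hr' ▸ hZ'), if_pos rfl]
          ring
        · intro Z' hZ'' hne
          have hZ3 : Z' ≤ m r := Nat.lt_succ_iff.1 (mem_range.1 hZ'')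
          rw [jc_orth (hr r hr').1 (hr r hr').2 (hm r hr' ▸ hZ') (hm r hr' ▸ hZ3),
            if_neg hne.symm, mul_zero]
        · intro t ht hne
          refine Finset.sum_eq_zero fun Z' hZ'' => ?_
          rw [jc_cross (hr r hr').1 (hr r hr').2 (hr t ht).1 (hr t ht).2
            (fun e => hne (hinj ht hr' e.symm)) Z Z', mul_zero]

lemma Sq.Fits.bounds {s : Sq} (hf : s.Fits Q) (hv : s.Valid) {r : ℕ} (hr : r ∈ s.S) :
    r ≤ impChg Q ∧ r ≤ Q ∧ s.outCh r ≤ s.outChg Q ∧ s.outCh r ≤ Q ∧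
      chg Q r = s.outChg Q + Q - 2 * s.outCh r ∧ r ∈ range (Q + 1) := by
  have h1 := hf r hr
  have h2 := hv.2 r hr
  simp only [impChg, chg, Sq.outCh, Sq.outChg, mem_range]
  have := abs_le.1 (le_refl |s.n|)
  omega

lemma Sq.outCh_injOn {s : Sq} (hv : s.Valid) : Set.InjOn s.outCh (s.S : Set ℕ) := by
  intro r hr t ht h
  have := hv.2 r hr
  have := hv.2 t ht
  simp only [Sq.outCh] at h
  omega

lemma Sq.diag_sum (s : Sq) (hf : s.Fits Q) (hv : s.Valid) (a : Fin K) (ψ : ImpState K Q) :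
    ∑ r ∈ range (Q + 1), s.diag Q r * chanWeight r a ψ =
      ∑ r ∈ s.S, (2 * s.z * s.β r + s.β r ^ 2 * (Q : ℝ) ^ s.n *
        kappa (s.outCh r) (s.outChg Q) Q / kappa r (impChg Q) Q) * chanWeight r a ψ := by
  rw [← Finset.sum_subset (fun r hr => (hf.bounds hv hr).2.2.2.2.2)
    (fun r _ hr => by rw [Sq.diag, if_neg hr, zero_mul])]
  exact Finset.sum_congr rfl fun r hr => by rw [Sq.diag, if_pos hr]

/-- `‖A_a ψ‖²`. -/
lemma Sq.op_norm (s : Sq) (hf : s.Fits Q) (hv : s.Valid) (a : Fin K) (ψ : ImpState K Q) :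
    ∑ y ∈ range (s.outChg Q + 1), ∑ c, s.op a ψ y c ^ 2 =
      ∑ r ∈ s.S, s.β r ^ 2 * (Q : ℝ) ^ s.n * kappa (s.outCh r) (s.outChg Q) Q /
        kappa r (impChg Q) Q * chanWeight r a ψ := by
  rw [Finset.sum_congr rfl fun y _ => sum_config_one a fun c => s.op a ψ y c ^ 2, Finset.sum_comm]
  have h : ∀ d : Config K Q,
      ∑ y ∈ range (s.outChg Q + 1), ∑ x : Fin (Q + 1), s.op a ψ y (Function.update d a x) ^ 2 =
        ∑ r ∈ s.S, kappa (s.outCh r) (s.outChg Q) Q *
          ∑ Z ∈ range (chg Q r + 1), (s.coef Q r * chanAmp r a ψ Z d) ^ 2 := by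
    intro d
    rw [← orth_sum s.S s.outCh (s.outChg Q) (chg Q) (fun r Z => s.coef Q r * chanAmp r a ψ Z d)
      (fun r hr => ⟨(hf.bounds hv hr).2.2.1, (hf.bounds hv hr).2.2.2.1⟩)
      (fun r hr => (hf.bounds hv hr).2.2.2.2.1) (Sq.outCh_injOn hv)]
    refine Finset.sum_congr rfl fun y _ => ?_
    rw [← Fin.sum_univ_eq_sum_range (fun x => (∑ r ∈ s.S, ∑ Z ∈ range (chg Q r + 1),
      s.coef Q r * chanAmp r a ψ Z d * Jc (s.outCh r) (s.outChg Q) Q y x Z) ^ 2)]
    refine Finset.sum_congr rfl fun x _ => ?_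
    simp only [Sq.op, Function.update_self, chanAmp_update, Finset.mul_sum]
    congr 1
    exact Finset.sum_congr rfl fun r _ => Finset.sum_congr rfl fun Z _ => by ring
  simp only [h]
  rw [Finset.sum_comm]
  refine Finset.sum_congr rfl fun r _ => ?_
  rw [← Finset.mul_sum, chanWeight, Finset.sum_comm (s := range (chg Q r + 1))]
  simp only [mul_pow, ← Finset.mul_sum, Sq.coef]
  rw [div_pow, mul_pow, Real.sq_sqrt (zpow_nonneg (Nat.cast_nonneg Q) _)]
  ring

/-- `⟪ψ, A_a ψ⟫` for `n = 0`. -/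
lemma Sq.op_inner (s : Sq) (hn : s.n = 0) (a : Fin K) (ψ : ImpState K Q) :
    ∑ y ∈ range (impChg Q + 1), ∑ c, ψ y c * s.op a ψ y c =
      ∑ r ∈ s.S, s.β r * chanWeight r a ψ := by
  have hch : ∀ r, s.outCh r = r := fun r => by simp [Sq.outCh, hn]
  have hC : s.outChg Q = impChg Q := by simp only [Sq.outChg, impChg, hn]; omega
  rw [Finset.sum_congr rfl fun y _ => sum_config_one a fun c => ψ y c * s.op a ψ y c,
    Finset.sum_comm]
  have h : ∀ d : Config K Q, ∑ y ∈ range (impChg Q + 1), ∑ x : Fin (Q + 1),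
      ψ y (Function.update d a x) * s.op a ψ y (Function.update d a x) =
        ∑ r ∈ s.S, s.coef Q r * ∑ Z ∈ range (chg Q r + 1), chanAmp r a ψ Z d ^ 2 := by
    intro d
    simp only [Sq.op, Function.update_self, chanAmp_update, hch, hC, Finset.mul_sum]
    rw [Finset.sum_congr rfl fun y _ => Finset.sum_comm, Finset.sum_comm]
    refine Finset.sum_congr rfl fun r _ => ?_
    rw [Finset.sum_congr rfl fun y _ => Finset.sum_comm, Finset.sum_comm]
    refine Finset.sum_congr rfl fun Z _ => ?_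
    conv_rhs => rw [sq, ← mul_assoc]; arg 2; rw [chanAmp]
    simp only [Finset.mul_sum]
    exact Finset.sum_congr rfl fun y _ => Finset.sum_congr rfl fun x _ => by ring
  simp only [h]
  rw [Finset.sum_comm]
  refine Finset.sum_congr rfl fun r _ => ?_
  rw [← Finset.mul_sum, chanWeight, Finset.sum_comm (s := range (chg Q r + 1))]
  simp only [Sq.coef, hn, zpow_zero, Real.sqrt_one]
  ring

/-- `⟪A_a ψ, A_b ψ⟫`. -/
lemma Sq.op_cross (s : Sq) {a b : Fin K} (hab : a ≠ b) (ψ : ImpState K Q) :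
    ∑ y ∈ range (s.outChg Q + 1), ∑ c, s.op a ψ y c * s.op b ψ y c =
      ∑ d ∈ restConfigs a b, s.cross3 (slice ψ a b d) := by
  rw [Finset.sum_congr rfl fun y _ => sum_config_two a b hab fun c => s.op a ψ y c * s.op b ψ y c,
    Finset.sum_comm]
  refine Finset.sum_congr rfl fun d _ => ?_
  refine Finset.sum_congr rfl fun y _ => Finset.sum_congr rfl fun x _ =>
    Finset.sum_congr rfl fun x' _ => ?_
  congr 1
  · simp only [Sq.op, Sq.apply3, chanAmp, slice, Function.update_self,
      Function.update_of_ne hab, Function.update_comm hab.symm, Function.update_idem]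
  · simp only [Sq.op, Sq.apply3, chanAmp, slice, Function.update_self, Function.update_idem]

/-- One square. -/
lemma Sq.nonneg_expansion (s : Sq) (hf : s.Fits Q) (hv : s.Valid) (ψ : ImpState K Q) :
    0 ≤ s.z ^ 2 * impNormSq ψ + oneBody (s.diag Q) ψ +
      2 * ∑ x ∈ (univ : Finset (Fin K × Fin K)).filter (fun x => x.1 < x.2),
        ∑ d ∈ restConfigs x.1 x.2, s.cross3 (slice ψ x.1 x.2 d) := by
  set C := s.outChg Q
  have hpos : 0 ≤ ∑ y ∈ range (C + 1), ∑ c,
      (s.z * ψ y c + ∑ a, s.op a ψ y c) ^ 2 :=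
    Finset.sum_nonneg fun y _ => Finset.sum_nonneg fun c _ => sq_nonneg _
  have hz2 : s.z ^ 2 * (∑ y ∈ range (C + 1), ∑ c, ψ y c ^ 2) = s.z ^ 2 * impNormSq ψ ∧
      ∀ a, 2 * s.z * (∑ y ∈ range (C + 1), ∑ c, ψ y c * s.op a ψ y c) =
        2 * s.z * ∑ r ∈ s.S, s.β r * chanWeight r a ψ := by
    rcases eq_or_ne s.n 0 with hn | hn
    · have hC : C = impChg Q := by simp only [C, Sq.outChg, impChg, hn]; omega
      exact ⟨by rw [hC, impNormSq], fun a => by rw [hC, s.op_inner hn a ψ]⟩
    · simp [hv.1 hn]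
  refine hpos.trans_eq ?_
  have hexp : ∀ y c, (s.z * ψ y c + ∑ a, s.op a ψ y c) ^ 2 =
      s.z ^ 2 * ψ y c ^ 2 + ∑ a, 2 * s.z * (ψ y c * s.op a ψ y c) + ∑ a, s.op a ψ y c ^ 2 +
        2 * ∑ x ∈ (univ : Finset (Fin K × Fin K)).filter (fun x => x.1 < x.2),
          s.op x.1 ψ y c * s.op x.2 ψ y c := by
    intro y c
    set g := fun a => s.op a ψ y c
    have hsq : (∑ a, g a) ^ 2 = ∑ a, g a ^ 2 +
        2 * ∑ x ∈ (univ : Finset (Fin K × Fin K)).filter (fun x => x.1 < x.2), g x.1 * g x.2 := by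
      rw [sq, Finset.sum_mul_sum, ← Finset.sum_product', Finset.univ_product_univ,
        ← Finset.sum_filter_add_sum_filter_not univ (fun x : Fin K × Fin K => x.1 < x.2),
        ← Finset.sum_filter_add_sum_filter_not
          (univ.filter fun x : Fin K × Fin K => ¬ x.1 < x.2) (fun x => x.1 = x.2)]
      have h1 : ∑ x ∈ (univ.filter fun x : Fin K × Fin K => ¬ x.1 < x.2).filter
          (fun x => x.1 = x.2), g x.1 * g x.2 = ∑ a, g a ^ 2 := by
        refine Finset.sum_nbij' (fun x => x.1) (fun a => (a, a)) ?_ ?_ ?_ ?_ ?_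
        · intro x _; simp
        · intro a _; simp
        · intro x hx; simp at hx; exact Prod.ext rfl hx.2
        · intro a _; rfl
        · intro x hx; simp at hx; simp only [hx.2, sq]
      have h2 : ∑ x ∈ (univ.filter fun x : Fin K × Fin K => ¬ x.1 < x.2).filter
          (fun x => ¬ x.1 = x.2), g x.1 * g x.2 =
            ∑ x ∈ univ.filter (fun x : Fin K × Fin K => x.1 < x.2), g x.1 * g x.2 := by
        refine Finset.sum_nbij' Prod.swap Prod.swap ?_ ?_ ?_ ?_ ?_
        · intro x hx; simp at hx ⊢; omega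
        · intro x hx; simp at hx ⊢; omega
        · intro x _; rfl
        · intro x _; rfl
        · intro x _; simp [mul_comm]
      rw [h1, h2]; ring
    rw [add_sq, hsq, Finset.mul_sum]
    rw [Finset.sum_congr rfl fun a _ => show 2 * (s.z * ψ y c) * g a
      = 2 * s.z * (ψ y c * s.op a ψ y c) by simp only [g]; ring]
    ring
  simp only [hexp, Finset.sum_add_distrib, ← Finset.mul_sum]
  rw [hz2.1]
  congr 1
  · rw [add_assoc]
    congr 1
    rw [oneBody, Finset.sum_congr rfl fun a _ => s.diag_sum hf hv a ψ, Finset.mul_sum]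
    have hA : ∑ i ∈ range (C + 1), 2 * s.z * ∑ c, ψ i c * ∑ a, s.op a ψ i c =
        ∑ a, 2 * s.z * ∑ r ∈ s.S, s.β r * chanWeight r a ψ := by
      rw [← Finset.sum_congr rfl fun a _ => hz2.2 a]
      simp only [Finset.mul_sum]
      rw [Finset.sum_congr rfl fun y _ => Finset.sum_comm, Finset.sum_comm]
    have hB : ∑ y ∈ range (C + 1), ∑ c, ∑ a, s.op a ψ y c ^ 2 =
        ∑ a, ∑ r ∈ s.S, s.β r ^ 2 * (Q : ℝ) ^ s.n * kappa (s.outCh r) (s.outChg Q) Q /
          kappa r (impChg Q) Q * chanWeight r a ψ := by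
      rw [Finset.sum_congr rfl fun y _ => Finset.sum_comm, Finset.sum_comm]
      exact Finset.sum_congr rfl fun a _ => s.op_norm hf hv a ψ
    rw [hA, hB, ← Finset.sum_add_distrib]
    refine Finset.sum_congr rfl fun a _ => ?_
    rw [Finset.mul_sum, ← Finset.sum_add_distrib]
    exact Finset.sum_congr rfl fun r _ => by ring
  · congr 1
    rw [Finset.sum_congr rfl fun y _ => Finset.sum_comm, Finset.sum_comm]
    exact Finset.sum_congr rfl fun x hx => s.op_cross (ne_of_lt (Finset.mem_filter.1 hx).2) ψ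

/-- The expansion of all the squares (M3). -/
theorem squares_bound (sq : List Sq) (hv : ∀ s ∈ sq, s.Valid) (hf : ∀ s ∈ sq, s.Fits Q)
    (w : ℕ → ℝ) (ψ : ImpState K Q) :
    (1 - (sq.map fun s => s.z ^ 2).sum) * impNormSq ψ +
        oneBody (fun r => w r - (sq.map fun s => s.diag Q r).sum) ψ +
        ∑ x ∈ (univ : Finset (Fin K × Fin K)).filter (fun x => x.1 < x.2),
          ∑ d ∈ restConfigs x.1 x.2, q3 sq (slice ψ x.1 x.2 d) ≤
      impNormSq ψ + oneBody w ψ + hF ψ := by
  have hF' : hF ψ = ∑ x ∈ (univ : Finset (Fin K × Fin K)).filter (fun x => x.1 < x.2),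
      ∑ d ∈ restConfigs x.1 x.2, ∑ M ∈ range (impChg Q + 1), ∑ S ∈ Icc 1 (2 * Q - 1),
        (∑ a, ∑ b, pairVec Q S a b * slice ψ x.1 x.2 d M a b) ^ 2 / pairNormSq Q S := by
    unfold hF energy pairAmp slice
    rw [Finset.sum_comm]
    exact Finset.sum_congr rfl fun x _ => Finset.sum_comm
  simp only [q3, Finset.sum_sub_distrib]
  rw [hF']
  clear hF'
  induction sq with
  | nil => simp
  | cons s t ih =>
    have h1 := s.nonneg_expansion (hf s (by simp)) (hv s (by simp)) ψ
    have h2 := ih (fun u hu => hv u (List.mem_cons_of_mem _ hu))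
      (fun u hu => hf u (List.mem_cons_of_mem _ hu))
    have h3 : oneBody (fun r => w r - ((s :: t).map fun u => u.diag Q r).sum) ψ =
        oneBody (fun r => w r - (t.map fun u => u.diag Q r).sum) ψ - oneBody (s.diag Q) ψ := by
      simp only [oneBody, List.map_cons, List.sum_cons, ← Finset.sum_sub_distrib]
      exact Finset.sum_congr rfl fun a _ => Finset.sum_congr rfl fun r _ => by ring
    rw [h3]
    simp only [List.map_cons, List.sum_cons, mul_add, Finset.sum_add_distrib, ← Finset.mul_sum]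
    simp only [← Finset.mul_sum] at h2
    linarith [h2, h1]

end Vale.Agent.P359.Gap
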