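import Vale.Agent.P359.Gap.Average
import Vale.Agent.P359.Gap.Channels013
import Vale.Agent.P359.Gap.Complex
import Vale.Agent.P359.Gap.Kernel
import Vale.Agent.P359.Gap.Lift
import Vale.Agent.P359.Gap.Reduction
import Vale.Agent.P359.Gap.Squares

/-!
# P359, gap: assembly

Squares, lift and averaged bounds give the impurity bound; the impurity bound for all large `Q`
gives the uniform gap of the Laughlin Hamiltonian.
-/

open Finset
open scoped Classical

namespace Vale.Agent.P359.Gap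

variable {K Q : ℕ}

/-- A slice of an antisymmetric tensor behind two factors is antisymmetric. -/
lemma isAntisym_toImp {φ : Config (K + 2) Q → ℝ} (hφ : IsAntisym φ) (M : ℕ) :
    IsAntisym (toImp φ M) := by
  intro c σ
  let j : Fin K → Fin (K + 2) := fun i => i.succ.succ
  have hj : Function.Injective j := fun x y h =>
    Fin.succ_injective _ (Fin.succ_injective _ h)
  let E : Fin K ≃ {x : Fin (K + 2) // x ∈ Set.range j} := Equiv.ofInjective j hj
  have hs := Equiv.Perm.sign_extendDomain σ E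
  simp only [toImp, Finset.mul_sum]
  refine Finset.sum_congr rfl fun a _ => Finset.sum_congr rfl fun b _ => ?_
  have h : (Fin.cons a (Fin.cons b (c ∘ σ)) : Config (K + 2) Q) =
      Fin.cons a (Fin.cons b c) ∘ σ.extendDomain E := by
    funext x
    by_cases hx : x ∈ Set.range j
    · obtain ⟨i, rfl⟩ := hx
      have h1 : σ.extendDomain E (j i) = j (σ i) := σ.extendDomain_apply_image E i
      rw [Function.comp_apply, h1]
      rfl
    · rw [Function.comp_apply, Equiv.Perm.extendDomain_apply_not_subtype σ E hx]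
      induction x using Fin.cases with
      | zero => rfl
      | succ x =>
        induction x using Fin.cases with
        | zero => rfl
        | succ x => exact absurd ⟨x, rfl⟩ hx
  rw [h, hφ, hs]
  ring

lemma chanWeight_nonneg (r : ℕ) (a : Fin K) (ψ : ImpState K Q) : 0 ≤ chanWeight r a ψ :=
  div_nonneg (Finset.sum_nonneg fun _ _ => Finset.sum_nonneg fun _ _ => sq_nonneg _)
    (div_nonneg (Nat.cast_nonneg _) (by positivity))

/-- The valid squares are admissible for all large `Q`. -/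
lemma squares_eventually (sq : List Sq) (hv : ∀ t ∈ sq, t.Valid) :
    ∃ Q₀ : ℕ, ∀ Q ≥ Q₀, ∀ t ∈ sq, t.Fits Q ∧ Lift.Adm Q t := by
  induction sq with
  | nil => exact ⟨0, fun Q _ t ht => by simp at ht⟩
  | cons t l ih =>
    obtain ⟨Q₁, hQ₁⟩ := ih fun u hu => hv u (List.mem_cons_of_mem _ hu)
    refine ⟨max Q₁ (2 * t.S.sup id + 2 * t.n.natAbs + 3), fun Q hQ u hu => ?_⟩
    rcases List.mem_cons.1 hu with rfl | hu'
    · have hQ' : 2 * u.S.sup id + 2 * u.n.natAbs + 3 ≤ Q := le_trans (le_max_right _ _) hQ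
      refine ⟨fun r hr => ?_, by omega, fun r hr => ⟨(hv u (List.mem_cons_self ..)).2 r hr, ?_, ?_⟩⟩ <;>
      · have : r ≤ u.S.sup id := Finset.le_sup (f := id) hr
        have := Int.abs_eq_natAbs u.n
        omega
    · exact hQ₁ Q (le_trans (le_max_left _ _) hQ) u hu'

/-- **Assembly.** The data of the certificate give the impurity bound. -/
theorem impBound_of_data (hQ : 3 ≤ Q) (sq : List Sq) (hv : ∀ t ∈ sq, t.Valid)
    (hfit : ∀ t ∈ sq, t.Fits Q) (hadm : ∀ t ∈ sq, Lift.Adm Q t) (e s : ℕ → ℝ)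
    (he : ∀ r, 0 ≤ e r) (hs : ∀ m, 0 ≤ s m)
    (hdiag : ∀ r ≤ Q, r ∉ ({0, 1, 3} : Finset ℕ) →
      (sq.map fun t => t.diag Q r).sum - wch Q r ≤ e r)
    (hb : ∀ m ≤ 2 * Q, FullBound sq Q m (s m) ∨ RangeBound sq Q m (s m))
    {γ : ℝ}
    (hγ : (sq.map fun t => t.z ^ 2).sum + ∑ r ∈ range (Q + 1), 8 / 5 * ((r : ℝ) + 1) * e r +
      ∑ m ∈ range (2 * Q + 1), 3 / 4 * ((m : ℝ) + 2) ^ 2 * s m ≤ 1 - γ) :
    ImpBound γ Q := by
  intro K φ hφ
  set ψ := toImp φ with hψdef
  have hψ : ∀ M, IsAntisym (ψ M) := isAntisym_toImp hφ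
  have hN : 0 ≤ impNormSq ψ := impNormSq_nonneg' ψ
  have hsq := squares_bound sq hv hfit (wch Q) ψ
  have hone : -(∑ r ∈ range (Q + 1), 8 / 5 * ((r : ℝ) + 1) * e r) * impNormSq ψ ≤
      oneBody (fun r => wch Q r - (sq.map fun t => t.diag Q r).sum) ψ := by
    have hrw : oneBody (fun r => wch Q r - (sq.map fun t => t.diag Q r).sum) ψ =
        ∑ r ∈ range (Q + 1),
          (wch Q r - (sq.map fun t => t.diag Q r).sum) * ∑ a, chanWeight r a ψ := by
      rw [oneBody, Finset.sum_comm]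
      exact Finset.sum_congr rfl fun r _ => (Finset.mul_sum _ _ _).symm
    rw [hrw, neg_mul, Finset.sum_mul, ← Finset.sum_neg_distrib]
    refine Finset.sum_le_sum fun r hr => ?_
    have hr' : r ≤ Q := Nat.lt_succ_iff.1 (mem_range.1 hr)
    by_cases h013 : r ∈ ({0, 1, 3} : Finset ℕ)
    · rw [Finset.sum_eq_zero fun a _ => C013.chanWeight_zero hQ hφ h013 a, mul_zero,
        neg_nonpos]
      have := he r
      positivity
    · have h1 := hdiag r hr' h013
      have h2 := mul_le_mul_of_nonneg_left (sum_chanWeight_le hψ hQ r) (he r)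
      have h3 : 0 ≤ ∑ a, chanWeight r a ψ :=
        Finset.sum_nonneg fun a _ => chanWeight_nonneg r a ψ
      nlinarith
  have htwo : -(∑ m ∈ range (2 * Q + 1), 3 / 4 * ((m : ℝ) + 2) ^ 2 * s m) * impNormSq ψ ≤
      ∑ x ∈ (univ : Finset (Fin K × Fin K)).filter (fun x => x.1 < x.2),
        ∑ d ∈ restConfigs x.1 x.2, q3 sq (slice ψ x.1 x.2 d) := by
    calc -(∑ m ∈ range (2 * Q + 1), 3 / 4 * ((m : ℝ) + 2) ^ 2 * s m) * impNormSq ψ
        ≤ -(∑ m ∈ range (2 * Q + 1), s m *
            ∑ x ∈ (univ : Finset (Fin K × Fin K)).filter (fun x => x.1 < x.2),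
              ∑ d ∈ restConfigs x.1 x.2, projDeg m (slice ψ x.1 x.2 d)) := by
          rw [neg_mul, neg_le_neg_iff, Finset.sum_mul]
          refine Finset.sum_le_sum fun m _ => ?_
          refine (mul_le_mul_of_nonneg_left (sum_projDeg_le hψ (by omega) m) (hs m)).trans ?_
          exact le_of_eq (by ring)
      _ = ∑ x ∈ (univ : Finset (Fin K × Fin K)).filter (fun x => x.1 < x.2),
            ∑ d ∈ restConfigs x.1 x.2,
              -(∑ m ∈ range (2 * Q + 1), s m * projDeg m (slice ψ x.1 x.2 d)) := by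
          simp only [Finset.mul_sum, ← Finset.sum_neg_distrib]
          rw [Finset.sum_comm]
          exact Finset.sum_congr rfl fun x _ => Finset.sum_comm
      _ ≤ _ := Finset.sum_le_sum fun x hx => Finset.sum_le_sum fun d _ =>
          Lift.lift (by omega) sq hadm s hs hb φ hφ x.1 x.2
            (ne_of_lt (Finset.mem_filter.1 hx).2) d
  have hbud := mul_le_mul_of_nonneg_right hγ hN
  linarith

lemma energy_smul {N : ℕ} (c : ℝ) (ψ : Config N Q → ℝ) : energy (c • ψ) = c ^ 2 * energy ψ := by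
  simp only [energy, Finset.mul_sum]
  refine Finset.sum_congr rfl fun x _ => Finset.sum_congr rfl fun d _ =>
    Finset.sum_congr rfl fun S _ => ?_
  have : pairAmp S x.1 x.2 d (c • ψ) = c * pairAmp S x.1 x.2 d ψ := by
    simp only [pairAmp, Pi.smul_apply, smul_eq_mul, Finset.mul_sum]
    exact Finset.sum_congr rfl fun a _ => Finset.sum_congr rfl fun b _ => by ring
  rw [this]
  ring

/-- The real gap inequality from the impurity bound. -/
theorem real_gap_of_impBound {γ : ℝ} (hγ : 0 < γ) {N : ℕ} (hN : 2 ≤ N)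
    (hB : ImpBound γ (3 * (N - 1))) {ψ : Config N (3 * (N - 1)) → ℝ} (hψ : IsAntisym ψ) :
    γ * (inner' ψ ψ - inner' (laughlin N) ψ ^ 2 / inner' (laughlin N) (laughlin N)) ≤
      energy ψ := by
  have hQ : 2 ≤ 3 * (N - 1) := by omega
  by_cases hex : ∃ χ : Config N (3 * (N - 1)) → ℝ, IsAntisym χ ∧ energy χ = 0 ∧ χ ≠ 0
  · obtain ⟨χ, hχ, hE, hne⟩ := hex
    obtain ⟨g, hg⟩ := kernel N χ hχ hE
    have hg0 : g ≠ 0 := by
      rintro rfl
      exact hne (hg.trans (by funext c; simp))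
    have hL : laughlin N = g⁻¹ • χ := by
      funext c
      rw [hg, Pi.smul_apply, smul_eq_mul, inv_mul_cancel_left₀ hg0]
    have hLa : IsAntisym (laughlin N) := fun c σ => by
      rw [hL, Pi.smul_apply, Pi.smul_apply, hχ c σ, smul_eq_mul, smul_eq_mul]
      ring
    have hLE : energy (laughlin N) = 0 := by rw [hL, energy_smul, hE, mul_zero]
    refine energy_gap_of_impBound hγ hN hQ hB hLa hLE (fun φ hφ hφE => ?_) hψ
    obtain ⟨g', hg'⟩ := kernel N φ hφ hφE
    exact ⟨g', hg'⟩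
  · have h0 := energy_gap_of_impBound hγ hN hQ hB
      (L := (0 : Config N (3 * (N - 1)) → ℝ)) (fun c σ => by simp)
      (by simpa using energy_smul (0 : ℝ) (0 : Config N (3 * (N - 1)) → ℝ))
      (fun φ hφ hφE => ⟨0, by
        rw [zero_smul]
        by_contra hne
        exact hex ⟨φ, hφ, hφE, hne⟩⟩) hψ
    refine le_trans ?_ h0
    have hz : inner' (0 : Config N (3 * (N - 1)) → ℝ) ψ = 0 := by simp [inner']
    have hLL : 0 ≤ inner' (laughlin N) ψ ^ 2 / inner' (laughlin N) (laughlin N) :=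
      div_nonneg (sq_nonneg _) (Finset.sum_nonneg fun c _ => mul_self_nonneg _)
    rw [hz]
    refine mul_le_mul_of_nonneg_left ?_ hγ.le
    simp only [ne_eq, OfNat.ofNat_ne_zero, not_false_eq_true, zero_pow, zero_div, sub_zero]
    linarith

/-- **The gap theorem from the impurity bound at all large fluxes.** -/
theorem gap_of_impBound (h : ∃ γ > 0, ∃ Q₀ : ℕ, ∀ Q ≥ Q₀, ImpBound γ Q) :
    ∃ δ > (0 : ℝ), ∃ N₀ : ℕ, ∀ N ≥ N₀,
      (∀ ψ : Config N (3 * (N - 1)) → ℝ, IsAntisym ψ →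
        δ * (inner' ψ ψ - inner' (laughlin N) ψ ^ 2 / inner' (laughlin N) (laughlin N)) ≤
          energy ψ) ∧
      ∀ ψ : Config N (3 * (N - 1)) → ℂ, IsAntisymC ψ →
        δ * ((∑ c, Complex.normSq (ψ c)) -
          Complex.normSq (∑ c, (laughlin N c : ℂ) * ψ c) / inner' (laughlin N) (laughlin N)) ≤
            energyC ψ := by
  obtain ⟨γ, hγ, Q₀, hQ₀⟩ := h
  refine ⟨γ, hγ, max 2 (Q₀ + 1), fun N hN => ?_⟩
  have hN2 : 2 ≤ N := le_trans (le_max_left _ _) hN
  have hNQ : Q₀ + 1 ≤ N := le_trans (le_max_right _ _) hN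
  have hr : ∀ ψ : Config N (3 * (N - 1)) → ℝ, IsAntisym ψ →
      γ * (inner' ψ ψ - inner' (laughlin N) ψ ^ 2 / inner' (laughlin N) (laughlin N)) ≤
        energy ψ :=
    fun ψ hψ => real_gap_of_impBound hγ hN2 (hQ₀ _ (by omega)) hψ
  exact ⟨hr, gap_complex hr⟩

end Vale.Agent.P359.Gap
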