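import Vale.Agent.P359.Gap.Average.Two
import Vale.Agent.P359.Gap.Ladder

/-!
# P359, gap, module M4: averaged one-body and two-body bounds

For a state antisymmetric in the particles, the total weight of one channel is at most
`8/5 (r+1)` times the squared norm, and the total weight of one relative degree of the slices
is at most `3/4 (m+2)^2` times it.
-/

open Finset Matrix
open scoped Kronecker Classical

namespace Vale.Agent.P359.Gap.Average

lemma sum_Em {c : ℕ} (i : Fin (c + 1)) (f : ℕ → ℂ) :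
    ∑ k : Fin (c + 1), Em c i k * f k = (lower c i : ℂ) * f (i + 1) := by
  by_cases h : (i : ℕ) + 1 < c + 1
  · rw [Finset.sum_eq_single ⟨i + 1, h⟩]
    · simp [Em]
    · intro k _ hk
      have e : ¬ (i : ℕ) + 1 = k := fun e => hk (Fin.ext e.symm)
      simp [Em, e]
    · simp
  · have hi : (i : ℕ) = c := by omega
    rw [Finset.sum_eq_zero fun k _ => by
      simp [Em, show ¬ (i : ℕ) + 1 = k by omega]]
    simp [lower, hi]

lemma sum_EmT {c : ℕ} (i : Fin (c + 1)) (f : ℕ → ℂ) :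
    ∑ k : Fin (c + 1), Em c k i * f k
      = if 0 < (i : ℕ) then (lower c ((i : ℕ) - 1) : ℂ) * f ((i : ℕ) - 1) else 0 := by
  split_ifs with h
  · rw [Finset.sum_eq_single ⟨(i : ℕ) - 1, by omega⟩]
    · simp [Em, show (i : ℕ) - 1 + 1 = i by omega]
    · intro k _ hk
      have e : ¬ (k : ℕ) + 1 = i := fun e => hk (Fin.ext (show (k : ℕ) = (i : ℕ) - 1 by omega))
      simp [Em, e]
    · simp
  · exact Finset.sum_eq_zero fun k _ => by simp [Em, show ¬ (k : ℕ) + 1 = i by omega]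

lemma Em_inter {r a b : ℕ} (ha : r ≤ a) (hb : r ≤ b) :
    (Em a ⊗ₖ 1 + 1 ⊗ₖ Em b) * Jm r a b = Jm r a b * Em (a + b - 2 * r) := by
  ext ⟨i, j⟩ k
  simp only [Matrix.mul_apply, Matrix.add_apply, kroneckerMap_apply, Fintype.sum_prod_type,
    add_mul, Finset.sum_add_distrib, Matrix.one_apply, Jm]
  simp only [mul_ite, mul_one, mul_zero, ite_mul, one_mul, zero_mul, Finset.sum_ite_eq,
    mem_univ, if_true]
  rw [show (∑ x : Fin (a + 1), ∑ x_1 : Fin (b + 1), if i = x then Em b j x_1 *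
      (Jc r a b x x_1 k : ℂ) else 0) = ∑ x_1, Em b j x_1 * (Jc r a b i x_1 k : ℂ) by
    rw [Finset.sum_comm]; simp]
  rw [sum_Em i (fun x => (Jc r a b x j k : ℂ)), sum_Em j (fun x => (Jc r a b i x k : ℂ)),
    Finset.sum_congr rfl fun x _ => mul_comm _ _, sum_EmT k (fun x => (Jc r a b i j x : ℂ))]
  rcases Nat.eq_zero_or_pos (k : ℕ) with h | h
  · rw [h, if_neg (lt_irrefl 0)]
    exact_mod_cast jc_lower_zero ha hb i j
  · obtain ⟨n, hn⟩ : ∃ n, (k : ℕ) = n + 1 := ⟨(k : ℕ) - 1, by omega⟩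
    rw [if_pos h, hn, Nat.add_sub_cancel]
    exact_mod_cast jc_lower ha hb i j n

lemma EmT_inter {r a b : ℕ} (ha : r ≤ a) (hb : r ≤ b) :
    ((Em a)ᵀ ⊗ₖ 1 + 1 ⊗ₖ (Em b)ᵀ) * Jm r a b = Jm r a b * (Em (a + b - 2 * r))ᵀ := by
  ext ⟨i, j⟩ k
  simp only [Matrix.mul_apply, Matrix.add_apply, kroneckerMap_apply, Fintype.sum_prod_type,
    add_mul, Finset.sum_add_distrib, Matrix.one_apply, Jm, transpose_apply]
  simp only [mul_ite, mul_one, mul_zero, ite_mul, one_mul, zero_mul, Finset.sum_ite_eq,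
    mem_univ, if_true]
  rw [show (∑ x : Fin (a + 1), ∑ x_1 : Fin (b + 1), if i = x then Em b x_1 j *
      (Jc r a b x x_1 k : ℂ) else 0) = ∑ x_1, Em b x_1 j * (Jc r a b i x_1 k : ℂ) by
    rw [Finset.sum_comm]; simp]
  rw [sum_EmT i (fun x => (Jc r a b x j k : ℂ)), sum_EmT j (fun x => (Jc r a b i x k : ℂ)),
    Finset.sum_congr rfl fun x _ => mul_comm _ _, sum_Em k (fun x => (Jc r a b i j x : ℂ))]
  have h := congrArg (fun x : ℝ => (x : ℂ)) (jc_raise ha hb i j k)
  simpa only [Complex.ofReal_add, Complex.ofReal_mul, apply_ite Complex.ofReal,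
    Complex.ofReal_zero] using h

theorem genInter : GenInter := by
  intro g r a b ha hb
  cases g
  · simp only [gen]
    rw [Matrix.mul_sub, ← Em_inter ha hb, ← EmT_inter ha hb, ← Matrix.sub_mul]
    congr 1
    ext ⟨i, j⟩ ⟨i', j'⟩
    simp only [Matrix.add_apply, Matrix.sub_apply, kroneckerMap_apply]
    ring
  · simp only [gen]
    rw [Matrix.mul_smul, Matrix.mul_add, ← Em_inter ha hb, ← EmT_inter ha hb, ← Matrix.add_mul,
      ← Matrix.smul_mul]
    congr 1
    ext ⟨i, j⟩ ⟨i', j'⟩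
    simp only [Matrix.add_apply, Matrix.smul_apply, kroneckerMap_apply, smul_eq_mul]
    ring

theorem jOrth : JOrth := by
  intro r r' a b k k' ha hb ha' hb' hk hk'
  rw [show (∑ i : Fin (a + 1), ∑ j : Fin (b + 1), Jc r a b i j k * Jc r' a b i j k')
      = ∑ i ∈ range (a + 1), ∑ j ∈ range (b + 1), Jc r a b i j k * Jc r' a b i j k' by
    simp only [Finset.sum_range]]
  by_cases h : r = r'
  · subst h
    rw [jc_orth ha hb hk hk']
    simp only [true_and]
  · rw [jc_cross ha hb ha' hb' h, if_neg (fun e => h e.1)]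

end Vale.Agent.P359.Gap.Average

namespace Vale.Agent.P359.Gap

variable {K Q : ℕ}

lemma impNormSq_nonneg' (ψ : ImpState K Q) : 0 ≤ impNormSq ψ := by unfold impNormSq; positivity

/-- **One channel, all particles.** -/
theorem sum_chanWeight_le {ψ : ImpState K Q} (hψ : ∀ M, IsAntisym (ψ M)) (hQ : 3 ≤ Q) (r : ℕ) :
    ∑ a, chanWeight r a ψ ≤ 8 / 5 * ((r : ℝ) + 1) * impNormSq ψ := by
  have hN := impNormSq_nonneg' ψ
  by_cases hr : r ≤ Q
  · have hW : r ≤ impChg Q := by simp only [impChg]; omega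
    refine (Average.chanWeight_sum_le' Average.genInter Average.jOrth hψ hW hr (by omega)).trans ?_
    refine mul_le_mul_of_nonneg_right ?_ hN
    rw [mul_div_assoc, mul_comm (8 / 5 : ℝ)]
    refine mul_le_mul_of_nonneg_left ?_ (by positivity)
    rw [div_le_iff₀ (by positivity)]
    have h1 : (chg Q r : ℝ) + 2 ≤ 3 * Q := by
      exact_mod_cast show chg Q r + 2 ≤ 3 * Q by simp only [chg]; omega
    have h2 : (impChg Q : ℝ) + 2 = 2 * Q := by
      exact_mod_cast show impChg Q + 2 = 2 * Q by simp only [impChg]; omega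
    have h3 : (3 : ℝ) ≤ Q := by exact_mod_cast hQ
    linarith
  · rw [Finset.sum_eq_zero fun a _ => by
      rw [chanWeight, Average.kappa_eq_zero (.inr (not_le.1 hr)), div_zero]]
    positivity

/-- **One relative degree, all pairs.** -/
theorem sum_projDeg_le {ψ : ImpState K Q} (hψ : ∀ M, IsAntisym (ψ M)) (hQ : 1 ≤ Q) (m : ℕ) :
    ∑ x ∈ (univ : Finset (Fin K × Fin K)).filter (fun x => x.1 < x.2),
        ∑ c ∈ restConfigs x.1 x.2, projDeg m (slice ψ x.1 x.2 c)
      ≤ 3 / 4 * ((m : ℝ) + 2) ^ 2 * impNormSq ψ := by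
  have hN := impNormSq_nonneg' ψ
  refine (Average.projDeg_sum_le' Average.genInter Average.jOrth hψ hQ m).trans ?_
  refine mul_le_mul_of_nonneg_right ?_ hN
  have h1 : (4 : ℝ) * (Average.monoP Q m).card ≤ ((m : ℝ) + 1) * ((m : ℝ) + 2) := by
    exact_mod_cast Average.card_monoP Q m
  have h2 : (impChg Q : ℝ) + 2 = 2 * Q := by
    exact_mod_cast show impChg Q + 2 = 2 * Q by simp only [impChg]; omega
  have h3 : (1 : ℝ) ≤ Q := by exact_mod_cast hQ
  have h4 : (4 * (Q : ℝ) - 1) / ((impChg Q : ℝ) + 1) ≤ 3 := by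
    rw [div_le_iff₀ (by positivity)]; linarith
  have h5 := mul_le_mul_of_nonneg_left h4 (Nat.cast_nonneg (α := ℝ) (Average.monoP Q m).card)
  have h6 : (0 : ℝ) ≤ (m : ℝ) + 2 := by positivity
  nlinarith

end Vale.Agent.P359.Gap
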