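import Mathlib

/-!
# P359, gap: a kernel-checkable certificate of positive semidefiniteness

`M` is a symmetric integer matrix given by its rows, `L` has one row for each row of `M` (short rows
are padded by zeros), `D` lists non-negative weights and `c > 0`.  The check is that
`R = c • M - L diag(D) Lᵀ` has dominant diagonal, so that
`c · xᵀ M x = ∑ₖ Dₖ (Lᵀ x)ₖ² + xᵀ R x ≥ 0`.  Use `decide +kernel` for `psdCheck M L D c = true`.
-/

open Finset

namespace Vale.Agent.P359.Gap.PSD

/-- Entry of a matrix given by rows, zero outside. -/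
def entry (M : List (List ℤ)) (i j : ℕ) : ℤ := (M.getD i []).getD j 0

/-- `∑ₖ dₖ aₖ bₖ`. -/
def dot3 : List ℤ → List ℤ → List ℤ → ℤ
  | d :: ds, a :: as, b :: bs => d * a * b + dot3 ds as bs
  | _, _, _ => 0

/-- `c • M - L diag(D) Lᵀ`. -/
def resid (M L : List (List ℤ)) (D : List ℤ) (c : ℤ) (i j : ℕ) : ℤ :=
  c * entry M i j - dot3 D (L.getD i []) (L.getD j [])

/-- Sum of a list of absolute values. -/
def absSum : List ℤ → ℕ
  | [] => 0
  | a :: as => a.natAbs + absSum as

/-- The certificate check. -/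
def psdCheck (M L : List (List ℤ)) (D : List ℤ) (c : ℤ) : Bool :=
  decide (0 < c) && D.all (fun d => decide (0 ≤ d)) &&
    (List.range M.length).all fun i =>
      (List.range M.length).all (fun j => decide (entry M i j = entry M j i)) &&
        decide ((absSum ((List.range M.length).map fun j => resid M L D c i j) : ℤ) ≤
          2 * resid M L D c i i)

lemma dot3_nil_right : ∀ (D a : List ℤ), dot3 D a [] = 0
  | [], _ => rfl
  | _ :: _, [] => rfl
  | _ :: _, _ :: _ => rfl

lemma dot3_eq : ∀ (D a b : List ℤ),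
    dot3 D a b = ∑ k ∈ range D.length, D.getD k 0 * a.getD k 0 * b.getD k 0
  | [], _, _ => by simp [dot3]
  | d :: ds, [], b => by simp [dot3]
  | d :: ds, a :: as, [] => by simp [dot3]
  | d :: ds, a :: as, b :: bs => by
    rw [dot3, dot3_eq ds as bs, List.length_cons, Finset.sum_range_succ']
    simp [add_comm]

lemma absSum_map (f : ℕ → ℤ) (n : ℕ) :
    (absSum ((List.range n).map f) : ℤ) = ∑ j ∈ range n, |f j| := by
  have h : ∀ l : List ℕ, (absSum (l.map f) : ℤ) = (l.map fun j => |f j|).sum := by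
    intro l
    induction l with
    | nil => simp [absSum]
    | cons a as ih => simp [absSum, ih]
  rw [h]
  rfl

/-- The quadratic form of the top left `n × n` block of a matrix given by rows. -/
noncomputable def form (M : List (List ℤ)) (n : ℕ) (x : ℕ → ℝ) : ℝ :=
  ∑ i ∈ range n, ∑ j ∈ range n, (entry M i j : ℝ) * x i * x j

/-- A symmetric form with dominant diagonal is non-negative. -/
lemma dominant_nonneg (R : ℕ → ℕ → ℝ) (n : ℕ) (hs : ∀ i < n, ∀ j < n, R i j = R j i)
    (hd : ∀ i < n, ∑ j ∈ range n, |R i j| ≤ 2 * R i i) (x : ℕ → ℝ) :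
    0 ≤ ∑ i ∈ range n, ∑ j ∈ range n, R i j * x i * x j := by
  have h1 : ∀ i ∈ range n, ∀ j ∈ range n,
      (if i = j then 2 * R i i * x i ^ 2 else 0) - (|R i j| * x i ^ 2 + |R i j| * x j ^ 2) / 2 ≤
        R i j * x i * x j := by
    intro i _ j _
    split_ifs with h
    · subst h
      nlinarith [mul_le_mul_of_nonneg_right (le_abs_self (R i i)) (sq_nonneg (x i))]
    · have ha : |R i j * x i * x j| = |R i j| * (|x i| * |x j|) := by
        rw [abs_mul, abs_mul, mul_assoc]
      nlinarith [neg_abs_le (R i j * x i * x j), abs_nonneg (R i j), sq_abs (x i), sq_abs (x j),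
        mul_nonneg (abs_nonneg (R i j)) (sq_nonneg (|x i| - |x j|))]
  refine le_trans ?_ (Finset.sum_le_sum fun i hi => Finset.sum_le_sum fun j hj => h1 i hi j hj)
  have h2 : ∑ i ∈ range n, ∑ j ∈ range n, |R i j| * x j ^ 2 =
      ∑ i ∈ range n, ∑ j ∈ range n, |R i j| * x i ^ 2 := by
    rw [Finset.sum_comm]
    refine Finset.sum_congr rfl fun i hi => Finset.sum_congr rfl fun j hj => ?_
    rw [hs j (Finset.mem_range.1 hj) i (Finset.mem_range.1 hi)]
  simp only [Finset.sum_sub_distrib, ← Finset.sum_div, Finset.sum_add_distrib, Finset.sum_ite_eq,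
    h2, sub_nonneg, add_self_div_two]
  refine Finset.sum_le_sum fun i hi => ?_
  rw [if_pos hi, ← Finset.sum_mul]
  exact mul_le_mul_of_nonneg_right (hd i (Finset.mem_range.1 hi)) (sq_nonneg _)

/-- Soundness of `psdCheck`. -/
theorem psdCheck_sound {M L : List (List ℤ)} {D : List ℤ} {c : ℤ}
    (h : psdCheck M L D c = true) (x : ℕ → ℝ) : 0 ≤ form M M.length x := by
  simp only [psdCheck, Bool.and_eq_true, decide_eq_true_eq, List.all_eq_true, List.mem_range,
    absSum_map] at h
  obtain ⟨⟨hc, hD⟩, hrow⟩ := h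
  set n := M.length
  have hcR : (0 : ℝ) < c := by exact_mod_cast hc
  refine nonneg_of_mul_nonneg_right ?_ hcR
  set R : ℕ → ℕ → ℝ := fun i j => (resid M L D c i j : ℝ) with hR
  have hsym : ∀ i < n, ∀ j < n, R i j = R j i := fun i hi j hj => by
    simp only [hR, resid, dot3_eq, (hrow i hi).1 j hj]
    push_cast
    simp only [mul_right_comm]
  have hdom : ∀ i < n, ∑ j ∈ range n, |R i j| ≤ 2 * R i i := fun i hi => by
    simp only [hR]
    exact_mod_cast (hrow i hi).2
  have hDk : ∀ k, (0 : ℝ) ≤ (D.getD k 0 : ℤ) := fun k => by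
    rcases lt_or_ge k D.length with hk | hk
    · rw [List.getD_eq_getElem _ _ hk]
      exact_mod_cast hD _ (List.getElem_mem hk)
    · rw [List.getD_eq_default _ _ hk]; simp
  have key : (c : ℝ) * form M n x =
      (∑ k ∈ range D.length, ((D.getD k 0 : ℤ) : ℝ) *
          (∑ i ∈ range n, (((L.getD i []).getD k 0 : ℤ) : ℝ) * x i) ^ 2) +
        ∑ i ∈ range n, ∑ j ∈ range n, R i j * x i * x j := by
    have hsq : ∑ k ∈ range D.length, ((D.getD k 0 : ℤ) : ℝ) *
          (∑ i ∈ range n, (((L.getD i []).getD k 0 : ℤ) : ℝ) * x i) ^ 2 =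
        ∑ i ∈ range n, ∑ j ∈ range n,
          ((dot3 D (L.getD i []) (L.getD j []) : ℤ) : ℝ) * x i * x j := by
      simp only [sq, Finset.mul_sum, Finset.sum_mul, dot3_eq, Int.cast_sum, Int.cast_mul]
      rw [Finset.sum_comm]
      refine Finset.sum_congr rfl fun i _ => ?_
      rw [Finset.sum_comm]
      exact Finset.sum_congr rfl fun j _ => Finset.sum_congr rfl fun k _ => by ring
    rw [hsq]
    simp only [form, Finset.mul_sum, ← Finset.sum_add_distrib, hR, resid, Int.cast_sub,
      Int.cast_mul]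
    exact Finset.sum_congr rfl fun i _ => Finset.sum_congr rfl fun j _ => by ring
  rw [key]
  exact add_nonneg (Finset.sum_nonneg fun k _ => mul_nonneg (hDk k) (sq_nonneg _))
    (dominant_nonneg R n hsym hdom x)

/-- Soundness, for vectors indexed by `Fin n`. -/
theorem psdCheck_fin {M L : List (List ℤ)} {D : List ℤ} {c : ℤ} {n : ℕ}
    (h : psdCheck M L D c = true) (hn : M.length = n) (x : Fin n → ℝ) :
    0 ≤ ∑ i : Fin n, ∑ j : Fin n, (entry M i j : ℝ) * x i * x j := by
  subst hn
  have := psdCheck_sound h (fun k => if hk : k < M.length then x ⟨k, hk⟩ else 0)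
  simpa [form, Finset.sum_range] using this


example : psdCheck [[3, 4, 0], [4, 9, 1], [0, 1, 2]] [[3], [4, 11], [0, 3, 15]] [1, 0, 0] 3
    = true := by decide +kernel

end Vale.Agent.P359.Gap.PSD
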