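import Mathlib

/-!
# P359, gap: the planar (Q = ∞) overlaps, exact rationals

With `m = r + q`: `gInner cY Q r q r q * Q^m → N r q`, `gExch cY Q r q r' q' * Q^m → G r q r' q'`
for `cY = 2Q-2+2n`, any fixed `n`, and the overlap of `gvec` with the pair-pair line is `p r q`.
-/

namespace Vale.Agent.P359.Gap.Planar

open Finset

/-- Squared norm. -/
def N (r q : ℕ) : ℚ :=
  (r.factorial : ℚ) * (3 / 2) ^ r * (q.factorial : ℚ) * (4 / 3) ^ q

/-- Exchange overlap. -/
def G (r q r' q' : ℕ) : ℚ :=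
  if r + q = r' + q' then
    (r'.factorial : ℚ) * (q'.factorial : ℚ) *
      ∑ i ∈ range (min r r' + 1),
        if r' ≤ q + i then
          (r.choose i : ℚ) * (q.choose (r' - i) : ℚ) * (1 / 2) ^ i *
            (4 / 3) ^ (r + r' - 2 * i) * (-4 / 9) ^ (q + i - r')
        else 0
  else 0

/-- Overlap with `(X-Y)^(r+q-1)`, impurity and pair in the impurity channel;
that vector has squared norm `2 * (r+q-1)!`. -/
def p (r q : ℕ) : ℚ :=
  ((r + q - 1).factorial : ℚ) * (2 / 3) ^ q * (2 * (q : ℚ) - r)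

/-- Exchange eigenvalue. -/
def w (r : ℕ) : ℚ := (3 * (r : ℚ) - 1) * (-1) ^ r / 2 ^ r

/-- `kappa (r+n) (2Q-2+2n) Q * Q^n / kappa r (2Q-2) Q →` this, for `r + n = r'`. -/
def ratio (r r' : ℕ) : ℚ :=
  (r'.factorial : ℚ) * (3 / 2) ^ r' / ((r.factorial : ℚ) * (3 / 2) ^ r)

end Vale.Agent.P359.Gap.Planar
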