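import Vale.Agent.P359.Defs

/-!
# P359, gap: core definitions

Everything is in orthonormal orbital coordinates, as in `Defs`. The index of an impurity or of a
composite is a natural number, cut off by the ranges of the sums.

* `Jc r a b i j k`: the equivariant map of charge `a+b-2r` into charges `a ⊗ b`,
  `Z^k ↦ [t^k] (X-z)^r (1+tX)^(a-r) (1+tz)^(b-r) / C(a+b-2r,k)`; `Jc^T Jc = kappa r a b`.
* the impurity is the spin `Q-1` part of a pair, charge `2Q-2`;
  the channel `r` of impurity and particle has charge `chg Q r = 3Q-2-2r`.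
-/

open Finset
open scoped Classical

namespace Vale.Agent.P359.Gap

/-- Coefficient of `X^i z^j` in the image of `Z^k`. -/
noncomputable def jcoef (r a b i j k : ℕ) : ℝ :=
  ∑ l ∈ range (r + 1),
    if l ≤ i ∧ r - l ≤ j ∧ (i - l) + (j - (r - l)) = k then
      (-1) ^ (r - l) * (r.choose l : ℝ) * ((a - r).choose (i - l) : ℝ) *
        ((b - r).choose (j - (r - l)) : ℝ) / ((a + b - 2 * r).choose k : ℝ)
    else 0

/-- The same map in orthonormal coordinates. -/
noncomputable def Jc (r a b i j k : ℕ) : ℝ :=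
  jcoef r a b i j k * Real.sqrt ((a + b - 2 * r).choose k) /
    (Real.sqrt (a.choose i) * Real.sqrt (b.choose j))

/-- The squared norm of `Jc r a b`. -/
noncomputable def kappa (r a b : ℕ) : ℝ :=
  ((a + b - r + 1).choose r : ℝ) / ((a.choose r : ℝ) * (b.choose r : ℝ))

/-- Charge of the impurity. -/
def impChg (Q : ℕ) : ℕ := 2 * Q - 2

/-- Charge of channel `r`. -/
def chg (Q r : ℕ) : ℕ := 3 * Q - 2 - 2 * r

/-- A state of an impurity and `K` particles. -/
abbrev ImpState (K Q : ℕ) := ℕ → Config K Q → ℝ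

/-- Contraction of the first two factors with the spin `Q-1` space. -/
noncomputable def toImp {K Q : ℕ} (φ : Config (K + 2) Q → ℝ) : ImpState K Q := fun M c =>
  ∑ a : Fin (Q + 1), ∑ b : Fin (Q + 1), Jc 1 Q Q a b M * φ (Fin.cons a (Fin.cons b c))

/-- Squared norm of an impurity state. -/
noncomputable def impNormSq {K Q : ℕ} (ψ : ImpState K Q) : ℝ :=
  ∑ M ∈ range (impChg Q + 1), ∑ c, ψ M c ^ 2

/-- Component in channel `r` of the impurity and particle `a`. -/
noncomputable def chanAmp {K Q : ℕ} (r : ℕ) (a : Fin K) (ψ : ImpState K Q) (Z : ℕ)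
    (c : Config K Q) : ℝ :=
  ∑ M ∈ range (impChg Q + 1), ∑ x : Fin (Q + 1),
    Jc r (impChg Q) Q M x Z * ψ M (Function.update c a x)

/-- Weight of channel `r` of the impurity and particle `a`. -/
noncomputable def chanWeight {K Q : ℕ} (r : ℕ) (a : Fin K) (ψ : ImpState K Q) : ℝ :=
  (∑ Z ∈ range (chg Q r + 1), ∑ c ∈ univ.filter (fun c : Config K Q => c a = 0),
    chanAmp r a ψ Z c ^ 2) / kappa r (impChg Q) Q

/-- One-body form with eigenvalue `w r` in channel `r`. -/
noncomputable def oneBody {K Q : ℕ} (w : ℕ → ℝ) (ψ : ImpState K Q) : ℝ :=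
  ∑ a : Fin K, ∑ r ∈ range (Q + 1), w r * chanWeight r a ψ

/-- The pair energy of the particles. -/
noncomputable def hF {K Q : ℕ} (ψ : ImpState K Q) : ℝ :=
  ∑ M ∈ range (impChg Q + 1), energy (ψ M)

/-- The three-factor vector of channel `r`, highest weight, after splitting the impurity. -/
noncomputable def triVec (Q r i j l : ℕ) : ℝ :=
  ∑ M ∈ range (r + 1), Jc r (impChg Q) Q M l 0 * Jc 1 Q Q i j M

/-- The exchange eigenvalue `w_r` of the impurity and a particle in channel `r`. -/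
noncomputable def wch (Q r : ℕ) : ℝ :=
  -2 * (∑ i ∈ range (Q + 1), ∑ j ∈ range (Q + 1), ∑ l ∈ range (Q + 1),
      triVec Q r i j l * triVec Q r i l j) /
    (∑ i ∈ range (Q + 1), ∑ j ∈ range (Q + 1), ∑ l ∈ range (Q + 1), triVec Q r i j l ^ 2)

/-- The impurity inequality: the spectral gap in the form used below. -/
def ImpBound (γ : ℝ) (Q : ℕ) : Prop :=
  ∀ (K : ℕ) (φ : Config (K + 2) Q → ℝ), IsAntisym φ →
    γ * impNormSq (toImp φ) ≤
      impNormSq (toImp φ) + oneBody (wch Q) (toImp φ) + hF (toImp φ)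

/-! ### Squares -/

/-- Data of one square `z + ∑ a, A_a`: impurity shift `n`, constant `z` (zero unless `n = 0`),
channels `S` and coefficients `β`. -/
structure Sq where
  n : ℤ
  z : ℝ
  S : Finset ℕ
  β : ℕ → ℝ

/-- The conditions on the data of a square. -/
def Sq.Valid (s : Sq) : Prop := (s.n ≠ 0 → s.z = 0) ∧ ∀ r ∈ s.S, 0 ≤ (r : ℤ) + s.n

/-- Charge of the intermediate impurity. -/
def Sq.outChg (s : Sq) (Q : ℕ) : ℕ := (2 * (Q : ℤ) - 2 + 2 * s.n).toNat

/-- Channel of the intermediate impurity and the particle. -/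
def Sq.outCh (s : Sq) (r : ℕ) : ℕ := ((r : ℤ) + s.n).toNat

/-- Scaled coefficient of the map from channel `r`. -/
noncomputable def Sq.coef (s : Sq) (Q r : ℕ) : ℝ :=
  s.β r * Real.sqrt ((Q : ℝ) ^ s.n) / kappa r (impChg Q) Q

/-- One-body part of the expansion of a square. -/
noncomputable def Sq.diag (s : Sq) (Q r : ℕ) : ℝ :=
  if r ∈ s.S then
    2 * s.z * s.β r +
      s.β r ^ 2 * (Q : ℝ) ^ s.n * kappa (s.outCh r) (s.outChg Q) Q / kappa r (impChg Q) Q
  else 0

/-- The map `A` on the impurity and the first of two particles. -/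
noncomputable def Sq.apply3 (s : Sq) {Q : ℕ} (f : ℕ → Fin (Q + 1) → Fin (Q + 1) → ℝ) (y : ℕ)
    (x x' : Fin (Q + 1)) : ℝ :=
  ∑ r ∈ s.S, s.coef Q r * ∑ Z ∈ range (chg Q r + 1),
    Jc (s.outCh r) (s.outChg Q) Q y x Z *
      ∑ M ∈ range (impChg Q + 1), ∑ u : Fin (Q + 1), Jc r (impChg Q) Q M u Z * f M u x'

/-- The pairing of the two single-particle maps of a square. -/
noncomputable def Sq.cross3 (s : Sq) {Q : ℕ} (f : ℕ → Fin (Q + 1) → Fin (Q + 1) → ℝ) : ℝ :=
  ∑ y ∈ range (s.outChg Q + 1), ∑ x, ∑ x',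
    s.apply3 f y x x' * s.apply3 (fun M u v => f M v u) y x' x

/-- The three-body form left over: pair energy minus the cross terms of the squares. -/
noncomputable def q3 (sq : List Sq) {Q : ℕ} (f : ℕ → Fin (Q + 1) → Fin (Q + 1) → ℝ) : ℝ :=
  (∑ M ∈ range (impChg Q + 1), ∑ S ∈ Icc 1 (2 * Q - 1),
      (∑ a, ∑ b, pairVec Q S a b * f M a b) ^ 2 / pairNormSq Q S) -
    2 * (sq.map fun s => s.cross3 f).sum

/-- Squared norm of the part of `f` of relative degree `m`. -/
noncomputable def projDeg (m : ℕ) {Q : ℕ} (f : ℕ → Fin (Q + 1) → Fin (Q + 1) → ℝ) : ℝ :=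
  ∑ r ∈ range (m + 1),
    (∑ Z ∈ range (chg Q r + Q - 2 * (m - r) + 1),
      (∑ M ∈ range (impChg Q + 1), ∑ x : Fin (Q + 1), ∑ x' : Fin (Q + 1),
        ∑ Y ∈ range (chg Q r + 1),
          Jc (m - r) (chg Q r) Q Y x' Z * Jc r (impChg Q) Q M x Y * f M x x') ^ 2) /
      (kappa r (impChg Q) Q * kappa (m - r) (chg Q r) Q)

/-- The slice at two particles. -/
def slice {K Q : ℕ} (ψ : ImpState K Q) (a b : Fin K) (c : Config K Q) :
    ℕ → Fin (Q + 1) → Fin (Q + 1) → ℝ :=
  fun M x y => ψ M (Function.update (Function.update c a x) b y)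

end Vale.Agent.P359.Gap

namespace Vale.Agent.P359.Gap

/-- Matrix element of lowering `k+1 ↦ k` in charge `c`, orthonormal coordinates. -/
noncomputable def lower (c k : ℕ) : ℝ := Real.sqrt (((k : ℝ) + 1) * ((c : ℝ) - k))

/-- Highest weight vector of degree `m` of impurity and two fermions. -/
structure IsHW3 (Q m : ℕ) (h : ℕ → Fin (Q + 1) → Fin (Q + 1) → ℝ) : Prop where
  anti : ∀ M x y, h M y x = -h M x y
  deg : ∀ M (x y : Fin (Q + 1)), M + (x : ℕ) + (y : ℕ) ≠ m → h M x y = 0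
  supp : ∀ M (x y : Fin (Q + 1)), impChg Q < M → h M x y = 0
  hw : ∀ M (x y : Fin (Q + 1)), M ≤ impChg Q →
    lower (impChg Q) M * h (M + 1) x y
      + (if hx : (x : ℕ) + 1 < Q + 1 then lower Q x * h M ⟨x + 1, hx⟩ y else 0)
      + (if hy : (y : ℕ) + 1 < Q + 1 then lower Q y * h M x ⟨y + 1, hy⟩ else 0) = 0

/-- Squared norm of a three-factor vector. -/
noncomputable def normSq3 {Q : ℕ} (h : ℕ → Fin (Q + 1) → Fin (Q + 1) → ℝ) : ℝ :=
  ∑ M ∈ range (impChg Q + 1), ∑ x, ∑ y, h M x y ^ 2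

/-- `q3` is at least `-s` on all highest weight vectors of degree `m`. -/
def FullBound (sq : List Sq) (Q m : ℕ) (s : ℝ) : Prop :=
  ∀ h, IsHW3 Q m h → -(s * normSq3 h) ≤ q3 sq h

/-- The same, only for highest weight vectors coming from four fermions. -/
def RangeBound (sq : List Sq) (Q m : ℕ) (s : ℝ) : Prop :=
  ∀ φ : Config 4 Q → ℝ, IsAntisym φ →
    IsHW3 Q m (fun M x y => toImp φ M ![x, y]) →
      -(s * normSq3 (fun M x y => toImp φ M ![x, y])) ≤ q3 sq (fun M x y => toImp φ M ![x, y])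

/-- The highest weight vector with channel `r` and relative degree `q` of the second particle,
intermediate impurity charge `cY`. -/
noncomputable def gvec (cY Q r q : ℕ) (M x x' : ℕ) : ℝ :=
  ∑ Y ∈ range (r + q + 1), Jc q (cY + Q - 2 * r) Q Y x' 0 * Jc r cY Q M x Y

/-- Inner product of two highest weight vectors `gvec`. -/
noncomputable def gInner (cY Q r q r' q' : ℕ) : ℝ :=
  ∑ M ∈ range (cY + 1), ∑ x ∈ range (Q + 1), ∑ x' ∈ range (Q + 1),
    gvec cY Q r q M x x' * gvec cY Q r' q' M x x'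

/-- Inner product after exchanging the two particles. -/
noncomputable def gExch (cY Q r q r' q' : ℕ) : ℝ :=
  ∑ M ∈ range (cY + 1), ∑ x ∈ range (Q + 1), ∑ x' ∈ range (Q + 1),
    gvec cY Q r q M x x' * gvec cY Q r' q' M x' x

end Vale.Agent.P359.Gap
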