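import Vale.Agent.P359.Gap.Core

/-!
# P359, gap M6: the quadratic form of one relative degree

`crossNum` and the overlaps are indexed by `Option ℕ`: `some r` is the highest weight vector
`gvec (impChg Q) Q r (m - r)`, antisymmetrised in the two particles, and `none` is the vector of
two impurities (impurity and the pair of the particles) in channel `m - 1`.
-/

open Finset

namespace Vale.Agent.P359.Gap

/-- Highest weight vector of degree `m`: the particles form an impurity, which is in channel
`m - 1` with the impurity. -/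
noncomputable def wvec (Q m : ℕ) (M x x' : ℕ) : ℝ :=
  ∑ Y ∈ range (m + 1), Jc (m - 1) (impChg Q) (impChg Q) M Y 0 * Jc 1 Q Q x x' Y

/-- Overlap of `gvec` with `wvec`. -/
noncomputable def gPair (Q r m : ℕ) : ℝ :=
  ∑ M ∈ range (impChg Q + 1), ∑ x ∈ range (Q + 1), ∑ x' ∈ range (Q + 1),
    gvec (impChg Q) Q r (m - r) M x x' * wvec Q m M x x'

/-- Squared norm of `wvec`. -/
noncomputable def wNorm (Q m : ℕ) : ℝ :=
  ∑ M ∈ range (impChg Q + 1), ∑ x ∈ range (Q + 1), ∑ x' ∈ range (Q + 1), wvec Q m M x x' ^ 2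

/-- Overlaps of the antisymmetrised vectors. -/
noncomputable def gam (Q m : ℕ) : Option ℕ → Option ℕ → ℝ
  | some r, some r' =>
      (gInner (impChg Q) Q r (m - r) r' (m - r') - gExch (impChg Q) Q r (m - r) r' (m - r')) / 2
  | some r, none => gPair Q r m
  | none, some r => gPair Q r m
  | none, none => wNorm Q m

/-- The cross terms of one square as a form in the overlaps `v r` with the channel vectors. -/
noncomputable def Sq.crossForm (t : Sq) (Q m : ℕ) (v : ℕ → ℝ) : ℝ :=
  ∑ r ∈ t.S, ∑ r' ∈ t.S,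
    if r ≤ m ∧ r' ≤ m then
      t.β r * t.β r' * (Q : ℝ) ^ t.n * v r * v r' /
          (gInner (impChg Q) Q r (m - r) r (m - r) * gInner (impChg Q) Q r' (m - r') r' (m - r')) *
        gExch (t.outChg Q) Q (t.outCh r) (m - r) (t.outCh r') (m - r')
    else 0

/-- The channels that vanish on slices of `toImp φ`. -/
def deadCh : Finset ℕ := {0, 1, 3}

/-- The form `s ‖h‖² + q3 h` on `h = ∑ a ∈ J, c a • u a`, with penalties `lam` on the overlaps
that vanish on slices. -/
noncomputable def blockForm (sq : List Sq) (Q m : ℕ) (s : ℝ) (lam : Option ℕ → ℝ)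
    (J : Finset (Option ℕ)) (c : Option ℕ → ℝ) : ℝ :=
  s * (∑ a ∈ J, ∑ b ∈ J, c a * c b * gam Q m a b)
    + (∑ a ∈ J, gam Q m none a * c a) ^ 2 / wNorm Q m
    + 2 * (sq.map fun t => t.crossForm Q m (fun r => ∑ a ∈ J, gam Q m (some r) a * c a)).sum
    + (∑ r ∈ deadCh, lam (some r) * (∑ a ∈ J, gam Q m (some r) a * c a) ^ 2)
    + (if Even m then lam none * (∑ a ∈ J, gam Q m none a * c a) ^ 2 else 0)

/-- The indices whose overlaps enter `blockForm`. -/
def blockIdx (sq : List Sq) (m : ℕ) : Finset (Option ℕ) :=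
  insert none (((sq.map Sq.S).foldr (· ∪ ·) deadCh).filter (· ≤ m) |>.image some)

end Vale.Agent.P359.Gap
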