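import Vale.Agent.P359.Gap.Channels013
import Vale.Agent.P359.Gap.CritDefs

/-!
# P359, gap: overlaps that vanish on antisymmetric tensors

The channels `deadCh` do not occur in `toImp φ`; for four fermions neither does the vector `wvec` of
even degree, since the exchange of the two pairs is an even permutation.
-/

open Finset
open scoped Classical

namespace Vale.Agent.P359.Gap

/-- **Dead channels.** -/
theorem chanAmp_dead {K Q : ℕ} (hQ : 3 ≤ Q) {φ : Config (K + 2) Q → ℝ} (hφ : IsAntisym φ)
    {r : ℕ} (hr : r ∈ deadCh) (a : Fin K) {Z : ℕ} (hZ : Z ≤ chg Q r) (c : Config K Q) :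
    chanAmp r a (toImp φ) Z c = 0 :=
  C013.chanAmp_zero hQ hφ hr a hZ c

/-- Overlaps with highest weight vectors in dead channels. -/
theorem gvec_overlap_dead {Q : ℕ} (hQ : 3 ≤ Q) {φ : Config 4 Q → ℝ} (hφ : IsAntisym φ)
    {r : ℕ} (hr : r ∈ deadCh) (q : ℕ) :
    ∑ M ∈ range (impChg Q + 1), ∑ x : Fin (Q + 1), ∑ x' : Fin (Q + 1),
      gvec (impChg Q) Q r q M x x' * toImp φ M ![x, x'] = 0 := by
  have hr3 : r ≤ 3 := by fin_cases hr <;> norm_num
  have hch : impChg Q + Q - 2 * r = chg Q r := by unfold impChg chg; omega
  have key : ∀ (Y : ℕ) (x' : Fin (Q + 1)), ∑ M ∈ range (impChg Q + 1), ∑ x : Fin (Q + 1),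
      Jc r (impChg Q) Q M x Y * toImp φ M ![x, x'] = 0 := by
    intro Y x'
    by_cases hY : Y ≤ chg Q r
    · have h := chanAmp_dead hQ hφ hr (0 : Fin 2) hY ![0, x']
      rw [← h]
      simp only [chanAmp]
      refine Finset.sum_congr rfl fun M _ => Finset.sum_congr rfl fun x _ => ?_
      congr 2
      funext i
      fin_cases i <;> rfl
    · refine Finset.sum_eq_zero fun M _ => Finset.sum_eq_zero fun x _ => ?_
      rw [jc_eq_zero_out (r := r) (a := impChg Q) (b := Q) (by omega), zero_mul]
  calc ∑ M ∈ range (impChg Q + 1), ∑ x : Fin (Q + 1), ∑ x' : Fin (Q + 1),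
        gvec (impChg Q) Q r q M x x' * toImp φ M ![x, x']
      = ∑ Y ∈ range (r + q + 1), ∑ x' : Fin (Q + 1),
          Jc q (impChg Q + Q - 2 * r) Q Y x' 0 *
            ∑ M ∈ range (impChg Q + 1), ∑ x : Fin (Q + 1),
              Jc r (impChg Q) Q M x Y * toImp φ M ![x, x'] := by
        simp only [gvec, Finset.sum_mul, Finset.mul_sum]
        rw [Finset.sum_congr rfl fun M _ => Finset.sum_congr rfl fun x _ => Finset.sum_comm,
          Finset.sum_congr rfl fun M _ => Finset.sum_comm, Finset.sum_comm]
        refine Finset.sum_congr rfl fun Y _ => ?_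
        rw [Finset.sum_congr rfl fun M _ => Finset.sum_comm, Finset.sum_comm]
        exact Finset.sum_congr rfl fun x' _ => Finset.sum_congr rfl fun M _ =>
          Finset.sum_congr rfl fun x _ => by ring
    _ = 0 := Finset.sum_eq_zero fun Y _ => Finset.sum_eq_zero fun x' _ => by rw [key, mul_zero]

/-- Exchange of the factors in the bottom vector of two equal charges. -/
lemma jc_bottom_swap (r a i j : ℕ) : Jc r a a j i 0 = (-1) ^ r * Jc r a a i j 0 := by
  by_cases h : i + j = r
  · have hj : ∀ i j : ℕ, i + j = r →
        jcoef r a a i j 0 = (-1) ^ j * (r.choose i : ℝ) := fun i j h => by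
      rw [jcoef, Finset.sum_eq_single_of_mem i (mem_range.2 (by omega))]
      · rw [if_pos (by omega)]
        have e1 : r - i = j := by omega
        simp [e1]
      · intro l _ hl
        rw [if_neg (by omega)]
    have hs : (-1 : ℝ) ^ r * (-1) ^ j = (-1) ^ i := by
      rw [← h, pow_add, mul_assoc, ← pow_add, ← two_mul, pow_mul]
      norm_num
    have hc : r.choose j = r.choose i := by rw [← h, Nat.choose_symm_add]
    simp only [Jc, hj i j h, hj j i (by omega), hc, ← hs]
    ring
  · rw [jc_eq_zero (by omega), jc_eq_zero (by omega), mul_zero]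

/-- **Overlap with `wvec` in even degree.** -/
theorem wvec_overlap_even {Q : ℕ} {φ : Config 4 Q → ℝ} (hφ : IsAntisym φ) {m : ℕ} (hm : Even m) :
    ∑ M ∈ range (impChg Q + 1), ∑ x : Fin (Q + 1), ∑ x' : Fin (Q + 1),
      wvec Q m M x x' * toImp φ M ![x, x'] = 0 := by
  set P : ℕ → ℕ → ℝ := fun M Y => ∑ x : Fin (Q + 1), ∑ x' : Fin (Q + 1),
    Jc 1 Q Q x x' Y * toImp φ M ![x, x'] with hP
  have hsym : ∀ M Y, P M Y = P Y M := fun M Y => by
    have hperm : ∀ a b x x' : Fin (Q + 1), φ (Fin.cons x (Fin.cons x' ![a, b])) =
        φ (Fin.cons a (Fin.cons b ![x, x'])) := fun a b x x' => by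
      have h := hφ (Fin.cons a (Fin.cons b ![x, x']))
        (Equiv.swap (0 : Fin 4) 2 * Equiv.swap (1 : Fin 4) 3)
      rw [map_mul, Equiv.Perm.sign_swap (by decide), Equiv.Perm.sign_swap (by decide)] at h
      have e : (Fin.cons a (Fin.cons b ![x, x']) : Config 4 Q) ∘
          (Equiv.swap (0 : Fin 4) 2 * Equiv.swap (1 : Fin 4) 3) =
          Fin.cons x (Fin.cons x' ![a, b]) := by
        funext i
        fin_cases i <;> rfl
      rw [e] at h
      simpa using h
    simp only [hP, toImp, Finset.mul_sum]
    refine (Finset.sum_congr rfl fun x _ => Finset.sum_comm).trans (Finset.sum_comm.trans ?_)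
    refine Finset.sum_congr rfl fun a _ => ?_
    rw [Finset.sum_congr rfl fun x _ => Finset.sum_comm, Finset.sum_comm]
    refine Finset.sum_congr rfl fun b _ => Finset.sum_congr rfl fun x _ =>
      Finset.sum_congr rfl fun x' _ => ?_
    rw [hperm x x' a b]
    ring
  set n := m + impChg Q + 2 with hn
  have hin : ∀ M Y : ℕ, (impChg Q < M ∨ impChg Q < Y ∨ m < Y) →
      Jc (m - 1) (impChg Q) (impChg Q) M Y 0 = 0 := by
    rintro M Y (h | h | h)
    · exact jc_eq_zero_left h
    · exact jc_eq_zero_right h
    · exact jc_eq_zero (by omega)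
  calc ∑ M ∈ range (impChg Q + 1), ∑ x : Fin (Q + 1), ∑ x' : Fin (Q + 1),
        wvec Q m M x x' * toImp φ M ![x, x']
      = ∑ M ∈ range (impChg Q + 1), ∑ Y ∈ range (m + 1),
          Jc (m - 1) (impChg Q) (impChg Q) M Y 0 * P M Y := by
        simp only [wvec, hP, Finset.sum_mul, Finset.mul_sum]
        refine Finset.sum_congr rfl fun M _ => ?_
        rw [Finset.sum_congr rfl fun x _ => Finset.sum_comm, Finset.sum_comm]
        exact Finset.sum_congr rfl fun Y _ => Finset.sum_congr rfl fun x _ =>
          Finset.sum_congr rfl fun x' _ => by ring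
    _ = ∑ M ∈ range n, ∑ Y ∈ range n, Jc (m - 1) (impChg Q) (impChg Q) M Y 0 * P M Y := by
        rw [Finset.sum_subset (Finset.range_subset_range.2 (show impChg Q + 1 ≤ n by omega))]
        · refine Finset.sum_congr rfl fun M _ =>
            Finset.sum_subset (Finset.range_subset_range.2 (by omega)) fun Y _ hY => ?_
          rw [hin M Y (Or.inr (Or.inr (by simpa using hY))), zero_mul]
        · intro M _ hM
          refine Finset.sum_eq_zero fun Y _ => ?_
          rw [hin M Y (Or.inl (by simpa using hM)), zero_mul]
    _ = 0 := by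
        rcases Nat.eq_zero_or_pos m with rfl | hpos
        · refine Finset.sum_eq_zero fun M _ => Finset.sum_eq_zero fun Y _ => ?_
          by_cases hMY : M = 0 ∧ Y = 0
          · obtain ⟨rfl, rfl⟩ := hMY
            suffices P 0 0 = 0 by rw [this, mul_zero]
            simp only [hP, toImp, Finset.mul_sum]
            refine Finset.sum_eq_zero fun x _ => Finset.sum_eq_zero fun x' _ =>
              Finset.sum_eq_zero fun a _ => Finset.sum_eq_zero fun b _ => ?_
            by_cases h1 : (x : ℕ) + x' = 1 + 0
            · by_cases h2 : (a : ℕ) + b = 1 + 0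
              · have h0 : φ (Fin.cons a (Fin.cons b ![x, x'])) = 0 := by
                  have hz : ∀ i j : Fin 4, i ≠ j →
                      (Fin.cons a (Fin.cons b ![x, x']) : Config 4 Q) i =
                        (Fin.cons a (Fin.cons b ![x, x']) : Config 4 Q) j →
                      φ (Fin.cons a (Fin.cons b ![x, x'])) = 0 := fun i j hij he => by
                    have h := hφ (Fin.cons a (Fin.cons b ![x, x'])) (Equiv.swap i j)
                    rw [Equiv.Perm.sign_swap hij] at h
                    have e : (Fin.cons a (Fin.cons b ![x, x']) : Config 4 Q) ∘ Equiv.swap i j =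
                        Fin.cons a (Fin.cons b ![x, x']) := by
                      funext k
                      rw [Function.comp_apply]
                      by_cases hk : k = i
                      · rw [hk, Equiv.swap_apply_left, he]
                      · by_cases hk' : k = j
                        · rw [hk', Equiv.swap_apply_right, he]
                        · rw [Equiv.swap_apply_of_ne_of_ne hk hk']
                    rw [e] at h
                    push_cast at h
                    linarith
                  by_cases hax : a = x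
                  · exact hz 0 2 (by decide) hax
                  · have : (a : ℕ) ≠ x := fun h => hax (Fin.ext h)
                    exact hz 0 3 (by decide) (Fin.ext (show (a : ℕ) = x' by omega))
                rw [h0, mul_zero, mul_zero]
              · rw [jc_eq_zero h2, zero_mul, mul_zero]
            · rw [jc_eq_zero h1, zero_mul]
          · rw [jc_eq_zero (by omega), zero_mul]
        · have hodd : (-1 : ℝ) ^ (m - 1) = -1 :=
            Odd.neg_one_pow (Nat.Even.sub_odd hpos hm odd_one)
          have hS : ∀ S, S = ∑ M ∈ range n, ∑ Y ∈ range n,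
              Jc (m - 1) (impChg Q) (impChg Q) M Y 0 * P M Y → S = -S := by
            intro S hS
            conv_lhs => rw [hS, Finset.sum_comm]
            rw [hS, ← Finset.sum_neg_distrib]
            refine Finset.sum_congr rfl fun M _ => ?_
            rw [← Finset.sum_neg_distrib]
            refine Finset.sum_congr rfl fun Y _ => ?_
            rw [jc_bottom_swap, hodd, hsym Y M]
            ring
          have := hS _ rfl
          linarith

end Vale.Agent.P359.Gap
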