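import Vale.Agent.P359.Gap.Criterion.Gram
import Vale.Agent.P359.Gap.DeadChannels

/-!
# P359, gap M6: the criterion for one relative degree

`rangeBound_of_blockForm` bounds a relative degree by a finite quadratic form in the overlaps with
the vectors of `CritDefs`; `fullBound_of_exch` is the crude bound for large relative degree.
-/

open Finset

namespace Vale.Agent.P359.Gap

/-- Under the guard on the degrees the cross term is `Sq.crossForm`. -/
theorem crossTerm_sum_eq {Q m : ℕ} (hm : m ≤ Q) (t : Sq) (v : ℕ → ℝ) :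
    (∑ r ∈ t.S, ∑ r' ∈ t.S, Criterion.crossTerm t Q m r r' v) = t.crossForm Q m v := by
  refine Finset.sum_congr rfl fun r _ => Finset.sum_congr rfl fun r' _ => ?_
  unfold Criterion.crossTerm
  by_cases h : r ≤ m ∧ r' ≤ m
  · rw [if_pos ⟨h.1, h.2, by omega, by omega⟩, if_pos h]
  · rw [if_neg (fun hc => h ⟨hc.1, hc.2.1⟩), if_neg h]

open Criterion in
/-- **M6.** A relative degree is bounded by a finite quadratic form. -/
theorem rangeBound_of_blockForm {Q m : ℕ} (hQ : 3 ≤ Q) (hm : m ≤ Q) (sq : List Sq)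
    (hsq : ∀ t ∈ sq, -(Q : ℤ) < t.n ∧
      ∀ r ∈ t.S, 0 ≤ (r : ℤ) + t.n ∧ 2 * r ≤ Q ∧ 2 * ((r : ℤ) + t.n) ≤ Q)
    (s : ℝ) (hs : 0 ≤ s) (J : Finset (Option ℕ)) (hJ : ∀ r, some r ∈ J → r ≤ m)
    (hspan : blockIdx sq m ⊆ J ∨ (J.card = (m + 1) / 2 ∧
      ∀ c : Option ℕ → ℝ, (∃ a ∈ J, c a ≠ 0) →
        0 < ∑ a ∈ J, ∑ b ∈ J, c a * c b * gam Q m a b))
    (lam : Option ℕ → ℝ) (hform : ∀ c, 0 ≤ blockForm sq Q m s lam J c) :
    RangeBound sq Q m s := by
  intro φ hφ hh
  set h : ℕ → Fin (Q + 1) → Fin (Q + 1) → ℝ := fun M x y => toImp φ M ![x, y] with hdef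
  have hQ1 : 1 ≤ Q := by omega
  -- the overlaps that vanish on slices
  have hdead : ∀ r ∈ deadCh, ov (uvec Q m (some r)) h = 0 := by
    intro r hr
    rw [ov_uvec hh.anti]
    have h1 := gvec_overlap_dead hQ hφ hr (m - r)
    simp only [ov, hdef, mul_comm] at h1 ⊢
    exact h1
  have hwdead : Even m → ov (uvec Q m none) h = 0 := by
    intro he
    have h1 := wvec_overlap_even (Q := Q) hφ he
    simp only [ov, uvec, hdef, mul_comm] at h1 ⊢
    exact h1
  -- a combination with the same relevant overlaps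
  obtain ⟨c, hov, hnorm⟩ : ∃ c : Option ℕ → ℝ,
      (∀ a, (a ∈ blockIdx sq m ∨ ((∃ r ∈ deadCh, a = some r) ∨ (Even m ∧ a = none))) →
        ∑ b ∈ J, gam Q m a b * c b = ov (uvec Q m a) h) ∧
      ∑ a ∈ J, ∑ b ∈ J, c a * c b * gam Q m a b ≤ normSq3 h := by
    rcases hspan with hsub | ⟨hcard, hpos⟩
    · rcases Nat.eq_zero_or_pos m with rfl | hm0
      · have hz := hw_eq_zero hh (fun i hi => absurd hi (by omega))
        refine ⟨fun _ => 0, fun a _ => ?_, ?_⟩
        · rw [ov]
          simp [hz]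
        · simp [normSq3, hz]
      obtain ⟨c, hc, hn⟩ := exists_proj (m := m) hQ1 J h
      refine ⟨c, fun a ha => ?_, hn⟩
      by_cases haJ : a ∈ J
      · exact hc a haJ
      rcases ha with ha | ⟨r, hr, rfl⟩ | ⟨-, rfl⟩
      · exact absurd (hsub ha) haJ
      · have hrm : m < r := by
          by_contra hle
          refine haJ (hsub ?_)
          simp only [blockIdx, Finset.mem_insert, Finset.mem_image, Finset.mem_filter]
          refine Or.inr ⟨r, ⟨?_, by omega⟩, rfl⟩
          clear hsq hform hsub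
          induction sq with
          | nil => exact hr
          | cons t l ih => simp [ih]
        rw [hdead r hr]
        refine Finset.sum_eq_zero fun b hb => mul_eq_zero_of_left ?_ _
        rw [gam_eq hQ1]
        refine Finset.sum_eq_zero fun M _ => Finset.sum_eq_zero fun x _ =>
          Finset.sum_eq_zero fun y _ => ?_
        by_cases hd : M + (x : ℕ) + y = m
        · simp only [uvec]
          rw [gvec_eq_zero (Or.inr (Or.inr (Or.inr (by omega)))),
            gvec_eq_zero (Or.inr (Or.inr (Or.inr (by omega))))]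
          simp
        · rw [(uvec_hw hQ hm b (fun r hr => hJ r (hr ▸ hb)) hm0).deg M x y hd, zero_mul]
      · exact absurd (hsub (Finset.mem_insert_self _ _)) haJ
    · obtain ⟨c, hc, hn⟩ := exists_span hQ hm J hJ hcard hpos hh
      exact ⟨c, fun a _ => hc a, hn.le⟩
  have hblock : blockForm sq Q m s lam J c =
      s * (∑ a ∈ J, ∑ b ∈ J, c a * c b * gam Q m a b) + q3 sq h := by
    have hw : ∑ a ∈ J, gam Q m none a * c a = ov (wvec Q m) h :=
      hov none (Or.inl (Finset.mem_insert_self _ _))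
    have hd : ∑ r ∈ deadCh, lam (some r) * (∑ a ∈ J, gam Q m (some r) a * c a) ^ 2 = 0 :=
      Finset.sum_eq_zero fun r hr => by
        rw [hov _ (Or.inr (Or.inl ⟨r, hr, rfl⟩)), hdead r hr]; simp
    have hev : (if Even m then lam none * (∑ a ∈ J, gam Q m none a * c a) ^ 2 else 0) = 0 := by
      split_ifs with he
      · rw [hov none (Or.inr (Or.inr ⟨he, rfl⟩)), hwdead he]; simp
      · rfl
    have hcross : ∀ t ∈ sq, t.crossForm Q m (fun r => ∑ a ∈ J, gam Q m (some r) a * c a) =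
        ∑ r ∈ t.S, ∑ r' ∈ t.S,
          crossTerm t Q m r r' (fun k => ov (gvec (impChg Q) Q k (m - k)) h) := by
      intro t ht
      rw [crossTerm_sum_eq hm]
      refine Finset.sum_congr rfl fun r hr => Finset.sum_congr rfl fun r' hr' => ?_
      by_cases hle : r ≤ m ∧ r' ≤ m
      · have hmem : ∀ k ∈ t.S, k ≤ m → some k ∈ blockIdx sq m := by
          intro k hk hkm
          simp only [blockIdx, Finset.mem_insert, Finset.mem_image, Finset.mem_filter]
          refine Or.inr ⟨k, ⟨?_, hkm⟩, rfl⟩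
          clear hov hform hspan hsq hd hev
          induction sq with
          | nil => simp at ht
          | cons u l ih =>
            rcases List.mem_cons.1 ht with rfl | ht'
            · simp [hk]
            · simp [ih ht']
        simp only [if_pos hle, hov _ (Or.inl (hmem r hr hle.1)),
          hov _ (Or.inl (hmem r' hr' hle.2)), ov_uvec hh.anti]
      · simp only [if_neg hle]
    rw [blockForm, q3_eq (by omega) hsq hh, hd, hev, hw, List.map_congr_left hcross]
    ring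
  have h0 := hform c
  rw [hblock] at h0
  have h1 := mul_le_mul_of_nonneg_left hnorm hs
  linarith

namespace Criterion

variable {Q m : ℕ}

lemma sum_idx (F : ℕ → Fin (Q + 1) → Fin (Q + 1) → ℝ) :
    (∑ M ∈ range (impChg Q + 1), ∑ x : Fin (Q + 1), ∑ y : Fin (Q + 1), F M x y) =
      ∑ p : Idx Q, F p.1 p.2.1 p.2.2 := by
  simp [Fintype.sum_prod_type, Finset.sum_range (n := impChg Q + 1)]

/-- Cauchy-Schwarz for the overlaps with `gvec`. -/
lemma abs_ov_le (g : ℕ → ℕ → ℕ → ℝ) (h : ℕ → Fin (Q + 1) → Fin (Q + 1) → ℝ) :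
    |ov g h| ≤ Real.sqrt (normSq3 h) *
      Real.sqrt (∑ M ∈ range (impChg Q + 1), ∑ x : Fin (Q + 1), ∑ y : Fin (Q + 1),
        g M x y ^ 2) := by
  rw [← Real.sqrt_sq_eq_abs, ← Real.sqrt_mul]
  · refine Real.sqrt_le_sqrt ?_
    simp only [ov, normSq3, sum_idx]
    exact Finset.sum_mul_sq_le_sq_mul_sq _ _ _
  · exact Finset.sum_nonneg fun _ _ => Finset.sum_nonneg fun _ _ => Finset.sum_nonneg fun _ _ =>
      sq_nonneg _

end Criterion

open Criterion in
/-- **M6.** The crude bound used for large relative degree. -/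
theorem fullBound_of_exch {Q m : ℕ} (hQ : 2 ≤ Q) (sq : List Sq)
    (hsq : ∀ t ∈ sq, -(Q : ℤ) < t.n ∧
      ∀ r ∈ t.S, 0 ≤ (r : ℤ) + t.n ∧ 2 * r ≤ Q ∧ 2 * ((r : ℤ) + t.n) ≤ Q)
    (s : ℝ)
    (hs : (sq.map fun t => ∑ r ∈ t.S, ∑ r' ∈ t.S,
      if r ≤ m ∧ r' ≤ m ∧ m - r ≤ Q ∧ m - r' ≤ Q then
        2 * |t.β r * t.β r'| * (Q : ℝ) ^ t.n *
          |gExch (t.outChg Q) Q (t.outCh r) (m - r) (t.outCh r') (m - r')| /
          Real.sqrt (gInner (impChg Q) Q r (m - r) r (m - r) *
            gInner (impChg Q) Q r' (m - r') r' (m - r'))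
        else 0).sum ≤ s) :
    FullBound sq Q m s := by
  intro h hh
  have hn : 0 ≤ normSq3 h :=
    Finset.sum_nonneg fun _ _ => Finset.sum_nonneg fun _ _ => Finset.sum_nonneg fun _ _ =>
      sq_nonneg _
  have hpair : 0 ≤ ov (wvec Q m) h ^ 2 / wNorm Q m :=
    div_nonneg (sq_nonneg _) (Finset.sum_nonneg fun _ _ => Finset.sum_nonneg fun _ _ =>
      Finset.sum_nonneg fun _ _ => sq_nonneg _)
  rw [q3_eq hQ hsq hh]
  set v := fun k => ov (gvec (impChg Q) Q k (m - k)) h with hv
  have key : ∀ t ∈ sq, -((∑ r ∈ t.S, ∑ r' ∈ t.S,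
      if r ≤ m ∧ r' ≤ m ∧ m - r ≤ Q ∧ m - r' ≤ Q then
        2 * |t.β r * t.β r'| * (Q : ℝ) ^ t.n *
          |gExch (t.outChg Q) Q (t.outCh r) (m - r) (t.outCh r') (m - r')| /
          Real.sqrt (gInner (impChg Q) Q r (m - r) r (m - r) *
            gInner (impChg Q) Q r' (m - r') r' (m - r'))
        else 0) * normSq3 h) ≤ 2 * ∑ r ∈ t.S, ∑ r' ∈ t.S, crossTerm t Q m r r' v := by
    intro t ht
    obtain ⟨-, hS⟩ := hsq t ht
    rw [Finset.sum_mul, Finset.mul_sum, ← Finset.sum_neg_distrib]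
    refine Finset.sum_le_sum fun r hr => ?_
    rw [Finset.sum_mul, Finset.mul_sum, ← Finset.sum_neg_distrib]
    refine Finset.sum_le_sum fun r' hr' => ?_
    unfold crossTerm
    split_ifs with hg
    swap
    · simp
    have hN : ∀ k ∈ t.S, m - k ≤ Q → 0 < gInner (impChg Q) Q k (m - k) k (m - k) ∧
        |v k| ≤ Real.sqrt (normSq3 h) *
          Real.sqrt (gInner (impChg Q) Q k (m - k) k (m - k)) := by
      intro k hk hkQ
      have hk2 := (hS k hk).2.1
      have hc := chg_ge hQ hk2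
      refine ⟨?_, (abs_ov_le _ _).trans (le_of_eq ?_)⟩
      · rw [gInner_self (by unfold impChg; omega) (by omega) (by omega) hkQ]
        exact mul_pos (kappa_pos (by unfold impChg; omega) (by omega))
          (kappa_pos (by omega) hkQ)
      · simp only [gInner, Finset.sum_range (n := Q + 1), pow_two]
    obtain ⟨hN1, hv1⟩ := hN r hr hg.2.2.1
    obtain ⟨hN2, hv2⟩ := hN r' hr' hg.2.2.2
    set N1 := gInner (impChg Q) Q r (m - r) r (m - r)
    set N2 := gInner (impChg Q) Q r' (m - r') r' (m - r')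
    set E := gExch (t.outChg Q) Q (t.outCh r) (m - r) (t.outCh r') (m - r')
    have hQn : (0 : ℝ) ≤ (Q : ℝ) ^ t.n := zpow_nonneg (Nat.cast_nonneg _) _
    have h1 : |v r| * |v r'| ≤ normSq3 h * (Real.sqrt N1 * Real.sqrt N2) := by
      refine (mul_le_mul hv1 hv2 (abs_nonneg _)
        (mul_nonneg (Real.sqrt_nonneg _) (Real.sqrt_nonneg _))).trans (le_of_eq ?_)
      rw [mul_mul_mul_comm, Real.mul_self_sqrt hn]
    have hab : |t.β r * t.β r' * (Q : ℝ) ^ t.n * v r * v r' / (N1 * N2) * E| ≤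
        |t.β r * t.β r'| * (Q : ℝ) ^ t.n * |E| / Real.sqrt (N1 * N2) * normSq3 h := by
      calc |t.β r * t.β r' * (Q : ℝ) ^ t.n * v r * v r' / (N1 * N2) * E|
          = |t.β r * t.β r'| * (Q : ℝ) ^ t.n * |E| / (N1 * N2) * (|v r| * |v r'|) := by
            rw [abs_mul, abs_div, abs_mul, abs_mul, abs_mul _ ((Q : ℝ) ^ t.n), abs_of_nonneg hQn,
              abs_of_pos (mul_pos hN1 hN2)]
            ring
        _ ≤ |t.β r * t.β r'| * (Q : ℝ) ^ t.n * |E| / (N1 * N2) *
              (normSq3 h * (Real.sqrt N1 * Real.sqrt N2)) :=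
            mul_le_mul_of_nonneg_left h1 (div_nonneg
              (mul_nonneg (mul_nonneg (abs_nonneg _) hQn) (abs_nonneg _)) (mul_pos hN1 hN2).le)
        _ = _ := by
            rw [← Real.sqrt_mul hN1.le]
            have hs2 := Real.mul_self_sqrt (mul_pos hN1 hN2).le
            have hs0 := (Real.sqrt_pos.2 (mul_pos hN1 hN2)).ne'
            field_simp
            linear_combination |t.β r * t.β r'| * |E| * normSq3 h * hs2
    have h2 := neg_abs_le (t.β r * t.β r' * (Q : ℝ) ^ t.n * v r * v r' / (N1 * N2) * E)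
    have e : 2 * |t.β r * t.β r'| * (Q : ℝ) ^ t.n * |E| / Real.sqrt (N1 * N2) * normSq3 h =
        2 * (|t.β r * t.β r'| * (Q : ℝ) ^ t.n * |E| / Real.sqrt (N1 * N2) * normSq3 h) := by ring
    linarith
  have hsum : -((sq.map fun t => ∑ r ∈ t.S, ∑ r' ∈ t.S,
      if r ≤ m ∧ r' ≤ m ∧ m - r ≤ Q ∧ m - r' ≤ Q then
        2 * |t.β r * t.β r'| * (Q : ℝ) ^ t.n *
          |gExch (t.outChg Q) Q (t.outCh r) (m - r) (t.outCh r') (m - r')| /
          Real.sqrt (gInner (impChg Q) Q r (m - r) r (m - r) *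
            gInner (impChg Q) Q r' (m - r') r' (m - r'))
        else 0).sum * normSq3 h) ≤
      2 * (sq.map fun t => ∑ r ∈ t.S, ∑ r' ∈ t.S, crossTerm t Q m r r' v).sum := by
    rw [← List.sum_map_mul_right, ← List.sum_map_mul_left, List.sum_neg, List.map_map]
    exact List.sum_le_sum key
  have h3 := mul_le_mul_of_nonneg_right hs hn
  linarith

end Vale.Agent.P359.Gap
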