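import Vale.Agent.P359.Gap.Ladder

/-!
# P359, gap: closed forms of the norm and the exchange overlap of the highest weight vectors
-/

open Finset

namespace Vale.Agent.P359.Gap

/-- The bottom vector of `Jc`. -/
theorem Jc_zero (r a b l : ℕ) (hl : l ≤ r) :
    Jc r a b l (r - l) 0 =
      (-1) ^ (r - l) * (r.choose l : ℝ) / (Real.sqrt (a.choose l) * Real.sqrt (b.choose (r - l))) := by
  have : jcoef r a b l (r - l) 0 = (-1) ^ (r - l) * (r.choose l : ℝ) := by
    unfold jcoef
    rw [Finset.sum_eq_single l]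
    · rw [if_pos ⟨le_rfl, le_rfl, by simp⟩]
      simp
    · intro i hi hne
      rw [if_neg]
      rintro ⟨h1, h2, h3⟩
      have := mem_range.1 hi
      omega
    · intro h
      exact absurd (mem_range.2 (by omega)) h
  simp [Jc, this]

theorem gvec_eq_zero {cY Q r q M x x' : ℕ}
    (h : cY < M ∨ Q < x ∨ Q < x' ∨ M + x + x' ≠ r + q) : gvec cY Q r q M x x' = 0 := by
  refine Finset.sum_eq_zero fun Y _ => ?_
  by_contra hne
  obtain ⟨h1, h2⟩ := mul_ne_zero_iff.1 hne
  rcases h with h | h | h | h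
  · exact h2 (jc_eq_zero_left h)
  · exact h2 (jc_eq_zero_right h)
  · exact h1 (jc_eq_zero_right h)
  · by_cases e : Y + x' = q
    · exact h2 (jc_eq_zero (by omega))
    · exact h1 (jc_eq_zero (by omega))

theorem gvec_sum (cY Q r q M x x' n : ℕ) (hn : q ≤ n) :
    gvec cY Q r q M x x' =
      ∑ Y ∈ range (n + 1), Jc q (cY + Q - 2 * r) Q Y x' 0 * Jc r cY Q M x Y := by
  have h : ∀ N, q ≤ N →
      ∑ Y ∈ range (N + 1), Jc q (cY + Q - 2 * r) Q Y x' 0 * Jc r cY Q M x Y =
        ∑ Y ∈ range (q + 1), Jc q (cY + Q - 2 * r) Q Y x' 0 * Jc r cY Q M x Y := by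
    intro N hN
    refine (Finset.sum_subset (range_subset_range.2 (by omega)) fun Y _ hY => ?_).symm
    rw [jc_eq_zero (by simp at hY; omega), zero_mul]
  rw [gvec, h _ (Nat.le_add_left _ _), h n hn]

/-- `gvec` is killed by lowering. -/
theorem gvec_lower {cY Q r q : ℕ} (hr : r ≤ cY) (hr' : r ≤ Q) (hq : q ≤ cY + Q - 2 * r)
    (hq' : q ≤ Q) (M x x' : ℕ) :
    lower cY M * gvec cY Q r q (M + 1) x x' + lower Q x * gvec cY Q r q M (x + 1) x' +
      lower Q x' * gvec cY Q r q M x (x' + 1) = 0 := by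
  set c := cY + Q - 2 * r with hc
  rw [gvec_sum _ _ _ _ _ _ _ (q + 1) (by omega), gvec_sum _ _ _ _ _ _ _ (q + 1) (by omega),
    gvec_sum _ _ _ _ _ _ _ q le_rfl, Finset.mul_sum, Finset.mul_sum, Finset.mul_sum,
    ← Finset.sum_add_distrib, Finset.sum_range_succ' _ (q + 1)]
  have h0 : lower cY M * (Jc q c Q 0 x' 0 * Jc r cY Q (M + 1) x 0) +
      lower Q x * (Jc q c Q 0 x' 0 * Jc r cY Q M (x + 1) 0) = 0 := by
    linear_combination (Jc q c Q 0 x' 0) * jc_lower_zero (a := cY) (b := Q) hr hr' M x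
  rw [h0, add_zero, ← Finset.sum_add_distrib]
  refine Finset.sum_eq_zero fun Y _ => ?_
  linear_combination Jc q c Q (Y + 1) x' 0 * jc_lower (a := cY) (b := Q) hr hr' M x Y +
    Jc r cY Q M x Y * jc_lower_zero (a := c) (b := Q) hq hq' Y x'

/-- Norm of `gvec`. -/
theorem gInner_self {cY Q r q : ℕ} (hr : r ≤ cY) (hr' : r ≤ Q) (hq : q ≤ cY + Q - 2 * r)
    (hq' : q ≤ Q) :
    gInner cY Q r q r q = kappa r cY Q * kappa q (cY + Q - 2 * r) Q := by
  set c := cY + Q - 2 * r with hc
  have hg : ∀ M x x', gvec cY Q r q M x x' =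
      ∑ Y ∈ range (c + 1), Jc q c Q Y x' 0 * Jc r cY Q M x Y :=
    fun M x x' => gvec_sum _ _ _ _ _ _ _ c hq
  simp only [gInner, hg, Finset.sum_mul_sum]
  rw [← jc_orth (k := 0) (k' := 0) hq hq' (Nat.zero_le _) (Nat.zero_le _) |>.trans (if_pos rfl),
    Finset.mul_sum]
  calc ∑ M ∈ range (cY + 1), ∑ x ∈ range (Q + 1), ∑ x' ∈ range (Q + 1),
        ∑ Y ∈ range (c + 1), ∑ Y' ∈ range (c + 1),
          Jc q c Q Y x' 0 * Jc r cY Q M x Y * (Jc q c Q Y' x' 0 * Jc r cY Q M x Y')
      = ∑ x' ∈ range (Q + 1), ∑ Y ∈ range (c + 1), ∑ Y' ∈ range (c + 1),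
          Jc q c Q Y x' 0 * Jc q c Q Y' x' 0 *
            ∑ M ∈ range (cY + 1), ∑ x ∈ range (Q + 1), Jc r cY Q M x Y * Jc r cY Q M x Y' := by
        simp only [Finset.mul_sum]
        rw [Finset.sum_comm_cycle]
        refine Finset.sum_congr rfl fun x' _ => ?_
        conv_lhs => arg 2; ext M; rw [Finset.sum_comm]
        rw [Finset.sum_comm]
        refine Finset.sum_congr rfl fun Y _ => ?_
        conv_lhs => arg 2; ext M; rw [Finset.sum_comm]
        rw [Finset.sum_comm]
        exact Finset.sum_congr rfl fun Y' _ => Finset.sum_congr rfl fun M _ =>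
          Finset.sum_congr rfl fun x _ => by ring
    _ = ∑ x' ∈ range (Q + 1), ∑ Y ∈ range (c + 1),
          Jc q c Q Y x' 0 * Jc q c Q Y x' 0 * kappa r cY Q := by
        refine Finset.sum_congr rfl fun x' _ => Finset.sum_congr rfl fun Y hY => ?_
        rw [Finset.sum_eq_single Y]
        · rw [jc_orth hr hr' (Nat.lt_succ_iff.1 (mem_range.1 hY))
            (Nat.lt_succ_iff.1 (mem_range.1 hY)), if_pos rfl]
        · intro Y' hY' hne
          rw [jc_orth hr hr' (Nat.lt_succ_iff.1 (mem_range.1 hY))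
            (Nat.lt_succ_iff.1 (mem_range.1 hY')), if_neg (Ne.symm hne), mul_zero]
        · exact fun h => absurd hY h
    _ = _ := by
        rw [Finset.sum_comm]
        exact Finset.sum_congr rfl fun Y _ => by
          rw [Finset.mul_sum]
          exact Finset.sum_congr rfl fun x' _ => by ring

theorem gExch_comm (cY Q r q r' q' : ℕ) : gExch cY Q r q r' q' = gExch cY Q r' q' r q := by
  unfold gExch
  refine Finset.sum_congr rfl fun M _ => ?_
  rw [Finset.sum_comm]
  exact Finset.sum_congr rfl fun x _ => Finset.sum_congr rfl fun x' _ => mul_comm _ _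

theorem gExch_sq_le (cY Q r q r' q' : ℕ) :
    gExch cY Q r q r' q' ^ 2 ≤ gInner cY Q r q r q * gInner cY Q r' q' r' q' := by
  have hs : ∀ f : ℕ → ℕ → ℕ → ℝ, ∑ M ∈ range (cY + 1), ∑ x ∈ range (Q + 1), ∑ x' ∈ range (Q + 1),
      f M x x' = ∑ p ∈ range (cY + 1) ×ˢ (range (Q + 1) ×ˢ range (Q + 1)), f p.1 p.2.1 p.2.2 := by
    intro f
    simp only [Finset.sum_product]
  have h2 : gInner cY Q r' q' r' q' = ∑ M ∈ range (cY + 1), ∑ x ∈ range (Q + 1),
      ∑ x' ∈ range (Q + 1), gvec cY Q r' q' M x' x * gvec cY Q r' q' M x' x :=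
    Finset.sum_congr rfl fun M _ => Finset.sum_comm
  rw [h2]
  simp only [gExch, gInner, hs, ← sq]
  exact Finset.sum_mul_sq_le_sq_mul_sq _ _ _

theorem gExch_eq_zero {cY Q r q r' q' : ℕ} (h : r + q ≠ r' + q') :
    gExch cY Q r q r' q' = 0 := by
  refine Finset.sum_eq_zero fun M _ => Finset.sum_eq_zero fun x _ => Finset.sum_eq_zero fun x' _ => ?_
  by_cases e : M + x + x' = r + q
  · rw [gvec_eq_zero (M := M) (x := x') (x' := x) (r := r') (q := q')
      (Or.inr (Or.inr (Or.inr (by omega)))), mul_zero]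
  · rw [gvec_eq_zero (Or.inr (Or.inr (Or.inr e))), zero_mul]

/-- One term of the exchange overlap, with sign marker `s`. -/
noncomputable def exTerm (s : ℝ) (cY Q r q r' q' l i : ℕ) : ℝ :=
  if r ≤ q' + l ∧ r' ≤ q + i then
    s ^ (q + i - r') * ((r.choose l : ℝ) * (r'.choose i : ℝ) * (q'.choose (r - l) : ℝ)) *
      (((cY - r').choose (l - i) : ℝ) * ((Q - r').choose (q + i - r') : ℝ) /
        ((cY.choose l : ℝ) * (Q.choose (r - l) : ℝ) *
          ((cY + Q - 2 * r').choose (q' + l - r) : ℝ)))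
  else 0

/-- The exchange overlap over `kappa q`. -/
noncomputable def exSum (s : ℝ) (cY Q r q r' q' : ℕ) : ℝ :=
  ∑ l ∈ range (r + 1), ∑ i ∈ range (min l r' + 1), exTerm s cY Q r q r' q' l i

/-- Pairing of `gvec` with a vector killed by lowering. -/
theorem gvec_dot {cY Q r q : ℕ} (hr1 : r ≤ cY) (hr2 : r ≤ Q)
    (hq1 : q ≤ cY + Q - 2 * r) (hq2 : q ≤ Q) (f : ℕ → ℕ → ℕ → ℝ)
    (htop : ∀ M x x', cY < M ∨ Q < x → f M x x' = 0)
    (hlow : ∀ M x x', lower cY M * f (M + 1) x x' + lower Q x * f M (x + 1) x' +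
      lower Q x' * f M x (x' + 1) = 0) :
    (∑ M ∈ range (cY + 1), ∑ x ∈ range (Q + 1), ∑ x' ∈ range (Q + 1),
        gvec cY Q r q M x x' * f M x x') * Jc q (cY + Q - 2 * r) Q 0 q 0 =
      kappa q (cY + Q - 2 * r) Q *
        ∑ M ∈ range (cY + 1), ∑ x ∈ range (Q + 1), Jc r cY Q M x 0 * f M x q := by
  set c := cY + Q - 2 * r with hc
  let F : ℕ → ℕ → ℝ := fun Y x' =>
    ∑ M ∈ range (cY + 1), ∑ x ∈ range (Q + 1), Jc r cY Q M x Y * f M x x'
  set dotG := ∑ M ∈ range (cY + 1), ∑ x ∈ range (Q + 1), ∑ x' ∈ range (Q + 1),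
    gvec cY Q r q M x x' * f M x x' with hdot
  -- `F` is killed by lowering
  have hkill : ∀ Y x', lower c Y * F (Y + 1) x' + lower Q x' * F Y (x' + 1) = 0 := by
    intro Y x'
    have hshift : ∀ (n a : ℕ) (φ ψ : ℕ → ℝ), ψ (n + 1) = 0 →
        ∑ M ∈ range (n + 1), (if 0 < M then lower a (M - 1) * φ (M - 1) else 0) * ψ M =
          ∑ M ∈ range (n + 1), φ M * (lower a M * ψ (M + 1)) := by
      intro n a φ ψ hψ
      rw [Finset.sum_range_succ' _ n, Finset.sum_range_succ (n := n) (fun M => φ M * _), hψ]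
      simp only [lt_self_iff_false, if_false, zero_mul, add_zero, mul_zero, Nat.succ_pos,
        if_true, Nat.add_sub_cancel]
      exact Finset.sum_congr rfl fun M _ => by ring
    have e1 : lower c Y * F (Y + 1) x' = ∑ M ∈ range (cY + 1), ∑ x ∈ range (Q + 1),
        ((if 0 < M then lower cY (M - 1) * Jc r cY Q (M - 1) x Y else 0) * f M x x' +
          (if 0 < x then lower Q (x - 1) * Jc r cY Q M (x - 1) Y else 0) * f M x x') := by
      simp only [F, Finset.mul_sum, ← add_mul]
      exact Finset.sum_congr rfl fun M _ => Finset.sum_congr rfl fun x _ => by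
        rw [jc_raise hr1 hr2, mul_assoc]
    have e2 : ∑ M ∈ range (cY + 1), ∑ x ∈ range (Q + 1),
        (if 0 < M then lower cY (M - 1) * Jc r cY Q (M - 1) x Y else 0) * f M x x' =
        ∑ M ∈ range (cY + 1), ∑ x ∈ range (Q + 1),
          Jc r cY Q M x Y * (lower cY M * f (M + 1) x x') := by
      rw [Finset.sum_comm, Finset.sum_comm (s := range (cY + 1))]
      exact Finset.sum_congr rfl fun x _ => hshift cY cY (fun M => Jc r cY Q M x Y)
        (fun M => f M x x') (htop _ _ _ (Or.inl (Nat.lt_succ_self _)))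
    have e3 : ∀ M, ∑ x ∈ range (Q + 1),
        (if 0 < x then lower Q (x - 1) * Jc r cY Q M (x - 1) Y else 0) * f M x x' =
        ∑ x ∈ range (Q + 1), Jc r cY Q M x Y * (lower Q x * f M (x + 1) x') := fun M =>
      hshift Q Q (fun x => Jc r cY Q M x Y) (fun x => f M x x')
        (htop _ _ _ (Or.inr (Nat.lt_succ_self _)))
    simp only [e1, Finset.sum_add_distrib, e2, e3, F, Finset.mul_sum]
    rw [← Finset.sum_add_distrib, ← Finset.sum_add_distrib]
    refine Finset.sum_eq_zero fun M _ => ?_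
    rw [← Finset.sum_add_distrib, ← Finset.sum_add_distrib]
    refine Finset.sum_eq_zero fun x _ => ?_
    linear_combination Jc r cY Q M x Y * hlow M x x'
  -- the exchange as a pairing with `F`
  have hpair : dotG =
      ∑ Y ∈ range (c + 1), ∑ x' ∈ range (Q + 1), Jc q c Q Y x' 0 * F Y x' := by
    simp only [dotG, gvec_sum cY Q r q _ _ _ c hq1, ← hc, Finset.sum_mul, F, Finset.mul_sum]
    rw [Finset.sum_comm (s := range (c + 1))]
    conv_rhs => arg 2; ext x'; rw [Finset.sum_comm]; arg 2; ext M; rw [Finset.sum_comm]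
    rw [Finset.sum_comm_cycle]
    refine Finset.sum_congr rfl fun x' _ => Finset.sum_congr rfl fun M _ =>
      Finset.sum_congr rfl fun x _ => Finset.sum_congr rfl fun Y _ => by ring
  -- `F` is proportional to the bottom vector
  have hprop : ∀ Y, Y ≤ q → Jc q c Q 0 q 0 * F Y (q - Y) = Jc q c Q Y (q - Y) 0 * F 0 q := by
    intro Y
    induction Y with
    | zero => intro _; simp
    | succ Y ih =>
        intro hY
        have h1 := hkill Y (q - (Y + 1))
        have h2 := jc_lower_zero (a := c) (b := Q) hq1 hq2 Y (q - (Y + 1))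
        rw [show q - (Y + 1) + 1 = q - Y by omega] at h1 h2
        have hpos : lower c Y ≠ 0 := by
          refine (Real.sqrt_pos.2 (mul_pos (by positivity) ?_)).ne'
          have : (Y : ℝ) < c := by exact_mod_cast (by omega : Y < c)
          linarith
        refine mul_left_cancel₀ hpos ?_
        linear_combination Jc q c Q 0 q 0 * h1 - F 0 q * h2 -
          lower Q (q - (Y + 1)) * ih (by omega)
  have hmain : dotG * Jc q c Q 0 q 0 = kappa q c Q * F 0 q := by
    rw [hpair, ← (jc_orth (k := 0) (k' := 0) hq1 hq2 (Nat.zero_le _) (Nat.zero_le _)).trans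
      (if_pos rfl), Finset.sum_mul, Finset.sum_mul]
    refine Finset.sum_congr rfl fun Y _ => ?_
    rw [Finset.sum_mul, Finset.sum_mul]
    refine Finset.sum_congr rfl fun x' _ => ?_
    by_cases e : Y + x' = q
    · have := hprop Y (by omega)
      rw [show q - Y = x' by omega] at this
      linear_combination Jc q c Q Y x' 0 * this
    · rw [jc_eq_zero (k := 0) (by omega)]
      ring
  exact hmain

/-- Closed form of the exchange overlap. -/
theorem gExch_eq {cY Q r q r' q' : ℕ} (hm : r + q = r' + q') (hr1 : r ≤ cY) (hr2 : r ≤ Q)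
    (hq1 : q ≤ cY + Q - 2 * r) (hq2 : q ≤ Q) (hs1 : r' ≤ cY) (hs2 : r' ≤ Q)
    (ht1 : q' ≤ cY + Q - 2 * r') (ht2 : q' ≤ Q) :
    gExch cY Q r q r' q' = kappa q (cY + Q - 2 * r) Q * exSum (-1) cY Q r q r' q' := by
  set c := cY + Q - 2 * r with hc
  let f : ℕ → ℕ → ℕ → ℝ := fun M u v => gvec cY Q r' q' M v u
  let F : ℕ → ℕ → ℝ := fun Y x' =>
    ∑ M ∈ range (cY + 1), ∑ x ∈ range (Q + 1), Jc r cY Q M x Y * f M x x'
  have hmain : gExch cY Q r q r' q' * Jc q c Q 0 q 0 = kappa q c Q * F 0 q :=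
    gvec_dot hr1 hr2 hq1 hq2 f
      (fun M x x' h => gvec_eq_zero (by omega))
      (fun M x x' => by linear_combination gvec_lower hs1 hs2 ht1 ht2 M x' x)
  have hF : F 0 q = ∑ l ∈ range (r + 1), Jc r cY Q l (r - l) 0 *
      (if r ≤ q' + l then Jc q' (cY + Q - 2 * r') Q (q' + l - r) (r - l) 0 *
        Jc r' cY Q l q (q' + l - r) else 0) := by
    have hx : ∀ M, ∑ x ∈ range (Q + 1), Jc r cY Q M x 0 * f M x q =
        if M ≤ r then Jc r cY Q M (r - M) 0 * f M (r - M) q else 0 := by
      intro M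
      split_ifs with hM
      · refine Finset.sum_eq_single_of_mem _ (mem_range.2 (by omega)) fun x _ hne => ?_
        rw [jc_eq_zero (by omega), zero_mul]
      · exact Finset.sum_eq_zero fun x _ => by rw [jc_eq_zero (by omega), zero_mul]
    simp only [F, hx]
    rw [← Finset.sum_filter]
    refine Finset.sum_congr (by ext M; simp only [mem_filter, mem_range]; omega) fun l hl => ?_
    have hl' := mem_range.1 hl
    congr 1
    simp only [f]
    split_ifs with h
    · rw [gvec_sum _ _ _ _ _ _ _ q' le_rfl,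
        Finset.sum_eq_single_of_mem (q' + l - r) (mem_range.2 (by omega))]
      intro Y _ hne
      rw [jc_eq_zero (by omega), zero_mul]
    · rw [gvec_sum _ _ _ _ _ _ _ q' le_rfl]
      exact Finset.sum_eq_zero fun Y _ => by rw [jc_eq_zero (by omega), zero_mul]
  have hbot : Jc q c Q 0 q 0 = (-1) ^ q / Real.sqrt (Q.choose q) := by
    have := Jc_zero q c Q 0 (Nat.zero_le _)
    simpa using this
  have hsq : (0 : ℝ) < Real.sqrt (Q.choose q) :=
    Real.sqrt_pos.2 (by exact_mod_cast Nat.choose_pos hq2)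
  have hne : Jc q c Q 0 q 0 ≠ 0 := by
    rw [hbot]
    exact div_ne_zero (pow_ne_zero _ (by norm_num)) hsq.ne'
  refine mul_right_cancel₀ hne ?_
  rw [hmain, mul_assoc, hF]
  congr 1
  rw [exSum, Finset.sum_mul]
  refine Finset.sum_congr rfl fun l hl => ?_
  have hl' : l ≤ r := Nat.lt_succ_iff.1 (mem_range.1 hl)
  by_cases h : r ≤ q' + l
  · rw [if_pos h, Jc_zero r cY Q l hl',
      show r - l = q' - (q' + l - r) by omega, Jc_zero q' _ Q (q' + l - r) (by omega),
      show q' - (q' + l - r) = r - l by omega]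
    have hch : q'.choose (q' + l - r) = q'.choose (r - l) := by
      rw [show q' + l - r = q' - (r - l) by omega, Nat.choose_symm (by omega)]
    have hj : Jc r' cY Q l q (q' + l - r) =
        (∑ i ∈ range (min l r' + 1), if r' ≤ q + i then
          (-1) ^ (r' - i) * (r'.choose i : ℝ) * ((cY - r').choose (l - i) : ℝ) *
            ((Q - r').choose (q + i - r') : ℝ) / ((cY + Q - 2 * r').choose (q' + l - r) : ℝ)
          else 0) * Real.sqrt ((cY + Q - 2 * r').choose (q' + l - r)) /
          (Real.sqrt (cY.choose l) * Real.sqrt (Q.choose q)) := by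
      rw [Jc]
      congr 2
      unfold jcoef
      rw [← Finset.sum_subset (show range (min l r' + 1) ⊆ range (r' + 1) from
        range_subset_range.2 (by omega))]
      · refine Finset.sum_congr rfl fun i hi => ?_
        have := mem_range.1 hi
        by_cases hi' : r' ≤ q + i
        · rw [if_pos ⟨by omega, by omega, by omega⟩, if_pos hi',
            show q - (r' - i) = q + i - r' by omega]
        · rw [if_neg (fun hh => hi' (by omega)), if_neg hi']
      · intro i hi hi'
        rw [if_neg]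
        simp only [mem_range] at hi hi'
        omega
    rw [hj, hch, Finset.sum_mul, Finset.sum_mul]
    simp only [Finset.sum_div, Finset.mul_sum]
    refine Finset.sum_congr rfl fun i hi => ?_
    have hi' := mem_range.1 hi
    rw [exTerm, hbot]
    by_cases hh : r' ≤ q + i
    · rw [if_pos hh, if_pos ⟨h, hh⟩]
      have hsign : ((-1 : ℝ)) ^ (r' - i) = (-1) ^ (q + i - r') * (-1) ^ q := by
        rw [← pow_add]
        rcases Nat.even_or_odd (r' - i) with he | he
        · rw [he.neg_one_pow, Even.neg_one_pow]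
          obtain ⟨k, hk⟩ := he
          exact ⟨q - k, by omega⟩
        · rw [he.neg_one_pow, Odd.neg_one_pow]
          obtain ⟨k, hk⟩ := he
          exact ⟨q - k - 1, by omega⟩
      rw [hsign]
      have e1 := Real.mul_self_sqrt (Nat.cast_nonneg (α := ℝ) (cY.choose l))
      have e2 := Real.mul_self_sqrt (Nat.cast_nonneg (α := ℝ) (Q.choose (r - l)))
      have e4 : ((-1 : ℝ) ^ (r - l)) * (-1) ^ (r - l) = 1 := by
        rw [← pow_add, ← two_mul, pow_mul, neg_one_sq, one_pow]
      rcases eq_or_ne ((cY + Q - 2 * r').choose (q' + l - r)) 0 with hz | hz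
      · simp [hz]
      have hC : Real.sqrt ((cY + Q - 2 * r').choose (q' + l - r) : ℝ) ≠ 0 := by
        refine (Real.sqrt_pos.2 ?_).ne'
        exact_mod_cast Nat.pos_of_ne_zero hz
      field_simp
      ring_nf
      simp only [Real.sq_sqrt (Nat.cast_nonneg (α := ℝ) _), mul_comm (r - l) 2, pow_mul, neg_one_sq, one_pow, inv_pow, mul_one]
    · rw [if_neg hh, if_neg (fun hh' => hh hh'.2)]
      simp
  · rw [if_neg h, mul_zero, eq_comm]
    rw [Finset.sum_eq_zero fun i _ => ?_]
    · exact zero_mul _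
    · rw [exTerm, if_neg (fun hh => h hh.1)]

end Vale.Agent.P359.Gap
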