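import Vale.Agent.P359.Gap.CritDefs
import Vale.Agent.P359.Gap.Reduction

/-!
# P359, gap M6: the pair part on highest weight vectors

Contracting the two particles of a highest weight vector with the spin `Q-1` space gives a highest
weight vector of two impurities. This space is at most a line, spanned by the bottom column of
`Jc (m-1) (impChg Q) (impChg Q)`, so the pair energy is the overlap with `wvec`.
-/

open Finset

namespace Vale.Agent.P359.Gap

namespace PairBlock

variable {Q m : ℕ}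

/-- Contraction of the particles with the vector `Y` of the spin `Q-1` space. -/
noncomputable def contr (h : ℕ → Fin (Q + 1) → Fin (Q + 1) → ℝ) (M Y : ℕ) : ℝ :=
  ∑ a : Fin (Q + 1), ∑ b : Fin (Q + 1), Jc 1 Q Q a b Y * h M a b

/-- A three-factor vector on natural indices. -/
noncomputable def ext3 (h : ℕ → Fin (Q + 1) → Fin (Q + 1) → ℝ) (M x y : ℕ) : ℝ :=
  if hx : x < Q + 1 then if hy : y < Q + 1 then h M ⟨x, hx⟩ ⟨y, hy⟩ else 0 else 0

lemma ext3_eq (h : ℕ → Fin (Q + 1) → Fin (Q + 1) → ℝ) (M : ℕ) (x y : Fin (Q + 1)) :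
    ext3 h M x y = h M x y := by
  simp [ext3, Fin.is_le]

lemma contr_eq_range (h : ℕ → Fin (Q + 1) → Fin (Q + 1) → ℝ) (M Y : ℕ) :
    contr h M Y =
      ∑ a ∈ range (Q + 1), ∑ b ∈ range (Q + 1), Jc 1 Q Q a b Y * ext3 h M a b := by
  simp only [Finset.sum_range, ext3_eq, contr]

lemma ext3_hw {h : ℕ → Fin (Q + 1) → Fin (Q + 1) → ℝ} (hh : IsHW3 Q m h) {M x y : ℕ}
    (hM : M ≤ impChg Q) (hx : x < Q + 1) (hy : y < Q + 1) :
    lower (impChg Q) M * ext3 h (M + 1) x y + lower Q x * ext3 h M (x + 1) y +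
      lower Q y * ext3 h M x (y + 1) = 0 := by
  have e := hh.hw M ⟨x, hx⟩ ⟨y, hy⟩ hM
  simp only [ext3, dif_pos hx, dif_pos hy]
  simp only [mul_dite, mul_zero] at *
  exact e

/-- The contraction is killed by lowering. -/
lemma contr_low (hQ : 1 ≤ Q) {h : ℕ → Fin (Q + 1) → Fin (Q + 1) → ℝ} (hh : IsHW3 Q m h)
    {M : ℕ} (hM : M ≤ impChg Q) (Y : ℕ) :
    lower (impChg Q) M * contr h (M + 1) Y + lower (impChg Q) Y * contr h M (Y + 1) = 0 := by
  have e : lower (impChg Q) Y * contr h M (Y + 1) =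
      ∑ a ∈ range (Q + 1), ∑ b ∈ range (Q + 1),
        (lower Q a * ext3 h M (a + 1) b + lower Q b * ext3 h M a (b + 1)) * Jc 1 Q Q a b Y := by
    rw [← pair_adjoint Q Q (ext3 h M) (fun a b => Jc 1 Q Q a b Y), contr_eq_range, Finset.mul_sum]
    simp only [jc_raise hQ hQ, Red.impChg_eq, Finset.mul_sum]
    exact Finset.sum_congr rfl fun a _ => Finset.sum_congr rfl fun b _ => by ring
  rw [e, contr_eq_range, Finset.mul_sum, ← Finset.sum_add_distrib]
  refine Finset.sum_eq_zero fun a ha => ?_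
  rw [Finset.mul_sum, ← Finset.sum_add_distrib]
  refine Finset.sum_eq_zero fun b hb => ?_
  linear_combination Jc 1 Q Q a b Y * ext3_hw hh hM (Finset.mem_range.1 ha) (Finset.mem_range.1 hb)

lemma contr_deg {h : ℕ → Fin (Q + 1) → Fin (Q + 1) → ℝ} (hh : IsHW3 Q m h) {M Y : ℕ}
    (hne : M + Y + 1 ≠ m) : contr h M Y = 0 := by
  refine Finset.sum_eq_zero fun a _ => Finset.sum_eq_zero fun b _ => ?_
  by_cases h1 : (a : ℕ) + b = 1 + Y
  · rw [hh.deg M a b (by omega), mul_zero]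
  · rw [jc_eq_zero h1, zero_mul]

/-- A highest weight vector of two impurities is zero if its first entries are. -/
lemma eq_zero_of_first {q : ℕ → ℕ → ℝ}
    (hlow : ∀ M, M ≤ impChg Q → ∀ Y,
      lower (impChg Q) M * q (M + 1) Y + lower (impChg Q) Y * q M (Y + 1) = 0)
    (h0 : ∀ Y, q 0 Y = 0) : ∀ M, M ≤ impChg Q → ∀ Y, q M Y = 0 := by
  intro M
  induction M with
  | zero => exact fun _ => h0
  | succ M ih =>
    intro hM Y
    have h := hlow M (by omega) Y
    rw [ih (by omega) (Y + 1), mul_zero, add_zero] at h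
    exact (mul_eq_zero.1 h).resolve_left (lower_pos (by omega)).ne'

lemma wvec_range {D : ℕ} (hD : D + 1 = m) (hDc : D ≤ impChg Q) {M : ℕ} (x x' : ℕ) :
    wvec Q m M x x' = ∑ Y ∈ range (impChg Q + 1),
      Jc D (impChg Q) (impChg Q) M Y 0 * Jc 1 Q Q x x' Y := by
  unfold wvec
  rw [show m - 1 = D by omega]
  have h1 : ∀ Y, D < Y → Jc D (impChg Q) (impChg Q) M Y 0 * Jc 1 Q Q x x' Y = 0 := fun Y hY => by
    rw [jc_eq_zero (show M + Y ≠ D + 0 by omega), zero_mul]
  rw [← Finset.sum_subset (Finset.range_mono (show D + 1 ≤ m + 1 by omega))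
      (fun Y _ hY => h1 Y (by simpa using hY)),
    ← Finset.sum_subset (Finset.range_mono (show D + 1 ≤ impChg Q + 1 by omega))
      (fun Y _ hY => h1 Y (by simpa using hY))]

lemma pairs_eq_contr (hQ : 1 ≤ Q) (h : ℕ → Fin (Q + 1) → Fin (Q + 1) → ℝ) (M : ℕ) :
    ∑ S ∈ Icc 1 (2 * Q - 1), (∑ a, ∑ b, pairVec Q S a b * h M a b) ^ 2 / pairNormSq Q S =
      (∑ Y ∈ range (impChg Q + 1), contr h M Y ^ 2) / kappa 1 Q Q := by
  rw [Finset.sum_div, show Icc 1 (2 * Q - 1) = Ico 1 (2 * Q) by ext; simp; omega,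
    Finset.sum_Ico_eq_sum_range]
  refine Finset.sum_congr (by unfold impChg; congr 1; omega) fun k hk => ?_
  have hk' : k ≤ impChg Q := by simp [impChg] at hk ⊢; omega
  have hp : contr h M k = -(∑ a, ∑ b, pairVec Q (1 + k) a b * h M a b) /
      ((Q : ℝ) * Real.sqrt ((2 * Q - 2).choose k)) := by
    simp only [contr, Red.jc_one_eq hQ, add_comm 1 k, ← Finset.sum_neg_distrib, Finset.sum_div]
    exact Finset.sum_congr rfl fun a _ => Finset.sum_congr rfl fun b _ => by ring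
  rw [hp, add_comm 1 k, Red.pairNormSq_succ hQ hk', div_pow, neg_sq, mul_pow,
    Real.sq_sqrt (Nat.cast_nonneg _), div_div]

lemma wNorm_eq' (hQ : 1 ≤ Q) {D : ℕ} (hD : D + 1 = m) (hDc : D ≤ impChg Q) :
    wNorm Q m = kappa 1 Q Q * kappa D (impChg Q) (impChg Q) := by
  set c := impChg Q with hc
  have hsum : ∑ M ∈ range (c + 1), ∑ Y ∈ range (c + 1), Jc D c c M Y 0 * Jc D c c M Y 0 =
      kappa D c c := jc_norm_zero hDc hDc
  rw [← hsum, Finset.mul_sum]
  unfold wNorm
  refine Finset.sum_congr rfl fun M _ => ?_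
  simp only [wvec_range hD hDc, sq, Finset.sum_mul_sum]
  rw [Finset.sum_comm_cycle, Finset.mul_sum]
  refine Finset.sum_congr rfl fun Y hY => ?_
  rw [Finset.sum_comm_cycle]
  have hor : ∀ Y' ∈ range (c + 1), ∑ x ∈ range (Q + 1), ∑ x' ∈ range (Q + 1),
      Jc D c c M Y 0 * Jc 1 Q Q x x' Y * (Jc D c c M Y' 0 * Jc 1 Q Q x x' Y') =
      Jc D c c M Y 0 * Jc D c c M Y' 0 * (if Y = Y' then kappa 1 Q Q else 0) := by
    intro Y' hY'
    rw [Finset.mem_range] at hY hY'
    rw [← jc_orth (r := 1) (a := Q) (b := Q) (k := Y) (k' := Y') hQ hQ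
      (by rw [Red.impChg_eq]; omega) (by rw [Red.impChg_eq]; omega), Finset.mul_sum]
    refine Finset.sum_congr rfl fun x _ => ?_
    rw [Finset.mul_sum]
    exact Finset.sum_congr rfl fun x' _ => by ring
  rw [Finset.sum_congr rfl hor]
  simp only [mul_ite, mul_zero, Finset.sum_ite_eq, hY, if_true]
  ring

end PairBlock

/-- The squared norm of `wvec` in the valid range. -/
theorem wNorm_eq {Q m : ℕ} (hQ : 1 ≤ Q) (hm : 1 ≤ m) (hm' : m - 1 ≤ impChg Q) :
    wNorm Q m = kappa 1 Q Q * kappa (m - 1) (impChg Q) (impChg Q) :=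
  PairBlock.wNorm_eq' hQ (Nat.sub_add_cancel hm) hm'

open PairBlock in
/-- On a highest weight vector the pair part is the overlap with `wvec`. -/
theorem pairBlock_eq {Q m : ℕ} (hQ : 1 ≤ Q) {h : ℕ → Fin (Q + 1) → Fin (Q + 1) → ℝ}
    (hh : IsHW3 Q m h) :
    (∑ M ∈ range (impChg Q + 1), ∑ S ∈ Icc 1 (2 * Q - 1),
      (∑ a, ∑ b, pairVec Q S a b * h M a b) ^ 2 / pairNormSq Q S) =
    (∑ M ∈ range (impChg Q + 1), ∑ a : Fin (Q + 1), ∑ b : Fin (Q + 1),
      h M a b * wvec Q m M a b) ^ 2 / wNorm Q m := by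
  rw [Finset.sum_congr rfl fun M _ => pairs_eq_contr hQ h M, ← Finset.sum_div]
  have hov : (∑ M ∈ range (impChg Q + 1), ∑ a : Fin (Q + 1), ∑ b : Fin (Q + 1),
      h M a b * wvec Q m M a b) = ∑ M ∈ range (impChg Q + 1), ∑ Y ∈ range (m + 1),
        Jc (m - 1) (impChg Q) (impChg Q) M Y 0 * contr h M Y := by
    refine Finset.sum_congr rfl fun M _ => ?_
    simp only [wvec, contr, Finset.mul_sum]
    rw [Finset.sum_comm_cycle]
    exact Finset.sum_congr rfl fun Y _ => Finset.sum_congr rfl fun a _ =>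
      Finset.sum_congr rfl fun b _ => by ring
  rw [hov]
  by_cases hz : ∀ Y, contr h 0 Y = 0
  · have h0 := eq_zero_of_first (q := contr h) (fun M hM Y => contr_low hQ hh hM Y) hz
    rw [Finset.sum_eq_zero fun M hM => Finset.sum_eq_zero fun Y _ => by
        rw [h0 M (Nat.lt_succ_iff.1 (Finset.mem_range.1 hM)) Y, sq, mul_zero],
      Finset.sum_eq_zero fun M hM => Finset.sum_eq_zero fun Y _ => by
        rw [h0 M (Nat.lt_succ_iff.1 (Finset.mem_range.1 hM)) Y, mul_zero]]
    simp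
  push Not at hz
  obtain ⟨D, hDne⟩ := hz
  have hD : D + 1 = m := by
    by_contra hne
    exact hDne (contr_deg hh (by omega))
  have hDc : D ≤ impChg Q := by
    by_contra hlt
    refine hDne (Finset.sum_eq_zero fun a _ => Finset.sum_eq_zero fun b _ => ?_)
    rw [jc_eq_zero_out (by rw [Red.impChg_eq]; omega), zero_mul]
  set c := impChg Q with hc
  have hw0 : Jc D c c 0 D 0 ≠ 0 := by
    rw [jc_eq, if_pos (by omega)]
    have hb := fco_bottom D c c (Nat.zero_le D)
    rw [Nat.sub_zero] at hb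
    rw [hb]
    refine div_ne_zero ?_ (mul_ne_zero (sqc_pos (Nat.zero_le _)).ne'
      (mul_ne_zero (sqc_pos (Nat.zero_le _)).ne' (sqc_pos hDc).ne'))
    simp [sbin]
  set l := contr h 0 D / Jc D c c 0 D 0 with hl
  have hp : ∀ M, M ≤ c → ∀ Y, contr h M Y = l * Jc D c c M Y 0 := by
    intro M hM Y
    refine sub_eq_zero.1 (eq_zero_of_first (q := fun M Y => contr h M Y - l * Jc D c c M Y 0)
      (fun M hM Y => ?_) (fun Y => ?_) M hM Y)
    · linear_combination contr_low hQ hh hM Y - l * jc_lower_zero hDc hDc M Y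
    · by_cases hY : Y = D
      · subst hY
        rw [hl, div_mul_cancel₀ _ hw0, sub_self]
      · rw [contr_deg hh (show 0 + Y + 1 ≠ m by omega),
          jc_eq_zero (show 0 + Y ≠ D + 0 by omega)]
        simp
  have hsum : ∑ M ∈ range (c + 1), ∑ Y ∈ range (c + 1), Jc D c c M Y 0 * Jc D c c M Y 0 =
      kappa D c c := jc_norm_zero hDc hDc
  have e1 : ∑ M ∈ range (c + 1), ∑ Y ∈ range (c + 1), contr h M Y ^ 2 = l ^ 2 * kappa D c c := by
    rw [← hsum, Finset.mul_sum]
    refine Finset.sum_congr rfl fun M hM => ?_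
    rw [Finset.mul_sum]
    exact Finset.sum_congr rfl fun Y _ => by
      rw [hp M (Nat.lt_succ_iff.1 (Finset.mem_range.1 hM)) Y]; ring
  have e2 : ∑ M ∈ range (c + 1), ∑ Y ∈ range (m + 1), Jc (m - 1) c c M Y 0 * contr h M Y =
      l * kappa D c c := by
    rw [← hsum, Finset.mul_sum, show m - 1 = D by omega]
    refine Finset.sum_congr rfl fun M hM => ?_
    have h1 : ∀ Y, D < Y → Jc D c c M Y 0 = 0 := fun Y hY =>
      jc_eq_zero (show M + Y ≠ D + 0 by omega)
    rw [← Finset.sum_subset (Finset.range_mono (show D + 1 ≤ m + 1 by omega))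
        (fun Y _ hY => by rw [h1 Y (by simpa using hY), zero_mul]),
      ← Finset.sum_subset (Finset.range_mono (show D + 1 ≤ c + 1 by omega))
        (fun Y _ hY => by rw [h1 Y (by simpa using hY), zero_mul]), Finset.mul_sum]
    exact Finset.sum_congr rfl fun Y _ => by
      rw [hp M (Nat.lt_succ_iff.1 (Finset.mem_range.1 hM)) Y]; ring
  rw [e1, e2, PairBlock.wNorm_eq' hQ hD hDc, ← hc]
  have : kappa D c c ≠ 0 := (kappa_pos hDc hDc).ne'
  have : kappa 1 Q Q ≠ 0 := (kappa_pos hQ hQ).ne'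
  field_simp

end Vale.Agent.P359.Gap
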