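import Vale.Agent.P359.Poly

/-!
# P359, gap: the Laughlin vector is nonzero

So `inner' L ψ ^ 2 / inner' L L` in the gap inequality is the expectation of the projection onto
the line of `L`.
-/

open Finset MvPolynomial
open scoped Classical

namespace Vale.Agent.P359.Gap

/-- Some coefficient of the Laughlin polynomial sits at a configuration of `3(N-1)` flux. -/
theorem exists_laughlin_ne_zero (N : ℕ) : ∃ c, laughlin N c ≠ 0 := by
  obtain ⟨m, hm⟩ := exists_coeff_ne_zero (shifted_ne_zero (n := N))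
  have h2 : ∀ i, 2 ≤ m i := two_le_of_coeff hm
  have h3 : ∀ i, m i + 1 ≤ 3 * N := coeff_le hm
  let two : Fin N →₀ ℕ := Finsupp.equivFunOnFinite.symm fun _ => 2
  have hs : shifted N = monomial two 1 *
      ∏ i : Fin N, ∏ j ∈ Finset.Ioi i, (X j - X i) ^ 3 := by
    rw [shifted, monomial_eq, C_1, one_mul, Finsupp.prod_fintype _ _ (fun _ => pow_zero _)]
    rfl
  rw [hs, coeff_monomial_mul', if_pos (show two ≤ m from fun i => h2 i), one_mul] at hm
  let c : Config N (3 * (N - 1)) := fun i =>
    ⟨m i - 2, by have := h2 i; have := h3 i; omega⟩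
  refine ⟨c, div_ne_zero ?_ ?_⟩
  · convert hm using 2
    ext i
    simp [c, two]
  · exact Finset.prod_ne_zero_iff.2 fun i _ =>
      (Real.sqrt_pos.2 (Nat.cast_pos.2 (Nat.choose_pos (Nat.lt_succ_iff.1 (c i).isLt)))).ne'

/-- The Laughlin vector has positive norm. -/
theorem inner_laughlin_pos (N : ℕ) : 0 < inner' (laughlin N) (laughlin N) := by
  obtain ⟨c, hc⟩ := exists_laughlin_ne_zero N
  exact Finset.sum_pos' (fun d _ => mul_self_nonneg _) ⟨c, mem_univ _, mul_self_pos.2 hc⟩

end Vale.Agent.P359.Gap
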