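import Vale.Agent.P359.Gap.OverlapExact
import Vale.Agent.P359.Gap.Planar

/-!
# P359, gap: planar limits and uniform decay of the exchange overlaps
-/

open Finset Filter Topology

namespace Vale.Agent.P359.Gap

namespace Planar

/-- `G` with all terms taken positively. -/
def Ga (r q r' q' : ℕ) : ℚ :=
  if r + q = r' + q' then
    (r'.factorial : ℚ) * (q'.factorial : ℚ) *
      ∑ i ∈ range (min r r' + 1),
        if r' ≤ q + i then
          (r.choose i : ℚ) * (q.choose (r' - i) : ℚ) * (1 / 2) ^ i *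
            (4 / 3) ^ (r + r' - 2 * i) * (4 / 9) ^ (q + i - r')
        else 0
  else 0

/-- Bound on the squared normalised exchange overlap. -/
def exB (r q r' q' : ℕ) : ℚ :=
  Ga r q r' q' * Ga r' q' r q / (N r q * N r' q')

theorem N_pos (r q : ℕ) : 0 < N r q := by
  unfold N
  positivity

theorem Ga_nonneg (r q r' q' : ℕ) : 0 ≤ Ga r q r' q' := by
  unfold Ga
  split_ifs
  · refine mul_nonneg (by positivity) (Finset.sum_nonneg fun i _ => ?_)
    split_ifs
    · positivity
    · exact le_rfl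
  · exact le_rfl

theorem exB_nonneg (r q r' q' : ℕ) : 0 ≤ exB r q r' q' :=
  div_nonneg (mul_nonneg (Ga_nonneg ..) (Ga_nonneg ..)) (mul_pos (N_pos ..) (N_pos ..)).le

theorem choose_succ_le {q k : ℕ} (h : 3 * k ≤ q + 1) :
    ((q + 1).choose k : ℚ) ≤ 3 / 2 * (q.choose k : ℚ) := by
  rcases k with _ | k
  · norm_num
  have h1 : (((q + 1).choose (k + 1) : ℕ) : ℚ) * ((q : ℚ) - k) =
      ((q + 1 : ℕ) : ℚ) * (q.choose (k + 1) : ℚ) := by
    have h2 := Nat.choose_succ_right_eq q k
    rw [Nat.choose_succ_succ' q k]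
    have h3 : ((q.choose (k + 1) * (k + 1) : ℕ) : ℚ) = ((q.choose k * (q - k) : ℕ) : ℚ) := by
      exact_mod_cast h2
    push_cast [Nat.cast_sub (show k ≤ q by omega)] at h3 ⊢
    linear_combination -h3
  have h4 : 3 * ((k : ℚ) + 1) ≤ (q : ℚ) + 1 := by exact_mod_cast h
  have h5 : (0 : ℚ) ≤ (q.choose (k + 1) : ℚ) := Nat.cast_nonneg _
  push_cast at h1
  nlinarith

theorem Ga_succ_le {r q r' q' : ℕ} (h : 3 * r' ≤ q + 1) :
    Ga r (q + 1) r' (q' + 1) ≤ ((q' : ℚ) + 1) * (2 / 3) * Ga r q r' q' := by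
  unfold Ga
  by_cases hm : r + q = r' + q'
  · rw [if_pos (by omega), if_pos hm, Nat.factorial_succ, Finset.mul_sum, Finset.mul_sum,
      Finset.mul_sum]
    refine Finset.sum_le_sum fun i _ => ?_
    rw [if_pos (show r' ≤ q + 1 + i by omega)]
    by_cases h2 : r' ≤ q + i
    · rw [if_pos h2, show q + 1 + i - r' = q + i - r' + 1 by omega, pow_succ]
      have hc := choose_succ_le (q := q) (k := r' - i) (by omega)
      have hp : 0 ≤ ((r.choose i : ℚ) * (1 / 2) ^ i * (4 / 3) ^ (r + r' - 2 * i) *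
          (4 / 9) ^ (q + i - r') * (r'.factorial : ℚ) * (q'.factorial : ℚ) * ((q' : ℚ) + 1)) := by
        positivity
      push_cast
      nlinarith [mul_le_mul_of_nonneg_left hc hp]
    · omega
  · rw [if_neg (by omega), if_neg hm, mul_zero]

/-- Geometric decay of the bound. -/
theorem exB_succ_le {r q r' q' : ℕ} (h : 3 * r ≤ q' + 1) (h' : 3 * r' ≤ q + 1) :
    exB r (q + 1) r' (q' + 1) ≤ exB r q r' q' / 4 := by
  have hN : ∀ a b : ℕ, N a (b + 1) = N a b * (((b : ℚ) + 1) * (4 / 3)) := by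
    intro a b
    simp only [N, Nat.factorial_succ, pow_succ]
    push_cast
    ring
  have h1 := Ga_succ_le (r := r) (q' := q') h'
  have h2 := Ga_succ_le (r := r') (q := q') (r' := r) (q' := q) h
  have g1 := Ga_nonneg r (q + 1) r' (q' + 1)
  have g2 := Ga_nonneg r' (q' + 1) r (q + 1)
  have n1 := N_pos r q
  have n2 := N_pos r' q'
  simp only [exB, hN]
  rw [div_div, div_le_div_iff₀ (by positivity) (by positivity)]
  have hprod := mul_le_mul h1 h2 g2 (le_trans g1 h1)
  have hp : 0 ≤ N r q * N r' q' * 4 := by positivity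
  nlinarith [mul_le_mul_of_nonneg_right hprod hp]

end Planar

/-- The limit of one term of the exchange sum times `Q ^ r`. -/
noncomputable def exLim (s : ℝ) (r q r' q' l i : ℕ) : ℝ :=
  if r ≤ q' + l ∧ r' ≤ q + i then
    s ^ (q + i - r') * ((r.choose l : ℝ) * (r'.choose i : ℝ) * (q'.choose (r - l) : ℝ)) *
      (((2 : ℝ) ^ (l - i) / (l - i).factorial * (1 / (q + i - r').factorial)) /
        ((2 : ℝ) ^ l / l.factorial * (1 / (r - l).factorial) *
          ((3 : ℝ) ^ (q' + l - r) / (q' + l - r).factorial)))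
  else 0

/-- `G` with sign marker `s`. -/
noncomputable def Gs (s : ℝ) (r q r' q' : ℕ) : ℝ :=
  (r'.factorial : ℝ) * (q'.factorial : ℝ) *
    ∑ i ∈ range (min r r' + 1),
      if r' ≤ q + i then
        (r.choose i : ℝ) * (q.choose (r' - i) : ℝ) * (1 / 2) ^ i *
          (4 / 3) ^ (r + r' - 2 * i) * (s * (4 / 9)) ^ (q + i - r')
      else 0

theorem Gs_neg_one {r q r' q' : ℕ} (hm : r + q = r' + q') :
    Gs (-1) r q r' q' = ((Planar.G r q r' q' : ℚ) : ℝ) := by
  simp only [Gs, Planar.G, if_pos hm]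
  push_cast
  congr 1
  refine Finset.sum_congr rfl fun i _ => ?_
  split_ifs <;> push_cast <;> norm_num

theorem Gs_one {r q r' q' : ℕ} (hm : r + q = r' + q') :
    Gs 1 r q r' q' = ((Planar.Ga r q r' q' : ℚ) : ℝ) := by
  simp only [Gs, Planar.Ga, if_pos hm]
  push_cast
  congr 1
  refine Finset.sum_congr rfl fun i _ => ?_
  split_ifs <;> push_cast <;> simp

/-- The double sum of limits is the planar single sum. -/
theorem exLim_sum (s : ℝ) {r q r' q' : ℕ} (hm : r + q = r' + q') :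
    (q.factorial : ℝ) * (4 / 3) ^ q *
        ∑ l ∈ range (r + 1), ∑ i ∈ range (min l r' + 1), exLim s r q r' q' l i =
      Gs s r q r' q' := by
  rw [Finset.sum_comm' (s' := fun i => Icc i r) (t' := range (min r r' + 1))
    (fun l i => by simp only [mem_range, mem_Icc]; omega), Gs, Finset.mul_sum, Finset.mul_sum]
  refine Finset.sum_congr rfl fun i hi => ?_
  have hi' := mem_range.1 hi
  by_cases h : r' ≤ q + i
  · rw [if_pos h]
    have hterm : ∀ l ∈ Icc i r, exLim s r q r' q' l i =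
        s ^ (q + i - r') * ((r'.choose i : ℝ) * (r.choose i : ℝ) * (i.factorial : ℝ) *
          (q'.factorial : ℝ) / ((q + i - r').factorial : ℝ) * (1 / 2) ^ i *
            (1 / 3) ^ (q + i - r')) * (((r - i).choose (l - i) : ℝ) * (1 / 3) ^ (l - i)) := by
      intro l hl
      rw [mem_Icc] at hl
      rw [exLim, if_pos ⟨by omega, h⟩]
      have e1 : (r.choose l : ℝ) * (l.choose i : ℝ) = (r.choose i : ℝ) * ((r - i).choose (l - i) : ℝ) := by
        exact_mod_cast Nat.choose_mul hl.1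
      have e2 : (l.choose i : ℝ) * (i.factorial : ℝ) * ((l - i).factorial : ℝ) = (l.factorial : ℝ) := by
        exact_mod_cast Nat.choose_mul_factorial_mul_factorial hl.1
      have e3 : (q'.choose (r - l) : ℝ) * ((r - l).factorial : ℝ) * ((q' + l - r).factorial : ℝ) =
          (q'.factorial : ℝ) := by
        have h5 := Nat.choose_mul_factorial_mul_factorial (show r - l ≤ q' by omega)
        rw [show q' - (r - l) = q' + l - r by omega] at h5
        exact_mod_cast h5
      rw [show q' + l - r = (q + i - r') + (l - i) by omega] at e3 ⊢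
      have e4 : (2 : ℝ) ^ (l - i) * 2 ^ i = 2 ^ l := by
        rw [← pow_add]
        congr 1
        omega
      have f0 : ∀ k : ℕ, (k.factorial : ℝ) ≠ 0 := fun k => by exact_mod_cast k.factorial_ne_zero
      rw [← e3, ← e2, ← e4, pow_add (3 : ℝ)]
      simp only [div_pow, one_pow]
      field_simp [f0]
      linear_combination s ^ (q + i - r') * (r'.choose i : ℝ) * (q'.choose (r - l) : ℝ) * e1
    rw [Finset.sum_congr rfl hterm, ← Finset.mul_sum]
    have hbin : ∑ l ∈ Icc i r, ((r - i).choose (l - i) : ℝ) * (1 / 3) ^ (l - i) =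
        (4 / 3 : ℝ) ^ (r - i) := by
      rw [show (4 / 3 : ℝ) = 1 / 3 + 1 by norm_num, add_pow, ← Finset.Ico_succ_right_eq_Icc,
        Finset.sum_Ico_eq_sum_range]
      refine Finset.sum_congr (by rw [Order.succ_eq_add_one]; congr 1; omega) fun k _ => ?_
      rw [Nat.add_sub_cancel_left]
      ring
    rw [hbin]
    have e5 : (r'.choose i : ℝ) * (i.factorial : ℝ) * ((r' - i).factorial : ℝ) = (r'.factorial : ℝ) := by
      exact_mod_cast Nat.choose_mul_factorial_mul_factorial (show i ≤ r' by omega)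
    have e6 : (q.choose (r' - i) : ℝ) * ((r' - i).factorial : ℝ) * ((q + i - r').factorial : ℝ) =
        (q.factorial : ℝ) := by
      have h5 := Nat.choose_mul_factorial_mul_factorial (show r' - i ≤ q by omega)
      rw [show q - (r' - i) = q + i - r' by omega] at h5
      exact_mod_cast h5
    have e7 : (4 / 3 : ℝ) ^ q * (4 / 3) ^ (r - i) * (1 / 3) ^ (q + i - r') =
        (4 / 3) ^ (r + r' - 2 * i) * (4 / 9) ^ (q + i - r') := by
      rw [← pow_add, show q + (r - i) = (r + r' - 2 * i) + (q + i - r') by omega, pow_add, mul_assoc,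
        ← mul_pow]
      norm_num
    have f0 : ((q + i - r').factorial : ℝ) ≠ 0 := by
      exact_mod_cast (q + i - r').factorial_ne_zero
    rw [mul_pow, ← e5, ← e6]
    field_simp
    linear_combination (q.choose (r' - i) : ℝ) * s ^ (q + i - r') * (r'.choose i : ℝ) *
      (r.choose i : ℝ) * e7
  · rw [if_neg h, mul_zero,
      Finset.sum_eq_zero fun l _ => by rw [exLim, if_neg (fun hh => h hh.2)], mul_zero]

theorem tendsto_div_nat (k : ℝ) : Tendsto (fun Q : ℕ => k / (Q : ℝ)) atTop (𝓝 0) :=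
  tendsto_const_div_atTop_nhds_zero_nat k

theorem tendsto_sub_const {A : ℕ → ℕ} {α : ℝ}
    (hA : Tendsto (fun Q => (A Q : ℝ) / Q) atTop (𝓝 α)) (k : ℕ) :
    Tendsto (fun Q => ((A Q - k : ℕ) : ℝ) / Q) atTop (𝓝 α) := by
  have h1 : Tendsto (fun Q => (A Q : ℝ) / Q - (k : ℝ) / Q) atTop (𝓝 α) := by
    simpa using hA.sub (tendsto_div_nat (k : ℝ))
  refine tendsto_of_tendsto_of_tendsto_of_le_of_le h1 hA (fun Q => ?_) (fun Q => ?_)
  · simp only [← sub_div]
    refine div_le_div_of_nonneg_right ?_ (Nat.cast_nonneg _)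
    have : ((A Q : ℕ) : ℝ) ≤ ((A Q - k + k : ℕ) : ℝ) := by exact_mod_cast (by omega : A Q ≤ A Q - k + k)
    push_cast at this
    linarith
  · exact div_le_div_of_nonneg_right (Nat.cast_le.2 (Nat.sub_le _ _)) (Nat.cast_nonneg _)

theorem tendsto_choose {A : ℕ → ℕ} {α : ℝ} (hA : Tendsto (fun Q => (A Q : ℝ) / Q) atTop (𝓝 α))
    (k : ℕ) : Tendsto (fun Q => ((A Q).choose k : ℝ) / (Q : ℝ) ^ k) atTop
      (𝓝 (α ^ k / (k.factorial : ℝ))) := by
  induction k with
  | zero => simp
  | succ k ih =>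
      have h1 := (ih.mul (hA.sub (tendsto_div_nat (k : ℝ)))).div_const ((k : ℝ) + 1)
      have e : α ^ k / (k.factorial : ℝ) * (α - 0) / ((k : ℝ) + 1) =
          α ^ (k + 1) / ((k + 1).factorial : ℝ) := by
        rw [Nat.factorial_succ]
        push_cast
        have : (k.factorial : ℝ) ≠ 0 := by exact_mod_cast k.factorial_ne_zero
        field_simp
        ring
      rw [← e]
      refine h1.congr' ?_
      filter_upwards [eventually_gt_atTop 0] with Q hQ
      have hQ' : (Q : ℝ) ≠ 0 := by exact_mod_cast hQ.ne'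
      have hk : ((k : ℝ) + 1) * ((A Q).choose (k + 1) : ℝ) =
          ((A Q : ℝ) - k) * ((A Q).choose k : ℝ) := by
        have h := Nat.choose_succ_right_eq (A Q) k
        rcases le_or_gt k (A Q) with hs | hs
        · have h' : (((A Q).choose (k + 1) * (k + 1) : ℕ) : ℝ) =
              (((A Q).choose k * (A Q - k) : ℕ) : ℝ) := by exact_mod_cast h
          push_cast [Nat.cast_sub hs] at h'
          linarith
        · rw [Nat.choose_eq_zero_of_lt hs, Nat.choose_eq_zero_of_lt (by omega)]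
          simp
      field_simp
      linear_combination (-(Q : ℝ) * (Q : ℝ) ^ k) * hk

theorem tendsto_self : Tendsto (fun Q : ℕ => (Q : ℝ) / Q) atTop (𝓝 1) :=
  tendsto_const_nhds.congr' (by
    filter_upwards [eventually_gt_atTop 0] with Q hQ
    rw [div_self (by exact_mod_cast hQ.ne')])

/-- The charge `2Q-2+2n` grows like `2Q`. -/
theorem tendsto_charge (n : ℤ) :
    Tendsto (fun Q : ℕ => (((2 * (Q : ℤ) - 2 + 2 * n).toNat : ℕ) : ℝ) / Q) atTop (𝓝 2) := by
  have h : Tendsto (fun Q : ℕ => (2 : ℝ) + (2 * (n : ℝ) - 2) / Q) atTop (𝓝 2) := by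
    simpa using tendsto_const_nhds.add (tendsto_div_nat (2 * (n : ℝ) - 2))
  refine h.congr' ?_
  filter_upwards [eventually_gt_atTop (n.natAbs + 1)] with Q hQ
  have e : (((2 * (Q : ℤ) - 2 + 2 * n).toNat : ℕ) : ℤ) = 2 * (Q : ℤ) - 2 + 2 * n :=
    Int.toNat_of_nonneg (by omega)
  have e' : (((2 * (Q : ℤ) - 2 + 2 * n).toNat : ℕ) : ℝ) = 2 * (Q : ℝ) - 2 + 2 * (n : ℝ) := by
    exact_mod_cast e
  rw [e']
  have hQ' : (Q : ℝ) ≠ 0 := by exact_mod_cast (by omega : Q ≠ 0)
  field_simp
  ring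

theorem tendsto_impChg : Tendsto (fun Q : ℕ => (impChg Q : ℝ) / Q) atTop (𝓝 2) := by
  refine tendsto_sub_const (A := fun Q => 2 * Q) ?_ 2
  simpa [mul_div_assoc] using tendsto_self.const_mul (2 : ℝ)

theorem tendsto_add_self {A : ℕ → ℕ} {α : ℝ}
    (hA : Tendsto (fun Q => (A Q : ℝ) / Q) atTop (𝓝 α)) (k : ℕ) :
    Tendsto (fun Q => ((A Q + Q - k : ℕ) : ℝ) / Q) atTop (𝓝 (α + 1)) := by
  refine tendsto_sub_const (A := fun Q => A Q + Q) ?_ k
  simpa [add_div] using hA.add tendsto_self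

/-- Limit of `kappa`. -/
theorem tendsto_kappa {A : ℕ → ℕ} {α : ℝ} (hA : Tendsto (fun Q => (A Q : ℝ) / Q) atTop (𝓝 α))
    (hα : 0 < α) (r : ℕ) :
    Tendsto (fun Q => kappa r (A Q) Q * (Q : ℝ) ^ r) atTop
      (𝓝 ((r.factorial : ℝ) * ((α + 1) / α) ^ r)) := by
  have hB : Tendsto (fun Q => ((A Q + Q - r + 1 : ℕ) : ℝ) / Q) atTop (𝓝 (α + 1)) := by
    have h := (tendsto_add_self hA r).add (tendsto_div_nat 1)
    rw [add_zero] at h
    refine h.congr fun Q => ?_
    push_cast
    ring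
  have h := (tendsto_choose hB r).div ((tendsto_choose hA r).mul (tendsto_choose tendsto_self r))
    (by positivity)
  have e : (α + 1) ^ r / (r.factorial : ℝ) / (α ^ r / (r.factorial : ℝ) * (1 ^ r / (r.factorial : ℝ))) =
      (r.factorial : ℝ) * ((α + 1) / α) ^ r := by
    have : (r.factorial : ℝ) ≠ 0 := by exact_mod_cast r.factorial_ne_zero
    rw [one_pow, div_pow]
    field_simp
  rw [← e]
  refine h.congr' ?_
  filter_upwards [eventually_gt_atTop 0] with Q hQ
  have hQ' : (Q : ℝ) ≠ 0 := by exact_mod_cast hQ.ne'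
  simp only [kappa, Pi.div_apply]
  field_simp

theorem eventually_le_of_tendsto {f : ℕ → ℕ} {α : ℝ}
    (hf : Tendsto (fun Q => (f Q : ℝ) / Q) atTop (𝓝 α)) (hα : 0 < α) (k : ℕ) :
    ∀ᶠ Q in atTop, k ≤ f Q := by
  filter_upwards [hf.eventually_const_lt (half_lt_self hα), eventually_gt_atTop 0,
    (tendsto_div_nat (k : ℝ)).eventually_lt_const (half_pos hα)] with Q h1 hQ h2
  have hQ' : (0 : ℝ) < Q := by exact_mod_cast hQ
  have : (k : ℝ) < f Q := (div_lt_div_iff_of_pos_right hQ').1 (h2.trans h1)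
  exact_mod_cast this.le

/-- Limit of the norms. -/
theorem tendsto_gInner {cY : ℕ → ℕ} (hcY : Tendsto (fun Q => (cY Q : ℝ) / Q) atTop (𝓝 2))
    (r q : ℕ) :
    Tendsto (fun Q => gInner (cY Q) Q r q r q * (Q : ℝ) ^ (r + q)) atTop
      (𝓝 ((Planar.N r q : ℚ) : ℝ)) := by
  have h3 : Tendsto (fun Q => ((cY Q + Q - 2 * r : ℕ) : ℝ) / Q) atTop (𝓝 3) := by
    have h := tendsto_add_self hcY (2 * r)
    norm_num at h
    exact h
  have h := (tendsto_kappa hcY (by norm_num) r).mul (tendsto_kappa h3 (by norm_num) q)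
  have e : ((r.factorial : ℝ) * ((2 + 1) / 2) ^ r) * ((q.factorial : ℝ) * ((3 + 1) / 3) ^ q) =
      ((Planar.N r q : ℚ) : ℝ) := by
    simp only [Planar.N]
    push_cast
    ring
  rw [← e]
  refine h.congr' ?_
  filter_upwards [eventually_le_of_tendsto hcY (by norm_num) r, eventually_ge_atTop (r + q),
    eventually_le_of_tendsto h3 (by norm_num) q] with Q h1 h2 h4
  rw [gInner_self h1 (by omega) h4 (by omega), pow_add]
  ring

theorem scale_alg {K a b c e g A B C D E R : ℝ} (hA : A ≠ 0) (hB : B ≠ 0)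
    (h : R * (A * B) = C * D * E) :
    K * (a / A * (b / B) / (c / C * (e / D) * (g / E))) = K * (a * b / (c * e * g)) * R := by
  rw [div_mul_div_comm, div_mul_div_comm, div_mul_div_comm, div_div_div_eq, ← h]
  field_simp

/-- Limit of the exchange sum. -/
theorem tendsto_exSum (s : ℝ) {cY : ℕ → ℕ}
    (hcY : Tendsto (fun Q => (cY Q : ℝ) / Q) atTop (𝓝 2)) {r q r' q' : ℕ}
    (hm : r + q = r' + q') :
    Tendsto (fun Q => exSum s (cY Q) Q r q r' q' * (Q : ℝ) ^ r) atTop
      (𝓝 (∑ l ∈ range (r + 1), ∑ i ∈ range (min l r' + 1), exLim s r q r' q' l i)) := by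
  simp only [exSum, Finset.sum_mul]
  refine tendsto_finsetSum _ fun l hl => tendsto_finsetSum _ fun i hi => ?_
  simp only [mem_range] at hl hi
  by_cases h : r ≤ q' + l ∧ r' ≤ q + i
  · simp only [exTerm, exLim, if_pos h]
    have h3 : Tendsto (fun Q => ((cY Q + Q - 2 * r' : ℕ) : ℝ) / Q) atTop (𝓝 3) := by
      have h' := tendsto_add_self hcY (2 * r')
      norm_num at h'
      exact h'
    have hden := ((tendsto_choose hcY l).mul (tendsto_choose tendsto_self (r - l))).mul
      (tendsto_choose h3 (q' + l - r))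
    have hlim := ((tendsto_choose (tendsto_sub_const hcY r') (l - i)).mul
      (tendsto_choose (tendsto_sub_const tendsto_self r') (q + i - r'))).div hden (by positivity)
    have hh := hlim.const_mul
      (s ^ (q + i - r') * ((r.choose l : ℝ) * (r'.choose i : ℝ) * (q'.choose (r - l) : ℝ)))
    simp only [one_pow] at hh
    refine hh.congr' ?_
    filter_upwards [eventually_gt_atTop 0] with Q hQ
    have hQ' : (Q : ℝ) ≠ 0 := by exact_mod_cast hQ.ne'
    have e : (Q : ℝ) ^ r * ((Q : ℝ) ^ (l - i) * (Q : ℝ) ^ (q + i - r')) =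
        (Q : ℝ) ^ l * (Q : ℝ) ^ (r - l) * (Q : ℝ) ^ (q' + l - r) := by
      simp only [← pow_add]
      congr 1
      omega
    simp only [Pi.div_apply]
    exact scale_alg (pow_ne_zero _ hQ') (pow_ne_zero _ hQ') e
  · simp only [exTerm, exLim, if_neg h, zero_mul]
    exact tendsto_const_nhds

/-- Limit of the exchange overlap. -/
theorem tendsto_gExch {cY : ℕ → ℕ} (hcY : Tendsto (fun Q => (cY Q : ℝ) / Q) atTop (𝓝 2))
    (r q r' q' : ℕ) :
    Tendsto (fun Q => gExch (cY Q) Q r q r' q' * (Q : ℝ) ^ (r + q)) atTop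
      (𝓝 ((Planar.G r q r' q' : ℚ) : ℝ)) := by
  by_cases hm : r + q = r' + q'
  · have h3 : ∀ k : ℕ, Tendsto (fun Q => ((cY Q + Q - 2 * k : ℕ) : ℝ) / Q) atTop (𝓝 3) := by
      intro k
      have h := tendsto_add_self hcY (2 * k)
      norm_num at h
      exact h
    have h := (tendsto_kappa (h3 r) (by norm_num) q).mul (tendsto_exSum (-1) hcY hm)
    have e : (q.factorial : ℝ) * ((3 + 1) / 3) ^ q *
        (∑ l ∈ range (r + 1), ∑ i ∈ range (min l r' + 1), exLim (-1) r q r' q' l i) =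
        ((Planar.G r q r' q' : ℚ) : ℝ) := by
      rw [← Gs_neg_one hm, ← exLim_sum (-1) hm]
      norm_num
    rw [← e]
    refine h.congr' ?_
    filter_upwards [eventually_le_of_tendsto hcY (by norm_num) (r + r'),
      eventually_ge_atTop (r + q + r' + q'), eventually_le_of_tendsto (h3 r) (by norm_num) q,
      eventually_le_of_tendsto (h3 r') (by norm_num) q'] with Q h1 h2 h4 h5
    rw [gExch_eq hm (by omega) (by omega) h4 (by omega) (by omega) (by omega) h5 (by omega),
      pow_add]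
    ring
  · simp only [gExch_eq_zero hm, zero_mul, Planar.G, if_neg hm, Rat.cast_zero]
    exact tendsto_const_nhds

/-- Limit of the ratio of the channel norms. -/
theorem tendsto_ratio {cY : ℕ → ℕ} (hcY : Tendsto (fun Q => (cY Q : ℝ) / Q) atTop (𝓝 2))
    {r r' : ℕ} {n : ℤ} (hn : (r : ℤ) + n = r') :
    Tendsto (fun Q : ℕ => kappa r' (cY Q) Q * (Q : ℝ) ^ n / kappa r (impChg Q) Q) atTop
      (𝓝 ((Planar.ratio r r' : ℚ) : ℝ)) := by
  have h := (tendsto_kappa hcY (by norm_num) r').div (tendsto_kappa tendsto_impChg (by norm_num) r)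
    (by positivity)
  have e : (r'.factorial : ℝ) * ((2 + 1) / 2) ^ r' / ((r.factorial : ℝ) * ((2 + 1) / 2) ^ r) =
      ((Planar.ratio r r' : ℚ) : ℝ) := by
    simp only [Planar.ratio]
    push_cast
    ring
  rw [← e]
  refine h.congr' ?_
  filter_upwards [eventually_gt_atTop 0] with Q hQ
  have hQ' : (Q : ℝ) ≠ 0 := by exact_mod_cast hQ.ne'
  have hz : (Q : ℝ) ^ r' = (Q : ℝ) ^ n * (Q : ℝ) ^ r := by
    rw [← zpow_natCast, ← zpow_natCast, ← zpow_add₀ hQ', ← hn, add_comm]
  simp only [Pi.div_apply]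
  rw [hz, ← mul_assoc, mul_div_mul_right _ _ (pow_ne_zero r hQ')]

/-- Monotone ratio of binomial coefficients. -/
theorem choose_le_pow_mul {a b : ℕ} {ρ : ℝ} (hab : a ≤ b) (h : (a : ℝ) ≤ ρ * b) (hρ : ρ ≤ 1)
    (hρ0 : 0 ≤ ρ) : ∀ j : ℕ, (a.choose j : ℝ) ≤ ρ ^ j * (b.choose j : ℝ) := by
  intro j
  induction j with
  | zero => simp
  | succ j ih =>
      rcases le_or_gt a j with ha | ha
      · rw [Nat.choose_eq_zero_of_lt (by omega), Nat.cast_zero]
        positivity
      have step : ∀ n : ℕ, j ≤ n →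
          ((j : ℝ) + 1) * (n.choose (j + 1) : ℝ) = ((n : ℝ) - j) * (n.choose j : ℝ) := by
        intro n hn
        have h' : ((n.choose (j + 1) * (j + 1) : ℕ) : ℝ) = ((n.choose j * (n - j) : ℕ) : ℝ) := by
          exact_mod_cast Nat.choose_succ_right_eq n j
        push_cast [Nat.cast_sub hn] at h'
        linarith
      have h1 := step a ha.le
      have h2 := step b (by omega)
      have hj : (j : ℝ) ≤ a := by exact_mod_cast ha.le
      have hjb : (0 : ℝ) ≤ (b : ℝ) - j := by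
        have : (j : ℝ) ≤ b := by exact_mod_cast (by omega : j ≤ b)
        linarith
      refine le_of_mul_le_mul_left ?_ (by positivity : (0 : ℝ) < (j : ℝ) + 1)
      calc ((j : ℝ) + 1) * (a.choose (j + 1) : ℝ)
          = ((a : ℝ) - j) * (a.choose j : ℝ) := h1
        _ ≤ (ρ * ((b : ℝ) - j)) * (ρ ^ j * (b.choose j : ℝ)) := by
            refine mul_le_mul ?_ ih (Nat.cast_nonneg _) (mul_nonneg hρ0 hjb)
            nlinarith
        _ = ρ ^ (j + 1) * (((j : ℝ) + 1) * (b.choose (j + 1) : ℝ)) := by rw [h2]; ring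
        _ = ((j : ℝ) + 1) * (ρ ^ (j + 1) * (b.choose (j + 1) : ℝ)) := by ring

/-- Uniform bound on one exchange sum. -/
theorem eventually_exSum_le {cY : ℕ → ℕ}
    (hcY : Tendsto (fun Q => (cY Q : ℝ) / Q) atTop (𝓝 2)) {θ : ℝ} (hθ : 1 < θ) (r r' : ℕ) :
    ∀ᶠ Q in atTop, ∀ q q' : ℕ, r + q = r' + q' →
      |exSum (-1) (cY Q) Q r q r' q'| * (Q : ℝ) ^ r ≤
        θ ^ (q + 1) * ∑ l ∈ range (r + 1), ∑ i ∈ range (min l r' + 1), exLim 1 r q r' q' l i := by
  -- replace `θ` by a value with `θ / 3 ≤ 1`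
  obtain ⟨t, ht1, htθ, ht3⟩ : ∃ t : ℝ, 1 < t ∧ t ≤ θ ∧ t ≤ 3 :=
    ⟨min θ 3, lt_min hθ (by norm_num), min_le_left _ _, min_le_right _ _⟩
  have h3 : Tendsto (fun Q => ((cY Q + Q - 2 * r' : ℕ) : ℝ) / Q) atTop (𝓝 3) := by
    have h' := tendsto_add_self hcY (2 * r')
    norm_num at h'
    exact h'
  have hfin : ∀ᶠ Q in atTop, ∀ l ∈ range (r + 1), ∀ i ∈ range (min l r' + 1),
      ((cY Q - r').choose (l - i) : ℝ) * (Q : ℝ) ^ r /
          (((cY Q).choose l : ℝ) * (Q.choose (r - l) : ℝ) *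
            ((cY Q + Q - 2 * r').choose (l - i) : ℝ)) ≤
        t * ((2 : ℝ) ^ (l - i) / (l - i).factorial /
          ((2 : ℝ) ^ l / l.factorial * (1 / (r - l).factorial) *
            ((3 : ℝ) ^ (l - i) / (l - i).factorial))) := by
    simp only [Filter.eventually_all_finset]
    intro l hl i hi
    simp only [mem_range] at hl hi
    have h := (tendsto_choose (tendsto_sub_const hcY r') (l - i)).div
      (((tendsto_choose hcY l).mul (tendsto_choose tendsto_self (r - l))).mul
        (tendsto_choose h3 (l - i))) (by positivity)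
    simp only [one_pow] at h
    refine ((h.eventually_lt_const (lt_mul_of_one_lt_left (by positivity) ht1)).and
      (eventually_gt_atTop 0)).mono fun Q hQ => le_of_eq_of_le ?_ hQ.1.le
    have hQ' : (Q : ℝ) ≠ 0 := by exact_mod_cast hQ.2.ne'
    have e : (Q : ℝ) ^ r = (Q : ℝ) ^ l * (Q : ℝ) ^ (r - l) := by
      rw [← pow_add]; congr 1; omega
    simp only [Pi.div_apply]
    rw [e]
    field_simp
  have hρ : ∀ᶠ Q in atTop, ∀ d ∈ range (r + 1),
      ((Q - r' : ℕ) : ℝ) ≤ t / 3 * ((cY Q + Q - 2 * r' - d : ℕ) : ℝ) := by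
    simp only [Filter.eventually_all_finset]
    intro d _
    have h := (tendsto_sub_const h3 d).const_mul (t / 3)
    refine ((h.eventually_const_lt (show (1 : ℝ) < t / 3 * 3 by linarith)).and
      (eventually_gt_atTop 0)).mono fun Q hQ => ?_
    have hQ' : (0 : ℝ) < Q := by exact_mod_cast hQ.2
    have h' := hQ.1
    rw [← mul_div_assoc, lt_div_iff₀ hQ', one_mul] at h'
    have hle : ((Q - r' : ℕ) : ℝ) ≤ Q := by exact_mod_cast Nat.sub_le _ _
    linarith
  filter_upwards [hfin, hρ] with Q hfin hρ q q' hm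
  rw [exSum]
  refine le_trans (mul_le_mul_of_nonneg_right (Finset.abs_sum_le_sum_abs _ _) (by positivity)) ?_
  rw [Finset.sum_mul, Finset.mul_sum]
  refine Finset.sum_le_sum fun l hl => ?_
  refine le_trans (mul_le_mul_of_nonneg_right (Finset.abs_sum_le_sum_abs _ _) (by positivity)) ?_
  rw [Finset.sum_mul, Finset.mul_sum]
  refine Finset.sum_le_sum fun i hi => ?_
  have hl' := mem_range.1 hl
  have hi' := mem_range.1 hi
  by_cases h : r ≤ q' + l ∧ r' ≤ q + i
  swap
  · simp [exTerm, exLim, if_neg h]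
  rw [exTerm, exLim, if_pos h, if_pos h, one_pow, one_mul]
  set d := l - i with hd
  set j := q + i - r' with hj
  set c := cY Q + Q - 2 * r' with hc
  set K : ℝ := (r.choose l : ℝ) * (r'.choose i : ℝ) * (q'.choose (r - l) : ℝ) with hK
  have hp : q' + l - r = j + d := by omega
  rw [hp]
  have hK0 : 0 ≤ K := by positivity
  rw [abs_mul, abs_mul, abs_pow, abs_neg, abs_one, one_pow, one_mul, abs_of_nonneg hK0,
    abs_of_nonneg (by positivity)]
  set u : ℝ := (2 : ℝ) ^ d / d.factorial /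
      ((2 : ℝ) ^ l / l.factorial * (1 / (r - l).factorial) * ((3 : ℝ) ^ d / d.factorial)) with hu
  have hfb := hfin l hl i hi
  have hrho := hρ d (mem_range.2 (by omega))
  have hle : Q - r' ≤ c - d := by
    have : ((Q - r' : ℕ) : ℝ) ≤ ((c - d : ℕ) : ℝ) := by
      refine hrho.trans ?_
      have : (0 : ℝ) ≤ ((c - d : ℕ) : ℝ) := Nat.cast_nonneg _
      nlinarith
    exact_mod_cast this
  have hchain : ((Q - r').choose j : ℝ) * (c.choose d : ℝ) ≤
      (t / 3) ^ j * (c.choose (j + d) : ℝ) * ((j + d).choose d : ℝ) := by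
    have h1 := choose_le_pow_mul hle hrho (by linarith) (by linarith) j
    have h2 : (c.choose (j + d) : ℝ) * ((j + d).choose d : ℝ) =
        (c.choose d : ℝ) * ((c - d).choose j : ℝ) := by
      have := Nat.choose_mul (n := c) (show d ≤ j + d by omega)
      rw [Nat.add_sub_cancel] at this
      exact_mod_cast this
    rw [mul_assoc, h2]
    nlinarith [mul_le_mul_of_nonneg_left h1 (Nat.cast_nonneg (α := ℝ) (c.choose d))]
  have hu0 : 0 ≤ u := by positivity
  have hfac : (j : ℕ) ≤ q := by omega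
  -- the limit in the same shape
  have hlim : (2 : ℝ) ^ d / d.factorial * (1 / j.factorial) /
      ((2 : ℝ) ^ l / l.factorial * (1 / (r - l).factorial) *
        ((3 : ℝ) ^ (j + d) / (j + d).factorial)) =
      (1 / 3) ^ j * ((j + d).choose d : ℝ) * u := by
    have e : ((j + d).choose d : ℝ) * (d.factorial : ℝ) * (j.factorial : ℝ) =
        ((j + d).factorial : ℝ) := by
      have := Nat.choose_mul_factorial_mul_factorial (show d ≤ j + d by omega)
      rw [Nat.add_sub_cancel] at this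
      exact_mod_cast this
    have f0 : ∀ k : ℕ, (k.factorial : ℝ) ≠ 0 := fun k => by exact_mod_cast k.factorial_ne_zero
    rw [hu, pow_add (3 : ℝ), ← e, div_pow, one_pow]
    field_simp [f0]
  have hdiv : ((Q - r').choose j : ℝ) / (c.choose (j + d) : ℝ) ≤
      (t / 3) ^ j * ((j + d).choose d : ℝ) / (c.choose d : ℝ) := by
    rcases eq_or_ne (c.choose (j + d)) 0 with hz | hz
    · rw [hz, Nat.cast_zero, div_zero]
      positivity
    · have hz' : 0 < c.choose d := by
        refine Nat.choose_pos ?_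
        by_contra hlt
        exact hz (Nat.choose_eq_zero_of_lt (by omega))
      rw [div_le_div_iff₀ (by exact_mod_cast Nat.pos_of_ne_zero hz) (by exact_mod_cast hz')]
      nlinarith
  calc K * (((cY Q - r').choose d : ℝ) * ((Q - r').choose j : ℝ) /
        (((cY Q).choose l : ℝ) * (Q.choose (r - l) : ℝ) * (c.choose (j + d) : ℝ))) * (Q : ℝ) ^ r
      = K * (((cY Q - r').choose d : ℝ) * (Q : ℝ) ^ r /
          (((cY Q).choose l : ℝ) * (Q.choose (r - l) : ℝ))) *
          (((Q - r').choose j : ℝ) / (c.choose (j + d) : ℝ)) := by ring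
    _ ≤ K * (((cY Q - r').choose d : ℝ) * (Q : ℝ) ^ r /
          (((cY Q).choose l : ℝ) * (Q.choose (r - l) : ℝ))) *
          ((t / 3) ^ j * ((j + d).choose d : ℝ) / (c.choose d : ℝ)) :=
        mul_le_mul_of_nonneg_left hdiv (by positivity)
    _ = K * ((t / 3) ^ j * ((j + d).choose d : ℝ)) * (((cY Q - r').choose d : ℝ) * (Q : ℝ) ^ r /
          (((cY Q).choose l : ℝ) * (Q.choose (r - l) : ℝ) * (c.choose d : ℝ))) := by ring
    _ ≤ K * ((t / 3) ^ j * ((j + d).choose d : ℝ)) * (t * u) :=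
        mul_le_mul_of_nonneg_left hfb (by positivity)
    _ = t ^ (j + 1) * (K * ((1 / 3) ^ j * ((j + d).choose d : ℝ) * u)) := by
        rw [div_pow, div_pow, one_pow, pow_succ]; ring
    _ ≤ θ ^ (q + 1) * (K * ((1 / 3) ^ j * ((j + d).choose d : ℝ) * u)) := by
        refine mul_le_mul_of_nonneg_right ?_ (by positivity)
        exact (pow_le_pow_left₀ (by linarith) htθ _).trans
          (pow_le_pow_right₀ hθ.le (by omega))
    _ = _ := by rw [hlim]

/-- **Uniform bound.** For all large `Q` and all degrees, the squared exchange overlap is at most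
`θ^(2m+4)` times its planar majorant times the norms. -/
theorem eventually_gExch_le {cY : ℕ → ℕ}
    (hcY : Tendsto (fun Q => (cY Q : ℝ) / Q) atTop (𝓝 2)) {θ : ℝ} (hθ : 1 < θ) (R : ℕ) :
    ∀ᶠ Q in atTop, ∀ r ∈ range (R + 1), ∀ r' ∈ range (R + 1), ∀ q q' : ℕ,
      r + q = r' + q' → q ≤ Q → q' ≤ Q →
      gExch (cY Q) Q r q r' q' ^ 2 ≤ θ ^ (2 * (r + q) + 4) * ((Planar.exB r q r' q' : ℚ) : ℝ) *
        (gInner (cY Q) Q r q r q * gInner (cY Q) Q r' q' r' q') := by
  simp only [Filter.eventually_all_finset]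
  intro r hr r' hr'
  have hk : ∀ k : ℕ, ∀ᶠ Q in atTop,
      (k.factorial : ℝ) * (3 / 2) ^ k ≤ θ * (kappa k (cY Q) Q * (Q : ℝ) ^ k) := by
    intro k
    have h := (tendsto_kappa hcY (by norm_num) k).const_mul θ
    rw [show ((2 : ℝ) + 1) / 2 = 3 / 2 by norm_num] at h
    exact (h.eventually_const_lt (lt_mul_of_one_lt_left (by positivity) hθ)).mono fun Q hQ => hQ.le
  filter_upwards [eventually_exSum_le hcY hθ r r', eventually_exSum_le hcY hθ r' r, hk r, hk r',
    eventually_le_of_tendsto hcY (by norm_num) (2 * (r + r')), eventually_ge_atTop (r + r'),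
    eventually_gt_atTop 0] with Q hA hA' hkr hkr' hc hQ hQ0 q q' hm hq hq'
  have hQ' : (0 : ℝ) < Q := by exact_mod_cast hQ0
  have hA := hA q q' hm
  have hA' := hA' q' q hm.symm
  rw [show ∑ l ∈ range (r + 1), ∑ i ∈ range (min l r' + 1), exLim 1 r q r' q' l i =
      ((Planar.Ga r q r' q' : ℚ) : ℝ) / ((q.factorial : ℝ) * (4 / 3) ^ q) by
    rw [← Gs_one hm, ← exLim_sum 1 hm]; field_simp] at hA
  rw [show ∑ l ∈ range (r' + 1), ∑ i ∈ range (min l r + 1), exLim 1 r' q' r q l i =
      ((Planar.Ga r' q' r q : ℚ) : ℝ) / ((q'.factorial : ℝ) * (4 / 3) ^ q') by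
    rw [← Gs_one hm.symm, ← exLim_sum 1 hm.symm]; field_simp] at hA'
  set κ := kappa q (cY Q + Q - 2 * r) Q with hκdef
  set κ' := kappa q' (cY Q + Q - 2 * r') Q with hκ'def
  have e1 : gExch (cY Q) Q r q r' q' = κ * exSum (-1) (cY Q) Q r q r' q' :=
    gExch_eq hm (by omega) (by omega) (by omega) hq (by omega) (by omega) (by omega) hq'
  have e2 : gExch (cY Q) Q r q r' q' = κ' * exSum (-1) (cY Q) Q r' q' r q := by
    rw [gExch_comm]
    exact gExch_eq hm.symm (by omega) (by omega) (by omega) hq' (by omega) (by omega) (by omega) hq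
  rw [gInner_self (by omega) (by omega) (by omega) hq, gInner_self (by omega) (by omega) (by omega) hq',
    ← hκdef, ← hκ'def]
  set S := exSum (-1) (cY Q) Q r q r' q'
  set S' := exSum (-1) (cY Q) Q r' q' r q
  set A : ℝ := ((Planar.Ga r q r' q' : ℚ) : ℝ)
  set A' : ℝ := ((Planar.Ga r' q' r q : ℚ) : ℝ)
  have hA0 : 0 ≤ A := Rat.cast_nonneg.2 (Planar.Ga_nonneg ..)
  have hA0' : 0 ≤ A' := Rat.cast_nonneg.2 (Planar.Ga_nonneg ..)
  have hκ0 : 0 < κ := kappa_pos (by omega) hq
  have hκ0' : 0 < κ' := kappa_pos (by omega) hq'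
  have hθ0 : 0 < θ := by linarith
  set X := θ ^ (q + 1) * (A / ((q.factorial : ℝ) * (4 / 3) ^ q))
  set X' := θ ^ (q' + 1) * (A' / ((q'.factorial : ℝ) * (4 / 3) ^ q'))
  set Y := (r.factorial : ℝ) * (3 / 2) ^ r
  set Y' := (r'.factorial : ℝ) * (3 / 2) ^ r'
  set kr := kappa r (cY Q) Q
  set kr' := kappa r' (cY Q) Q
  have hY : 0 < Y := by positivity
  have hY' : 0 < Y' := by positivity
  have hB : ((Planar.exB r q r' q' : ℚ) : ℝ) =
      (A / ((q.factorial : ℝ) * (4 / 3) ^ q)) * (A' / ((q'.factorial : ℝ) * (4 / 3) ^ q')) / (Y * Y') := by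
    simp only [Planar.exB, Planar.N, A, A', Y, Y']
    push_cast
    field_simp
  have hX0 : 0 ≤ X := by positivity
  have hX0' : 0 ≤ X' := by positivity
  -- the squared overlap is `κ κ' S S'`
  have hsq : gExch (cY Q) Q r q r' q' ^ 2 = κ * κ' * (|S| * |S'|) := by
    rw [← sq_abs, sq]
    conv_lhs => arg 1; rw [e1]
    conv_lhs => arg 2; rw [e2]
    rw [abs_mul, abs_mul, abs_of_pos hκ0, abs_of_pos hκ0']
    ring
  rw [hsq, hB]
  have hSS : |S| * |S'| * ((Q : ℝ) ^ r * (Q : ℝ) ^ r') ≤ X * X' := by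
    have := mul_le_mul hA hA' (by positivity) hX0
    linarith
  have hkk : Y * Y' ≤ θ ^ 2 * (kr * kr') * ((Q : ℝ) ^ r * (Q : ℝ) ^ r') := by
    have := mul_le_mul hkr hkr' hY'.le (le_trans hY.le hkr)
    linarith
  have hmain : |S| * |S'| * (Y * Y') ≤ θ ^ 2 * X * X' * (kr * kr') := by
    have h1 := mul_le_mul_of_nonneg_left hkk (show (0 : ℝ) ≤ |S| * |S'| by positivity)
    have hkk0 : 0 ≤ θ ^ 2 * (kr * kr') := by
      have := kappa_pos (r := r) (a := cY Q) (b := Q) (by omega) (by omega)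
      have := kappa_pos (r := r') (a := cY Q) (b := Q) (by omega) (by omega)
      positivity
    have h2 := mul_le_mul_of_nonneg_left hSS hkk0
    linarith
  have hpow : θ ^ 2 * (θ ^ (q + 1) * θ ^ (q' + 1)) ≤ θ ^ (2 * (r + q) + 4) := by
    rw [← pow_add, ← pow_add]
    exact pow_le_pow_right₀ hθ.le (by omega)
  calc κ * κ' * (|S| * |S'|) = κ * κ' * (|S| * |S'| * (Y * Y')) / (Y * Y') := by
        field_simp
    _ ≤ κ * κ' * (θ ^ 2 * X * X' * (kr * kr')) / (Y * Y') :=
        div_le_div_of_nonneg_right (mul_le_mul_of_nonneg_left hmain (by positivity)) (by positivity)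
    _ = θ ^ 2 * (θ ^ (q + 1) * θ ^ (q' + 1)) *
          (A / ((q.factorial : ℝ) * (4 / 3) ^ q) * (A' / ((q'.factorial : ℝ) * (4 / 3) ^ q')) /
            (Y * Y')) * (kr * κ * (kr' * κ')) := by
        simp only [X, X']
        ring
    _ ≤ _ := by
        have := kappa_pos (r := r) (a := cY Q) (b := Q) (by omega) (by omega)
        have := kappa_pos (r := r') (a := cY Q) (b := Q) (by omega) (by omega)
        gcongr

end Vale.Agent.P359.Gap
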