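import Vale.Agent.P359.Gap.Exchange
import Vale.Agent.P359.Gap.Overlap

/-!
# P359, gap M7: the exchange eigenvalues

Closed form of `wch Q r`, its planar limit, and a uniform bound on the tail of its negative part.
-/

open Finset Filter Topology

namespace Vale.Agent.P359.Gap

theorem triVec_eq_gvec {Q r : ℕ} (i j l : ℕ) :
    triVec Q r i j l = gvec Q Q 1 r i j l := by
  rw [gvec_sum _ _ _ _ _ _ _ r le_rfl, Red.impChg_eq, triVec]

theorem wch_eq_exSum {Q r : ℕ} (hQ : 2 ≤ Q) (hr : r ≤ Q) :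
    wch Q r = -(Q : ℝ) * exSum (-1) Q Q 1 r 1 r := by
  have hq : r ≤ Q + Q - 2 * 1 := by omega
  have h1 : wch Q r = -2 * gExch Q Q 1 r 1 r / gInner Q Q 1 r 1 r := by
    simp only [wch, gExch, gInner, triVec_eq_gvec, sq]
  rw [h1, gExch_eq rfl (by omega) (by omega) hq hr (by omega) (by omega) hq hr,
    gInner_self (by omega) (by omega) hq hr]
  have hk : 0 < kappa r (Q + Q - 2 * 1) Q := kappa_pos hq hr
  have h2 : kappa 1 Q Q = 2 / (Q : ℝ) := by
    have hQ0 : (Q : ℝ) ≠ 0 := by exact_mod_cast (show Q ≠ 0 by omega)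
    rw [kappa, Nat.choose_one_right, Nat.choose_one_right, show Q + Q - 1 + 1 = 2 * Q by omega]
    push_cast
    field_simp
  rw [h2]
  field_simp

/-- The ratio of binomial coefficients in the closed form. -/
noncomputable def wRatio (Q k : ℕ) : ℝ :=
  ((Q - 1).choose k : ℝ) / ((2 * Q - 2).choose k : ℝ)

theorem wch_zero {Q : ℕ} (hQ : 2 ≤ Q) : wch Q 0 = -1 := by
  have hQ0 : (Q : ℝ) ≠ 0 := by exact_mod_cast (show Q ≠ 0 by omega)
  rw [wch_eq_exSum hQ (Nat.zero_le _)]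
  simp [exSum, exTerm, Finset.sum_range_succ, hQ0]

/-- Closed form of the exchange eigenvalue. -/
theorem wch_closed {Q r : ℕ} (hQ : 2 ≤ Q) (hr : 1 ≤ r) (hr' : r ≤ Q) :
    wch Q r = (-1) ^ r * wRatio Q (r - 1) *
      ((r : ℝ) + (Q : ℝ) * ((r : ℝ) - 1) / (2 * (Q : ℝ) - 1 - r)) := by
  obtain ⟨n, rfl⟩ : ∃ n, Q = n + 1 := ⟨Q - 1, by omega⟩
  obtain ⟨k, rfl⟩ : ∃ k, r = k + 1 := ⟨r - 1, by omega⟩
  rw [wch_eq_exSum hQ hr']
  have h0 : (2 * n).choose k ≠ 0 := (Nat.choose_pos (by omega)).ne'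
  have h1 : (2 * n).choose (k + 1) ≠ 0 := (Nat.choose_pos (by omega)).ne'
  have e1 : ((n.choose (k + 1) : ℕ) : ℝ) * ((k : ℝ) + 1) = (n.choose k : ℝ) * ((n : ℝ) - k) := by
    rcases le_or_gt k n with h | h
    · have := Nat.choose_succ_right_eq n k
      have h' : ((n.choose (k + 1) * (k + 1) : ℕ) : ℝ) = ((n.choose k * (n - k) : ℕ) : ℝ) := by
        exact_mod_cast this
      push_cast [Nat.cast_sub h] at h'
      exact h'
    · omega
  have e2 : (((2 * n).choose (k + 1) : ℕ) : ℝ) * ((k : ℝ) + 1) =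
      ((2 * n).choose k : ℝ) * (2 * (n : ℝ) - k) := by
    have := Nat.choose_succ_right_eq (2 * n) k
    have h' : (((2 * n).choose (k + 1) * (k + 1) : ℕ) : ℝ) =
        (((2 * n).choose k * (2 * n - k) : ℕ) : ℝ) := by exact_mod_cast this
    push_cast [Nat.cast_sub (show k ≤ 2 * n by omega)] at h'
    exact h'
  have hd : (0 : ℝ) < 2 * (n : ℝ) - k := by
    have : (k : ℝ) < 2 * (n : ℝ) := by exact_mod_cast (show k < 2 * n by omega)
    linarith
  have hc : ∀ l i : ℕ, 1 ≤ k + 1 + l ∧ 1 ≤ k + 1 + i := fun l i => by omega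
  simp only [exSum, exTerm, wRatio, if_pos (hc _ _), Finset.sum_range_succ, Finset.sum_range_zero,
    zero_add, show min 1 1 = 1 from rfl, show min 0 1 = 0 from rfl]
  simp only [show n + 1 - 1 = n by omega, show n + 1 + (n + 1) - 2 * 1 = 2 * n by omega,
    show 2 * (n + 1) - 2 = 2 * n by omega, show k + 1 + 0 - 1 = k by omega,
    show k + 1 + 1 - 1 = k + 1 by omega,
    Nat.choose_zero_right, Nat.choose_one_right, Nat.choose_self, Nat.sub_zero, Nat.sub_self]
  push_cast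
  have hd' : (2 : ℝ) * ((n : ℝ) + 1) - 1 - ((k : ℝ) + 1) ≠ 0 := by linarith
  have h0' : ((2 * n).choose k : ℝ) ≠ 0 := by exact_mod_cast h0
  have h1' : ((2 * n).choose (k + 1) : ℝ) ≠ 0 := by exact_mod_cast h1
  have hk : ((k : ℝ) + 1) ≠ 0 := by positivity
  have e3 : (n.choose (k + 1) : ℝ) = (n.choose k : ℝ) * ((n : ℝ) - k) / ((k : ℝ) + 1) := by
    rw [eq_div_iff hk]; exact e1
  have e4 : ((2 * n).choose (k + 1) : ℝ) =
      ((2 * n).choose k : ℝ) * (2 * (n : ℝ) - k) / ((k : ℝ) + 1) := by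
    rw [eq_div_iff hk]; exact e2
  rw [e3, e4, show (2 : ℝ) * ((n : ℝ) + 1) - 1 - ((k : ℝ) + 1) = 2 * (n : ℝ) - k by ring]
  field_simp
  ring

theorem two_pow_mul_descFactorial_le (n k : ℕ) :
    2 ^ k * n.descFactorial k ≤ (2 * n).descFactorial k := by
  induction k with
  | zero => simp
  | succ k ih =>
    rw [Nat.descFactorial_succ, Nat.descFactorial_succ, pow_succ,
      show 2 ^ k * 2 * ((n - k) * n.descFactorial k) = 2 * (n - k) * (2 ^ k * n.descFactorial k) by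
        ring]
    exact Nat.mul_le_mul (by omega) ih

theorem wRatio_nonneg (Q k : ℕ) : 0 ≤ wRatio Q k := by unfold wRatio; positivity

theorem wRatio_le {Q k : ℕ} (hk : k ≤ 2 * Q - 2) : wRatio Q k ≤ 1 / 2 ^ k := by
  have h := two_pow_mul_descFactorial_le (Q - 1) k
  rw [Nat.descFactorial_eq_factorial_mul_choose, Nat.descFactorial_eq_factorial_mul_choose,
    show 2 * (Q - 1) = 2 * Q - 2 by omega, mul_left_comm] at h
  have h' := Nat.le_of_mul_le_mul_left h (Nat.factorial_pos k)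
  rw [wRatio, div_le_div_iff₀ (by exact_mod_cast Nat.choose_pos hk) (by positivity)]
  rw [one_mul, mul_comm]
  exact_mod_cast h'

theorem tendsto_wRatio (k : ℕ) :
    Tendsto (fun Q => wRatio Q k) atTop (𝓝 ((1 : ℝ) / 2 ^ k)) := by
  have h2 : Tendsto (fun Q : ℕ => ((2 * Q - 2 : ℕ) : ℝ) / Q) atTop (𝓝 2) := by
    refine tendsto_sub_const ?_ 2
    have := tendsto_self.const_mul (2 : ℝ)
    rw [mul_one] at this
    exact this.congr fun Q => by push_cast; ring
  have hf : (k.factorial : ℝ) ≠ 0 := by exact_mod_cast k.factorial_ne_zero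
  have h := (tendsto_choose (tendsto_sub_const tendsto_self 1) k).div (tendsto_choose h2 k)
    (by positivity)
  rw [show (1 : ℝ) ^ k / (k.factorial : ℝ) / (2 ^ k / (k.factorial : ℝ)) = 1 / 2 ^ k by
    rw [one_pow]; field_simp] at h
  refine h.congr' ?_
  filter_upwards [eventually_gt_atTop 0] with Q hQ
  have : ((Q : ℝ) ^ k) ≠ 0 := pow_ne_zero _ (by exact_mod_cast hQ.ne')
  simp only [Pi.div_apply, wRatio]
  rw [div_div_div_cancel_right₀ this]

/-- Planar limit of the exchange eigenvalue. -/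
theorem tendsto_wch (r : ℕ) :
    Tendsto (fun Q => wch Q r) atTop (𝓝 ((Planar.w r : ℚ) : ℝ)) := by
  rcases Nat.eq_zero_or_pos r with rfl | hr
  · refine tendsto_const_nhds.congr' ?_
    filter_upwards [eventually_ge_atTop 2] with Q hQ
    rw [wch_zero hQ]
    norm_num [Planar.w]
  have h1 : Tendsto (fun Q : ℕ => (r : ℝ) + ((r : ℝ) - 1) / (2 - ((r : ℝ) + 1) / Q)) atTop
      (𝓝 ((r : ℝ) + ((r : ℝ) - 1) / (2 - 0))) :=
    tendsto_const_nhds.add (tendsto_const_nhds.div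
      (tendsto_const_nhds.sub (tendsto_div_nat _)) (by norm_num))
  have h := ((tendsto_wRatio (r - 1)).const_mul ((-1 : ℝ) ^ r)).mul h1
  have e : (-1 : ℝ) ^ r * (1 / 2 ^ (r - 1)) * ((r : ℝ) + ((r : ℝ) - 1) / (2 - 0)) =
      ((Planar.w r : ℚ) : ℝ) := by
    obtain ⟨k, rfl⟩ : ∃ k, r = k + 1 := ⟨r - 1, by omega⟩
    simp only [Planar.w, Nat.add_sub_cancel]
    push_cast
    rw [pow_succ (2 : ℝ)]
    field_simp
    ring
  rw [e] at h
  refine h.congr' ?_
  filter_upwards [eventually_ge_atTop (r + 2)] with Q hQ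
  rw [wch_closed (by omega) hr (by omega)]
  have hQ0 : (Q : ℝ) ≠ 0 := by exact_mod_cast (show Q ≠ 0 by omega)
  have hd : (2 : ℝ) * Q - 1 - r ≠ 0 := by
    have : (r : ℝ) + 2 ≤ Q := by exact_mod_cast hQ
    linarith [(Nat.cast_nonneg r : (0 : ℝ) ≤ r)]
  have : (2 : ℝ) - ((r : ℝ) + 1) / Q = (2 * Q - 1 - r) / Q := by field_simp; ring
  rw [this, div_div_eq_mul_div]
  ring

/-- The negative part sits on odd channels and decays geometrically. -/
theorem neg_wch_le {Q r : ℕ} (hQ : 2 ≤ Q) (hr : 1 ≤ r) (hr' : r ≤ Q) :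
    max 0 (-(wch Q r)) ≤ if Odd r then 4 * (r : ℝ) / 2 ^ r else 0 := by
  rw [wch_closed hQ hr hr']
  have hrR : (1 : ℝ) ≤ r := by exact_mod_cast hr
  have hr'R : (r : ℝ) ≤ Q := by exact_mod_cast hr'
  have hQR : (2 : ℝ) ≤ Q := by exact_mod_cast hQ
  have hd : (0 : ℝ) < 2 * Q - 1 - r := by linarith
  have hb0 : (0 : ℝ) ≤ (r : ℝ) + Q * ((r : ℝ) - 1) / (2 * Q - 1 - r) := by
    have : (0 : ℝ) ≤ Q * ((r : ℝ) - 1) / (2 * Q - 1 - r) :=
      div_nonneg (mul_nonneg (by linarith) (by linarith)) hd.le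
    linarith
  have hb : (r : ℝ) + Q * ((r : ℝ) - 1) / (2 * Q - 1 - r) ≤ 2 * r := by
    have : Q * ((r : ℝ) - 1) / (2 * Q - 1 - r) ≤ r := by
      rw [div_le_iff₀ hd]
      nlinarith
    linarith
  have hw := wRatio_nonneg Q (r - 1)
  rcases Nat.even_or_odd r with he | ho
  · rw [he.neg_one_pow, if_neg (Nat.not_odd_iff_even.2 he), one_mul]
    exact max_le le_rfl (neg_nonpos.2 (mul_nonneg hw hb0))
  · rw [ho.neg_one_pow, if_pos ho]
    refine max_le (by positivity) ?_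
    rw [neg_one_mul, neg_mul, neg_neg]
    refine (mul_le_mul (wRatio_le (by omega)) hb hb0 (by positivity)).trans (le_of_eq ?_)
    obtain ⟨k, rfl⟩ : ∃ k, r = k + 1 := ⟨r - 1, by omega⟩
    rw [Nat.add_sub_cancel, pow_succ (2 : ℝ)]
    field_simp
    ring

/-- Majorant of one term of the tail. -/
noncomputable def wTail (r : ℕ) : ℝ :=
  if 14 ≤ r ∧ r % 2 = 1 then 8 / 5 * ((r : ℝ) + 1) * (4 * (r : ℝ) / 2 ^ r) else 0

/-- Potential dominating the sum of the majorants from `r` on. -/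
noncomputable def wPot (r : ℕ) : ℝ :=
  32 / 5 * (2 * (r : ℝ) ^ 2 + 6 * r + 8) / 2 ^ r

theorem sum_wTail_le (N : ℕ) :
    ∑ r ∈ range (26 + N), wTail r + wPot (26 + N) ≤ 1 / 10 := by
  induction N with
  | zero => norm_num [wTail, wPot, Finset.sum_range_succ]
  | succ N ih =>
    refine le_trans ?_ ih
    rw [← Nat.add_assoc, Finset.sum_range_succ, add_assoc]
    refine add_le_add le_rfl ?_
    generalize 26 + N = s
    have h : wTail s ≤ 8 / 5 * ((s : ℝ) + 1) * (4 * (s : ℝ) / 2 ^ s) := by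
      unfold wTail
      split_ifs
      · exact le_rfl
      · positivity
    refine le_trans (add_le_add h le_rfl) (le_of_eq ?_)
    simp only [wPot, pow_succ]
    push_cast
    field_simp
    ring

/-- The negative part of the exchange eigenvalues beyond channel 13 is small. -/
theorem eventually_wch_tail :
    ∀ᶠ Q : ℕ in atTop, ∑ r ∈ Icc 14 Q, 8 / 5 * ((r : ℝ) + 1) * max 0 (-(wch Q r)) ≤ 1 / 10 := by
  filter_upwards [eventually_ge_atTop 2] with Q hQ
  refine le_trans ?_ (sum_wTail_le Q)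
  refine le_add_of_le_of_nonneg ?_ (by unfold wPot; positivity)
  refine le_trans (Finset.sum_le_sum fun r hr => ?_)
    (Finset.sum_le_sum_of_subset_of_nonneg (fun r hr => ?_) fun r _ _ => ?_)
  · have hr' := mem_Icc.1 hr
    show _ ≤ wTail r
    refine le_trans (mul_le_mul_of_nonneg_left (neg_wch_le hQ (by omega) hr'.2) (by positivity)) ?_
    unfold wTail
    by_cases h : Odd r
    · rw [if_pos h, if_pos ⟨hr'.1, Nat.odd_iff.1 h⟩]
    · rw [if_neg h, if_neg (fun hh => h (Nat.odd_iff.2 hh.2)), mul_zero]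
  · have hr' := mem_Icc.1 hr
    exact mem_range.2 (by omega)
  · unfold wTail
    split_ifs
    · positivity
    · exact le_rfl

end Vale.Agent.P359.Gap
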