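import Vale.Agent.P359.Gap.Cert.Sq
import Vale.Agent.P359.Gap.Overlap
import Vale.Agent.P359.Gap.WDecay

/-!
# P359, gap: the one-body budget of the certificate

For `r ≤ 13` the planar limit of `diag - wch` is at most `0` up to rounding; beyond, the squares
have no diagonal and only the negative part of `wch` is paid.
-/

open Finset Filter Topology

namespace Vale.Agent.P359.Gap.OneBody

/-- Planar limit of the diagonal of one square. -/
def dLim (d : Cert.SqD) (r : ℕ) : ℚ :=
  if Cert.RL.contains r && decide (0 ≤ (r : ℤ) + d.n) then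
    2 * d.z * Cert.bVal d r + Cert.bVal d r ^ 2 * Planar.ratio r ((r : ℤ) + d.n).toNat
  else 0

/-- The planar one-body bound. -/
theorem dLim_le : [2, 4, 5, 6, 7, 8, 9, 10, 11, 12, 13].all (fun r =>
    decide ((Cert.sqD.map fun d => dLim d r).sum - Planar.w r ≤ 1 / 1000000)) = true := by
  decide +kernel

/-- The constants of the squares. -/
theorem zsum_le : (Cert.sqD.map fun d => d.z ^ 2).sum ≤ 8462 / 10000 := by
  decide +kernel

theorem mem_S {d : Cert.SqD} {r : ℕ} :
    r ∈ d.toSq.S ↔ (Cert.RL.contains r && decide (0 ≤ (r : ℤ) + d.n)) = true := by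
  simp only [Cert.SqD.toSq, List.mem_toFinset, List.mem_filter, decide_eq_true_eq,
    Bool.and_eq_true, List.contains_iff_mem]

theorem tendsto_diag (d : Cert.SqD) (r : ℕ) :
    Tendsto (fun Q => d.toSq.diag Q r) atTop (𝓝 ((dLim d r : ℚ) : ℝ)) := by
  by_cases hr : r ∈ d.toSq.S
  · have hc := mem_S.1 hr
    have hn : 0 ≤ (r : ℤ) + d.n := of_decide_eq_true ((Bool.and_eq_true _ _).mp hc).2
    have h := ((tendsto_ratio (cY := fun Q : ℕ => d.toSq.outChg Q) (tendsto_charge d.n)
      (r := r) (r' := ((r : ℤ) + d.n).toNat) (n := d.n) (Int.toNat_of_nonneg hn).symm).const_mul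
        (d.toSq.β r ^ 2)).const_add (2 * d.toSq.z * d.toSq.β r)
    simp only [dLim, if_pos hc]
    convert h using 2 with Q
    · rw [Sq.diag, if_pos hr]
      simp only [Sq.outCh, Cert.SqD.toSq]
      ring
    · simp only [Cert.SqD.toSq]
      push_cast
      ring
  · have hc : ¬ (Cert.RL.contains r && decide (0 ≤ (r : ℤ) + d.n)) = true := fun h => hr (mem_S.2 h)
    simp only [dLim, if_neg hc, Sq.diag, if_neg hr, Rat.cast_zero]
    exact tendsto_const_nhds

theorem tendsto_diag_sum (L : List Cert.SqD) (r : ℕ) :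
    Tendsto (fun Q => ((L.map Cert.SqD.toSq).map fun t => t.diag Q r).sum) atTop
      (𝓝 (((L.map fun d => dLim d r).sum : ℚ) : ℝ)) := by
  induction L with
  | nil => simp
  | cons d L ih =>
    simp only [List.map_cons, List.sum_cons, Rat.cast_add]
    exact (tendsto_diag d r).add ih

theorem diag_zero {d : Cert.SqD} {Q r : ℕ} (hr : 14 ≤ r) : d.toSq.diag Q r = 0 := by
  rw [Sq.diag, if_neg]
  intro h
  have h1 := mem_S.1 h
  simp only [Bool.and_eq_true, List.contains_iff_mem, Cert.RL, List.mem_cons, List.not_mem_nil,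
    or_false] at h1
  omega

/-- The one-body costs. -/
noncomputable def e (Q r : ℕ) : ℝ :=
  if r ≤ 13 then 1 / 100000 else max 0 (-(wch Q r))

theorem e_nonneg (Q r : ℕ) : 0 ≤ e Q r := by
  unfold e
  split_ifs
  · norm_num
  · exact le_max_left _ _

/-- The diagonal of the squares is paid by `e`. -/
theorem eventually_hdiag :
    ∀ᶠ Q in atTop, ∀ r ≤ Q, r ∉ ({0, 1, 3} : Finset ℕ) →
      (Cert.certSq.map fun t => t.diag Q r).sum - wch Q r ≤ e Q r := by
  have hsmall : ∀ᶠ Q in atTop, ∀ r ∈ range 14, r ∉ ({0, 1, 3} : Finset ℕ) →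
      (Cert.certSq.map fun t => t.diag Q r).sum - wch Q r ≤ 1 / 100000 := by
    simp only [Filter.eventually_all_finset]
    intro r hr
    by_cases h013 : r ∈ ({0, 1, 3} : Finset ℕ)
    · exact Eventually.of_forall fun Q h => absurd h013 h
    have hle := List.all_eq_true.1 dLim_le r (by
      simp only [Finset.mem_insert, Finset.mem_singleton] at h013
      simp only [List.mem_cons, List.not_mem_nil, or_false]
      have := mem_range.1 hr
      omega)
    rw [decide_eq_true_eq] at hle
    have hR := (Rat.cast_le (K := ℝ)).2 hle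
    have h := (tendsto_diag_sum Cert.sqD r).sub (tendsto_wch r)
    refine (h.eventually_lt_const (lt_of_le_of_lt (le_of_eq ?_)
      (lt_of_le_of_lt hR ?_))).mono fun Q hQ _ => hQ.le
    · push_cast; ring
    · push_cast; norm_num
  filter_upwards [hsmall] with Q hQ r _ hr
  unfold e
  split_ifs with h
  · exact hQ r (mem_range.2 (by omega)) hr
  · have hz : (Cert.certSq.map fun t => t.diag Q r).sum = 0 := by
      refine List.sum_eq_zero fun x hx => ?_
      obtain ⟨t, ht, rfl⟩ := List.mem_map.1 hx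
      obtain ⟨d, -, rfl⟩ := List.mem_map.1 ht
      exact diag_zero (by omega)
    rw [hz, zero_sub]
    exact le_max_right _ _

/-- The weighted sum of `e`. -/
theorem eventually_e_sum :
    ∀ᶠ Q in atTop, ∑ r ∈ range (Q + 1), 8 / 5 * ((r : ℝ) + 1) * e Q r ≤ 102 / 1000 := by
  filter_upwards [eventually_wch_tail, eventually_ge_atTop 14] with Q hQ h14
  rw [← Finset.sum_range_add_sum_Ico _ (show 14 ≤ Q + 1 by omega),
    show Ico 14 (Q + 1) = Icc 14 Q by ext; simp]
  have h2 : ∑ r ∈ Icc 14 Q, 8 / 5 * ((r : ℝ) + 1) * e Q r ≤ 1 / 10 := by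
    refine le_trans (le_of_eq (Finset.sum_congr rfl fun r hr => ?_)) hQ
    rw [e, if_neg (by have := (mem_Icc.1 hr).1; omega)]
  have h1 : ∑ r ∈ range 14, 8 / 5 * ((r : ℝ) + 1) * e Q r ≤ 2 / 1000 := by
    simp only [Finset.sum_range_succ, Finset.sum_range_zero, e]
    norm_num
  linarith

/-- The sum of the squared constants. -/
theorem z_le : (Cert.certSq.map fun t => t.z ^ 2).sum ≤ 8462 / 10000 := by
  have h : ∀ L : List Cert.SqD, ((L.map Cert.SqD.toSq).map fun t => t.z ^ 2).sum =
      (((L.map fun d => d.z ^ 2).sum : ℚ) : ℝ) := by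
    intro L
    induction L with
    | nil => simp
    | cons d L ih =>
      simp only [List.map_cons, List.sum_cons, Rat.cast_add, Rat.cast_pow, ih, Cert.SqD.toSq]
  have h1 := (Rat.cast_le (K := ℝ)).2 zsum_le
  rw [Cert.certSq, h]
  refine h1.trans (le_of_eq ?_)
  norm_num

/-- The squares of the certificate satisfy the conditions on the data. -/
theorem cert_valid : ∀ t ∈ Cert.certSq, t.Valid := by
  intro t ht
  obtain ⟨d, hd, rfl⟩ := List.mem_map.1 ht
  have h := List.all_eq_true.1 Cert.data_ok.2 d hd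
  simp only [Bool.and_eq_true, Bool.or_eq_true, decide_eq_true_eq] at h
  refine ⟨fun hn => ?_, fun r hr => ?_⟩
  · rcases h.1.2 with h0 | h0
    · exact absurd h0 hn
    · simp [Cert.SqD.toSq, h0]
  · have h1 := mem_S.1 hr
    simp only [Bool.and_eq_true, decide_eq_true_eq] at h1
    exact h1.2

end Vale.Agent.P359.Gap.OneBody
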