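import Vale.Agent.P359.Gap.CritDefs
import Vale.Agent.P359.Gap.Overlap
import Vale.Agent.P359.Gap.Cert.Sq

/-!
# P359, gap: the crude bound for large relative degree

`crude sq Q m` is the quantity of `fullBound_of_exch`. For large `Q` it decays geometrically in `m`
from `m = 71` on, uniformly up to `m = 2 * Q`; its weighted sum is at most `1/1000`.
-/

open Finset Filter Topology

namespace Vale.Agent.P359.Gap

/-- One term of the crude bound. -/
noncomputable def crudeTerm (t : Sq) (Q m r r' : ℕ) : ℝ :=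
  if r ≤ m ∧ r' ≤ m ∧ m - r ≤ Q ∧ m - r' ≤ Q then
    2 * |t.β r * t.β r'| * (Q : ℝ) ^ t.n *
      |gExch (t.outChg Q) Q (t.outCh r) (m - r) (t.outCh r') (m - r')| /
      Real.sqrt (gInner (impChg Q) Q r (m - r) r (m - r) *
        gInner (impChg Q) Q r' (m - r') r' (m - r'))
  else 0

/-- The crude bound of one relative degree. -/
noncomputable def crude (sq : List Sq) (Q m : ℕ) : ℝ :=
  (sq.map fun t => ∑ r ∈ t.S, ∑ r' ∈ t.S, crudeTerm t Q m r r').sum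

namespace Tail

/-- A binomial coefficient in a form that evaluates quickly. -/
def ch (n k : ℕ) : ℕ := n.descFactorial k / k.factorial

theorem ch_eq (n k : ℕ) : ch n k = n.choose k :=
  (Nat.choose_eq_descFactorial_div_factorial n k).symm

/-- The sum in `Ga`, cleared of denominators. -/
def T (r q r' : ℕ) : ℕ :=
  ∑ i ∈ range (min r r' + 1), ch r i * ch q (r' - i) * 8 ^ (18 - i)

theorem Ga_eq {r q r' q' : ℕ} (hr' : r' ≤ 18) (hq : r' ≤ q) (hm : r + q = r' + q') :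
    Planar.Ga r q r' q' = (r'.factorial : ℚ) * (q'.factorial : ℚ) *
      (4 ^ (r + q) * (T r q r' : ℚ) / (8 ^ 18 * 3 ^ (r + 2 * q - r'))) := by
  rw [Planar.Ga, if_pos hm]
  congr 1
  rw [T, Nat.cast_sum, Finset.mul_sum, Finset.sum_div]
  refine Finset.sum_congr rfl fun i hi => ?_
  have hi' := mem_range.1 hi
  rw [if_pos (show r' ≤ q + i by omega)]
  push_cast [ch_eq]
  set u := r + r' - 2 * i with hu
  set v := q + i - r' with hv
  rw [show r + q = u + v + i by omega, show r + 2 * q - r' = u + 2 * v by omega,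
    show (8 : ℚ) ^ 18 = 8 ^ (18 - i) * 8 ^ i from by
      rw [← pow_add]; congr 1; omega,
    pow_add, pow_add, pow_add, pow_mul, div_pow, div_pow, div_pow, one_pow]
  have e : (2 : ℚ) ^ i * 4 ^ i = 8 ^ i := by rw [← mul_pow]; norm_num
  rw [← e]
  norm_num
  field_simp

theorem exB_eq {a q b p : ℕ} (ha : a ≤ 18) (hb : b ≤ 18) (hq : b ≤ q) (hp : a ≤ p)
    (hm : a + q = b + p) :
    Planar.exB a q b p = 8 ^ (a + b) * (T a q b : ℚ) * (T b p a : ℚ) / (8 ^ 36 * 9 ^ (a + q)) := by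
  rw [Planar.exB, Ga_eq hb hq hm, Ga_eq ha hp hm.symm]
  simp only [Planar.N]
  have f0 : ∀ k : ℕ, (k.factorial : ℚ) ≠ 0 := fun k => by exact_mod_cast k.factorial_ne_zero
  have e3 : (3 : ℚ) ^ (a + 2 * q - b) * 3 ^ (b + 2 * p - a) = 3 ^ (2 * q) * 3 ^ (2 * p) := by
    rw [← pow_add, ← pow_add]
    congr 1
    omega
  have e9 : (9 : ℚ) ^ (a + q) = 3 ^ a * 3 ^ q * (3 ^ b * 3 ^ p) := by
    rw [show (9 : ℚ) = 3 * 3 by norm_num, mul_pow]
    nth_rewrite 2 [hm]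
    rw [pow_add, pow_add]
  have e8 : (8 : ℚ) ^ 36 = 8 ^ 18 * 8 ^ 18 := by norm_num
  have e4 : (4 : ℚ) ^ (a + q) * 4 ^ (b + p) = 4 ^ a * 4 ^ b * (4 ^ q * 4 ^ p) := by
    rw [pow_add, pow_add]
    ring
  have e24 : (8 : ℚ) ^ (a + b) = 4 ^ a * 4 ^ b * (2 ^ a * 2 ^ b) := by
    rw [show (8 : ℚ) = 4 * 2 by norm_num, mul_pow, pow_add, pow_add]
  rw [e9, e8, e24]
  have h3 : (3 : ℚ) ^ (2 * q) = 3 ^ q * 3 ^ q := by rw [two_mul, pow_add]
  have h3' : (3 : ℚ) ^ (2 * p) = 3 ^ p * 3 ^ p := by rw [two_mul, pow_add]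
  rw [h3, h3'] at e3
  set x := (T a q b : ℚ)
  set y := (T b p a : ℚ)
  set A := (3 : ℚ) ^ (a + 2 * q - b) with hA
  set B := (3 : ℚ) ^ (b + 2 * p - a) with hB
  have hA0 : A ≠ 0 := by positivity
  have hB0 : B ≠ 0 := by positivity
  calc (b.factorial : ℚ) * (p.factorial : ℚ) * (4 ^ (a + q) * x / (8 ^ 18 * A)) *
        ((a.factorial : ℚ) * (q.factorial : ℚ) * (4 ^ (b + p) * y / (8 ^ 18 * B))) /
        ((a.factorial : ℚ) * (3 / 2) ^ a * (q.factorial : ℚ) * (4 / 3) ^ q *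
          ((b.factorial : ℚ) * (3 / 2) ^ b * (p.factorial : ℚ) * (4 / 3) ^ p))
      = (4 ^ (a + q) * 4 ^ (b + p)) * x * y / (8 ^ 18 * 8 ^ 18 * (A * B) *
          ((3 / 2) ^ a * (4 / 3) ^ q * ((3 / 2) ^ b * (4 / 3) ^ p))) := by
        field_simp [f0]
    _ = _ := by
        rw [e4, e3]
        simp only [div_pow]
        field_simp

/-- The channel pairs of a square with shift `N - 5`. -/
def pairs (N : ℕ) : Finset (ℕ × ℕ) :=
  (Cert.RL.toFinset ×ˢ Cert.RL.toFinset).filter fun rs => 5 ≤ rs.1 + N ∧ 5 ≤ rs.2 + N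

/-- All shifts and channel pairs. -/
def trips : Finset (Σ _ : ℕ, ℕ × ℕ) := (range 11).sigma pairs

/-- The squares with shift `N - 5`. -/
def grp (N : ℕ) : List Cert.SqD :=
  [[], [], Cert.sqs0, Cert.sqs1, Cert.sqs2, Cert.sqs3, Cert.sqs4, Cert.sqs5, Cert.sqs6, Cert.sqs7,
    Cert.sqs8].getD N []

/-- The modulus of the product of two coefficients of a list. -/
def absProd (b : List ℚ) (rs : ℕ × ℕ) : ℚ :=
  |((Cert.RL.zip b).lookup rs.1).getD 0 * ((Cert.RL.zip b).lookup rs.2).getD 0|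

/-- Summed modulus of the coefficients of one channel pair over the squares with one shift. -/
def wgt (N : ℕ) (rs : ℕ × ℕ) : ℚ := (((grp N).map fun d => d.b).map fun b => absProd b rs).sum

theorem grp_ok : ∀ N ∈ range 11,
    ((Cert.sqD.filter fun d => decide (d.n + 5 = (N : ℤ))).map fun d => d.b) =
      (grp N).map fun d => d.b := by
  decide +kernel

theorem wgt_eq {N : ℕ} (hN : N ∈ range 11) (rs : ℕ × ℕ) :
    (Cert.sqD.map fun d =>
      if d.n + 5 = (N : ℤ) then |Cert.bVal d rs.1 * Cert.bVal d rs.2| else 0).sum = wgt N rs := by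
  rw [wgt, ← grp_ok N hN]
  generalize Cert.sqD = L
  induction L with
  | nil => simp
  | cons d L ih =>
    simp only [List.map_cons, List.sum_cons, List.filter_cons, ih]
    by_cases h : d.n + 5 = (N : ℤ)
    · simp [h, absProd, Cert.bVal]
    · simp [h]

/-- Integer form of the squared bound at degree `71`. -/
def num (N r s : ℕ) : ℕ :=
  8 ^ (r + N - 5 + (s + N - 5)) * (r + N - 5).factorial * (s + N - 5).factorial *
    T (r + N - 5) (71 - r) (s + N - 5) * T (s + N - 5) (71 - s) (r + N - 5) *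
    (Nat.factorial 13 / r.factorial) * (Nat.factorial 13 / s.factorial) * 4 ^ 5

/-- The denominator of `num`. -/
def den (N : ℕ) : ℕ := 8 ^ 36 * 9 ^ 71 * 4 ^ N * Nat.factorial 13 ^ 2

/-- The weighted squared bound at degree `71`, computable form. -/
def sqTotal : ℚ :=
  (trips.card : ℚ) * ∑ x ∈ trips, 4 * wgt x.1 x.2 ^ 2 *
    ((num x.1 x.2.1 x.2.2 : ℚ) / (den x.1 : ℚ))

theorem sqTotal_le : sqTotal ≤ 9 / 10 ^ 18 := by
  decide +kernel

theorem mem_pairs {N : ℕ} {rs : ℕ × ℕ} (h : rs ∈ pairs N) :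
    rs.1 ≤ 13 ∧ rs.2 ≤ 13 ∧ 5 ≤ rs.1 + N ∧ 5 ≤ rs.2 + N := by
  obtain ⟨h1, h2, h3⟩ := mem_filter.1 h
  obtain ⟨h4, h5⟩ := mem_product.1 h1
  simp only [List.mem_toFinset, Cert.RL, List.mem_cons, List.not_mem_nil, or_false] at h4 h5
  exact ⟨by omega, by omega, h2, h3⟩

theorem mem_trips {x : Σ _ : ℕ, ℕ × ℕ} (h : x ∈ trips) :
    x.1 ≤ 10 ∧ x.2.1 ≤ 13 ∧ x.2.2 ≤ 13 ∧ 5 ≤ x.2.1 + x.1 ∧ 5 ≤ x.2.2 + x.1 := by
  obtain ⟨h1, h2⟩ := mem_sigma.1 h
  have := mem_range.1 h1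
  exact ⟨by omega, mem_pairs h2⟩

/-- The squared normalised bound of one pair of channels. -/
def E (N m r s : ℕ) : ℚ :=
  Planar.exB (r + N - 5) (m - r) (s + N - 5) (m - s) * Planar.ratio r (r + N - 5) *
    Planar.ratio s (s + N - 5)

theorem ratio_pos (r r' : ℕ) : 0 < Planar.ratio r r' := by
  unfold Planar.ratio
  positivity

theorem E_nonneg (N m r s : ℕ) : 0 ≤ E N m r s :=
  mul_nonneg (mul_nonneg (Planar.exB_nonneg ..) (ratio_pos ..).le) (ratio_pos ..).le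

theorem ratio_eq {N r : ℕ} (hN : 5 ≤ r + N) :
    Planar.ratio r (r + N - 5) =
      ((r + N - 5).factorial : ℚ) * 3 ^ N * 2 ^ 5 / ((r.factorial : ℚ) * 2 ^ N * 3 ^ 5) := by
  unfold Planar.ratio
  have e : ((3 : ℚ) / 2) ^ (r + N - 5) * (3 / 2) ^ 5 = (3 / 2) ^ r * (3 / 2) ^ N := by
    rw [← pow_add, ← pow_add]
    congr 1
    omega
  have h : ((3 : ℚ) / 2) ^ (r + N - 5) = (3 / 2) ^ r * (3 / 2) ^ N / (3 / 2) ^ 5 := by
    rw [eq_div_iff (by positivity)]
    exact e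
  rw [h, div_pow (3 : ℚ) 2 N, div_pow (3 : ℚ) 2 5]
  field_simp

theorem E_eq {N r s : ℕ} (hN : N ≤ 10) (hr : r ≤ 13) (hs : s ≤ 13) (hr' : 5 ≤ r + N)
    (hs' : 5 ≤ s + N) :
    E N 71 r s = (num N r s : ℚ) / (den N : ℚ) := by
  have hd : ∀ k ≤ 13, ((Nat.factorial 13 / k.factorial : ℕ) : ℚ) =
      (Nat.factorial 13 : ℚ) / (k.factorial : ℚ) := fun k hk =>
    Nat.cast_div (Nat.factorial_dvd_factorial hk) (by exact_mod_cast k.factorial_ne_zero)
  rw [E, exB_eq (by omega) (by omega) (by omega) (by omega) (by omega), ratio_eq hr',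
    ratio_eq hs', num, den]
  simp only [Nat.cast_mul, Nat.cast_pow, Nat.cast_ofNat, hd r hr, hd s hs]
  have f0 : ∀ k : ℕ, (k.factorial : ℚ) ≠ 0 := fun k => by exact_mod_cast k.factorial_ne_zero
  have e9 : (9 : ℚ) ^ (r + N - 5 + (71 - r)) * 9 ^ 5 = 9 ^ 71 * 9 ^ N := by
    rw [← pow_add, ← pow_add]
    congr 1
    omega
  have h9 : (9 : ℚ) ^ (r + N - 5 + (71 - r)) = 9 ^ 71 * 9 ^ N / 9 ^ 5 := by
    rw [eq_div_iff (by positivity)]
    exact e9
  have n9 : (9 : ℚ) ^ N = 3 ^ N * 3 ^ N := by rw [← mul_pow]; norm_num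
  have n4 : (4 : ℚ) ^ N = 2 ^ N * 2 ^ N := by rw [← mul_pow]; norm_num
  rw [h9, n9, n4]
  generalize (8 : ℚ) ^ (r + N - 5 + (s + N - 5)) = W
  generalize (9 : ℚ) ^ 71 = Z
  generalize (8 : ℚ) ^ 36 = Y
  generalize hF : ((Nat.factorial 13 : ℕ) : ℚ) = F
  have hF0 : F ≠ 0 := hF ▸ f0 13
  field_simp [f0]
  ring

theorem E_sum_le :
    (trips.card : ℚ) * ∑ x ∈ trips, 4 * wgt x.1 x.2 ^ 2 * E x.1 71 x.2.1 x.2.2 ≤ 9 / 10 ^ 18 := by
  refine le_trans (le_of_eq ?_) sqTotal_le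
  rw [sqTotal]
  congr 1
  refine Finset.sum_congr rfl fun x hx => ?_
  obtain ⟨h1, h2, h3, h4, h5⟩ := mem_trips hx
  rw [E_eq h1 h2 h3 h4 h5]

theorem E_decay {N r s : ℕ} (hN : N ≤ 10) (hr : r ≤ 13) (hs : s ≤ 13) (j : ℕ) :
    E N (71 + j) r s ≤ E N 71 r s / 4 ^ j := by
  induction j with
  | zero => simp
  | succ j ih =>
    have h := Planar.exB_succ_le (r := r + N - 5) (q := 71 + j - r) (r' := s + N - 5)
      (q' := 71 + j - s) (by omega) (by omega)
    simp only [E] at ih ⊢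
    rw [show 71 + (j + 1) - r = 71 + j - r + 1 by omega,
      show 71 + (j + 1) - s = 71 + j - s + 1 by omega, pow_succ, ← div_div]
    refine le_trans (mul_le_mul_of_nonneg_right (mul_le_mul_of_nonneg_right h (ratio_pos ..).le)
      (ratio_pos ..).le) ?_
    linarith

/-- Finitely many eventual bounds for one shift. -/
theorem eventually_facts {θ : ℝ} (hθ : 1 < θ) (n : ℤ) (hn : -5 ≤ n) :
    ∀ᶠ Q : ℕ in atTop, 100 ≤ Q ∧
      (∀ a ∈ range 19, ∀ b ∈ range 19, ∀ q p : ℕ, a + q = b + p → q ≤ Q → p ≤ Q →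
        gExch ((2 * (Q : ℤ) - 2 + 2 * n).toNat) Q a q b p ^ 2 ≤
          θ ^ (2 * (a + q) + 4) * ((Planar.exB a q b p : ℚ) : ℝ) *
            (gInner ((2 * (Q : ℤ) - 2 + 2 * n).toNat) Q a q a q *
              gInner ((2 * (Q : ℤ) - 2 + 2 * n).toNat) Q b p b p)) ∧
      ∀ r ∈ range 14, ∀ a ∈ range 19, (r : ℤ) + n = a →
        kappa a ((2 * (Q : ℤ) - 2 + 2 * n).toNat) Q * (Q : ℝ) ^ n / kappa r (impChg Q) Q ≤
          θ * ((Planar.ratio r a : ℚ) : ℝ) := by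
  refine (eventually_ge_atTop 100).and ((eventually_gExch_le (tendsto_charge n) hθ 18).and ?_)
  simp only [Filter.eventually_all_finset]
  intro r _ a _
  by_cases h : (r : ℤ) + n = a
  · refine ((tendsto_ratio (tendsto_charge n) h).eventually_lt_const
      (lt_mul_of_one_lt_left (Rat.cast_pos.2 (ratio_pos r a)) hθ)).mono fun Q hQ _ => hQ.le
  · exact Eventually.of_forall fun Q hh => absurd hh h

/-- Bound on one squared term. -/
theorem term_sq_le {θ : ℝ} (hθ : 1 < θ) {t : Sq} {N Q m r s : ℕ} (hN : N ≤ 10)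
    (hn : t.n + 5 = (N : ℤ)) (hr : r ≤ 13) (hs : s ≤ 13) (hr' : 5 ≤ r + N) (hs' : 5 ≤ s + N)
    (hQ : 100 ≤ Q) (hm : 70 < m) (hrQ : m - r ≤ Q) (hsQ : m - s ≤ Q)
    (hex : ∀ a ∈ range 19, ∀ b ∈ range 19, ∀ q p : ℕ, a + q = b + p → q ≤ Q → p ≤ Q →
      gExch (t.outChg Q) Q a q b p ^ 2 ≤
        θ ^ (2 * (a + q) + 4) * ((Planar.exB a q b p : ℚ) : ℝ) *
          (gInner (t.outChg Q) Q a q a q * gInner (t.outChg Q) Q b p b p))
    (hratio : ∀ r ∈ range 14, ∀ a ∈ range 19, (r : ℤ) + t.n = a →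
      kappa a (t.outChg Q) Q * (Q : ℝ) ^ t.n / kappa r (impChg Q) Q ≤
        θ * ((Planar.ratio r a : ℚ) : ℝ)) :
    ((Q : ℝ) ^ t.n * |gExch (t.outChg Q) Q (t.outCh r) (m - r) (t.outCh s) (m - s)| /
        Real.sqrt (gInner (impChg Q) Q r (m - r) r (m - r) *
          gInner (impChg Q) Q s (m - s) s (m - s))) ^ 2 ≤
      θ ^ (2 * m + 16) * ((E N m r s : ℚ) : ℝ) := by
  have ha : t.outCh r = r + N - 5 := by simp only [Sq.outCh]; omega
  have hb : t.outCh s = s + N - 5 := by simp only [Sq.outCh]; omega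
  have hcY : (t.outChg Q : ℤ) = 2 * (Q : ℤ) - 2 + 2 * t.n := by
    simp only [Sq.outChg]; omega
  rw [ha, hb]
  set a := r + N - 5 with hadef
  set b := s + N - 5 with hbdef
  set q := m - r with hqdef
  set p := m - s with hpdef
  set cY := t.outChg Q with hcYdef
  have hexq := hex a (mem_range.2 (by omega)) b (mem_range.2 (by omega)) q p (by omega) hrQ hsQ
  have hra := hratio r (mem_range.2 (by omega)) a (mem_range.2 (by omega)) (by omega)
  have hsb := hratio s (mem_range.2 (by omega)) b (mem_range.2 (by omega)) (by omega)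
  have hi : impChg Q = 2 * Q - 2 := rfl
  have hc1 : cY + Q - 2 * a = impChg Q + Q - 2 * r := by omega
  have hc2 : cY + Q - 2 * b = impChg Q + Q - 2 * s := by omega
  rw [gInner_self (r := r) (by omega) (by omega) (by omega) hrQ,
    gInner_self (r := s) (by omega) (by omega) (by omega) hsQ]
  rw [gInner_self (r := a) (by omega) (by omega) (by omega) hrQ,
    gInner_self (r := b) (by omega) (by omega) (by omega) hsQ, hc1, hc2] at hexq
  set κr := kappa r (impChg Q) Q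
  set κs := kappa s (impChg Q) Q
  set κa := kappa a cY Q
  set κb := kappa b cY Q
  set c1 := kappa q (impChg Q + Q - 2 * r) Q
  set c2 := kappa p (impChg Q + Q - 2 * s) Q
  have pr : 0 < κr := kappa_pos (by omega) (by omega)
  have ps : 0 < κs := kappa_pos (by omega) (by omega)
  have pa : 0 < κa := kappa_pos (by omega) (by omega)
  have pb : 0 < κb := kappa_pos (by omega) (by omega)
  have p1 : 0 < c1 := kappa_pos (by omega) hrQ
  have p2 : 0 < c2 := kappa_pos (by omega) hsQ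
  set Z := (Q : ℝ) ^ t.n with hZ
  have hZ0 : 0 < Z := zpow_pos (Nat.cast_pos.2 (by omega)) _
  have hθ0 : 0 < θ := by linarith
  have hE : ((E N m r s : ℚ) : ℝ) = ((Planar.exB a q b p : ℚ) : ℝ) *
      ((Planar.ratio r a : ℚ) : ℝ) * ((Planar.ratio s b : ℚ) : ℝ) := by
    simp only [E]
    push_cast
    rfl
  have hB0 : 0 ≤ ((Planar.exB a q b p : ℚ) : ℝ) := Rat.cast_nonneg.2 (Planar.exB_nonneg ..)
  have hR0 : 0 ≤ ((Planar.ratio r a : ℚ) : ℝ) := Rat.cast_nonneg.2 (ratio_pos ..).le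
  rw [hE]
  set X := ((Planar.exB a q b p : ℚ) : ℝ)
  set Rr := ((Planar.ratio r a : ℚ) : ℝ)
  set Rs := ((Planar.ratio s b : ℚ) : ℝ)
  set g := gExch cY Q a q b p
  rw [div_pow, mul_pow, sq_abs, Real.sq_sqrt (by positivity)]
  calc Z ^ 2 * g ^ 2 / (κr * c1 * (κs * c2))
      ≤ Z ^ 2 * (θ ^ (2 * (a + q) + 4) * X * (κa * c1 * (κb * c2))) / (κr * c1 * (κs * c2)) :=
        div_le_div_of_nonneg_right (mul_le_mul_of_nonneg_left hexq (sq_nonneg Z)) (by positivity)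
    _ = θ ^ (2 * (a + q) + 4) * X * ((κa * Z / κr) * (κb * Z / κs)) := by
        field_simp
    _ ≤ θ ^ (2 * (a + q) + 4) * X * ((θ * Rr) * (θ * Rs)) := by
        refine mul_le_mul_of_nonneg_left ?_ (mul_nonneg (pow_nonneg hθ0.le _) hB0)
        exact mul_le_mul hra hsb (by positivity) (mul_nonneg hθ0.le hR0)
    _ = θ ^ (2 * (a + q) + 6) * (X * Rr * Rs) := by ring
    _ ≤ θ ^ (2 * m + 16) * (X * Rr * Rs) := by
        refine mul_le_mul_of_nonneg_right (pow_le_pow_right₀ hθ.le (by omega)) ?_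
        exact mul_nonneg (mul_nonneg hB0 hR0) (Rat.cast_nonneg.2 (ratio_pos ..).le)

/-- The normalised overlap of one shift and channel pair. -/
noncomputable def nrm (Q m N : ℕ) (rs : ℕ × ℕ) : ℝ :=
  if rs.1 ≤ m ∧ rs.2 ≤ m ∧ m - rs.1 ≤ Q ∧ m - rs.2 ≤ Q then
    (Q : ℝ) ^ ((N : ℤ) - 5) *
      |gExch ((2 * (Q : ℤ) - 2 + 2 * ((N : ℤ) - 5)).toNat) Q
        (((rs.1 : ℤ) + ((N : ℤ) - 5)).toNat) (m - rs.1)
        (((rs.2 : ℤ) + ((N : ℤ) - 5)).toNat) (m - rs.2)| /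
      Real.sqrt (gInner (impChg Q) Q rs.1 (m - rs.1) rs.1 (m - rs.1) *
        gInner (impChg Q) Q rs.2 (m - rs.2) rs.2 (m - rs.2))
  else 0

theorem nrm_nonneg (Q m N : ℕ) (rs : ℕ × ℕ) : 0 ≤ nrm Q m N rs := by
  unfold nrm
  split_ifs
  · exact div_nonneg (mul_nonneg (zpow_nonneg (Nat.cast_nonneg _) _) (abs_nonneg _))
      (Real.sqrt_nonneg _)
  · exact le_rfl

/-- A list sum split by a key. -/
theorem list_fiber {α : Type*} (L : List α) (key : α → ℤ) (T : Finset ℕ)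
    (hkey : ∀ a ∈ L, ∃ N ∈ T, key a = (N : ℤ)) (f : α → ℕ → ℝ) :
    (L.map fun a => f a (key a).toNat).sum =
      ∑ N ∈ T, (L.map fun a => if key a = (N : ℤ) then f a N else 0).sum := by
  induction L with
  | nil => simp
  | cons a L ih =>
    obtain ⟨N, hN, hk⟩ := hkey a (List.mem_cons_self ..)
    simp only [List.map_cons, List.sum_cons]
    rw [Finset.sum_add_distrib, ih fun b hb => hkey b (List.mem_cons_of_mem a hb),
      Finset.sum_eq_single N (fun M _ hne => if_neg (by omega)) (fun h => absurd hN h),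
      if_pos hk, hk, Int.toNat_natCast]

theorem data_n (d : Cert.SqD) (hd : d ∈ Cert.sqD) : -5 ≤ d.n ∧ d.n ≤ 5 := by
  have h := List.all_eq_true.1 Cert.data_ok.2 d hd
  simp only [Bool.and_eq_true, decide_eq_true_eq] at h
  exact ⟨by omega, h.1.1.2⟩

/-- The crude bound is a weighted sum of normalised overlaps. -/
theorem crude_le (Q m : ℕ) :
    crude Cert.certSq Q m ≤ ∑ x ∈ trips, 2 * (wgt x.1 x.2 : ℝ) * nrm Q m x.1 x.2 := by
  set f : Cert.SqD → ℕ → ℝ := fun d N =>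
    ∑ rs ∈ pairs N, 2 * |((Cert.bVal d rs.1 * Cert.bVal d rs.2 : ℚ) : ℝ)| * nrm Q m N rs with hf
  have h1 : crude Cert.certSq Q m ≤ (Cert.sqD.map fun d => f d (d.n + 5).toNat).sum := by
    rw [crude, Cert.certSq, List.map_map]
    refine List.sum_le_sum fun d hd => ?_
    obtain ⟨hn1, hn2⟩ := data_n d hd
    simp only [Function.comp_apply, hf]
    rw [← Finset.sum_product']
    have hpairs : pairs (d.n + 5).toNat = d.toSq.S ×ˢ d.toSq.S := by
      ext ⟨r, s⟩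
      simp only [pairs, Cert.SqD.toSq, mem_filter, mem_product, List.mem_toFinset,
        List.mem_filter, decide_eq_true_eq]
      constructor
      · rintro ⟨⟨hr, hs⟩, h1, h2⟩
        exact ⟨⟨hr, by omega⟩, hs, by omega⟩
      · rintro ⟨⟨hr, h1⟩, hs, h2⟩
        exact ⟨⟨hr, hs⟩, by omega, by omega⟩
    rw [hpairs]
    refine Finset.sum_le_sum fun rs _ => le_of_eq ?_
    have e : ((((d.n + 5).toNat : ℕ) : ℤ)) - 5 = d.n := by omega
    simp only [crudeTerm, nrm, e, Sq.outCh, Sq.outChg, Cert.SqD.toSq]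
    push_cast
    split_ifs <;> ring
  refine h1.trans (le_of_eq ?_)
  rw [list_fiber Cert.sqD (fun d => d.n + 5) (range 11) (fun d hd => ?_) f, trips,
    Finset.sum_sigma]
  · refine Finset.sum_congr rfl fun N hN => ?_
    have hw : ∀ (L : List Cert.SqD) (P : Finset (ℕ × ℕ)) (u : ℕ × ℕ → ℝ),
        (L.map fun d => if d.n + 5 = (N : ℤ) then
          ∑ rs ∈ P, 2 * |((Cert.bVal d rs.1 * Cert.bVal d rs.2 : ℚ) : ℝ)| * u rs else 0).sum =
        ∑ rs ∈ P, 2 * (((L.map fun d => if d.n + 5 = (N : ℤ) then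
          |Cert.bVal d rs.1 * Cert.bVal d rs.2| else 0).sum : ℚ) : ℝ) * u rs := by
      intro L P u
      induction L with
      | nil => simp
      | cons d L ih =>
        simp only [List.map_cons, List.sum_cons, ih]
        split_ifs
        · rw [← Finset.sum_add_distrib]
          exact Finset.sum_congr rfl fun rs _ => by push_cast; ring
        · simp
    rw [hw Cert.sqD (pairs N) (nrm Q m N)]
    exact Finset.sum_congr rfl fun rs _ => by rw [wgt_eq hN rs]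
  · obtain ⟨hn1, hn2⟩ := data_n d hd
    exact ⟨(d.n + 5).toNat, mem_range.2 (by omega), by omega⟩

/-- The bound on the crude term of degree `m`. -/
noncomputable def s0 (m : ℕ) : ℝ :=
  if 70 < m then 3 / 10 ^ 9 * (1001 / 1000) ^ (m + 8) / 2 ^ (m - 71) else 0

theorem s0_nonneg (m : ℕ) : 0 ≤ s0 m := by
  unfold s0
  split_ifs
  · positivity
  · exact le_rfl

theorem weighted_sum_le (M : ℕ) :
    ∑ m ∈ range M, 3 / 4 * ((m : ℝ) + 2) ^ 2 * s0 m ≤ 1 / 1000 := by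
  set ρ : ℝ := (74 / 73) ^ 2 * (1001 / 1000) / 2 with hρ
  set C : ℝ := 3 / 4 * 73 ^ 2 * (3 / 10 ^ 9) * (1001 / 1000) ^ 79 with hC
  have hbound : ∀ j : ℕ, 3 / 4 * (((71 + j : ℕ) : ℝ) + 2) ^ 2 * s0 (71 + j) ≤ C * ρ ^ j := by
    intro j
    rw [s0, if_pos (by omega), Nat.add_sub_cancel_left, hρ, hC]
    have hb : ((71 + j : ℕ) : ℝ) + 2 ≤ 73 * (74 / 73) ^ j := by
      have h := one_add_mul_le_pow (show (-2 : ℝ) ≤ 1 / 73 by norm_num) j
      rw [show (1 : ℝ) + 1 / 73 = 74 / 73 by norm_num] at h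
      push_cast
      linarith
    have h2 : (((71 + j : ℕ) : ℝ) + 2) ^ 2 ≤ (73 * (74 / 73) ^ j) ^ 2 :=
      pow_le_pow_left₀ (by positivity) hb 2
    rw [show 71 + j + 8 = 79 + j by omega, pow_add]
    refine (mul_le_mul_of_nonneg_right (mul_le_mul_of_nonneg_left h2 (by norm_num))
      (by positivity)).trans (le_of_eq ?_)
    rw [mul_pow (73 : ℝ), ← pow_mul (74 / 73 : ℝ), mul_comm j 2, pow_mul, div_pow _ (2 : ℝ),
      mul_pow ((74 / 73 : ℝ) ^ 2)]
    ring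
  have hρ0 : 0 ≤ ρ := by rw [hρ]; positivity
  have hρ1 : ρ < 1 := by rw [hρ]; norm_num
  have hC0 : 0 ≤ C := by rw [hC]; positivity
  calc ∑ m ∈ range M, 3 / 4 * ((m : ℝ) + 2) ^ 2 * s0 m
      ≤ ∑ m ∈ range (71 + M), 3 / 4 * ((m : ℝ) + 2) ^ 2 * s0 m :=
        Finset.sum_le_sum_of_subset_of_nonneg (range_subset_range.2 (by omega))
          fun m _ _ => mul_nonneg (by positivity) (s0_nonneg m)
    _ = ∑ j ∈ range M, 3 / 4 * (((71 + j : ℕ) : ℝ) + 2) ^ 2 * s0 (71 + j) := by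
        rw [Finset.sum_range_add, Finset.sum_eq_zero (s := range 71) fun m hm => by
          rw [s0, if_neg (by simp at hm; omega), mul_zero], zero_add]
    _ ≤ ∑ j ∈ range M, C * ρ ^ j := Finset.sum_le_sum fun j _ => hbound j
    _ = C * ∑ j ∈ range M, ρ ^ j := (Finset.mul_sum _ _ _).symm
    _ ≤ C * (1 / (1 - ρ)) := by
        refine mul_le_mul_of_nonneg_left ?_ hC0
        rw [geom_sum_eq hρ1.ne]
        rw [div_le_iff_of_neg (by linarith)]
        have : 1 / (1 - ρ) * (ρ - 1) = -1 := by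
          rw [show ρ - 1 = -(1 - ρ) by ring, mul_neg,
            div_mul_cancel₀ _ (by linarith : (1 - ρ) ≠ 0)]
        rw [this]
        linarith [pow_nonneg hρ0 M]
    _ ≤ 1 / 1000 := by
        rw [hC, hρ]
        norm_num

/-- Geometric bound of the crude term. -/
theorem crude_le_s0 {Q m : ℕ} (hm : 70 < m)
    (hQ : ∀ n ∈ Finset.Icc (-5 : ℤ) 5, 100 ≤ Q ∧
      (∀ a ∈ range 19, ∀ b ∈ range 19, ∀ q p : ℕ, a + q = b + p → q ≤ Q → p ≤ Q →
        gExch ((2 * (Q : ℤ) - 2 + 2 * n).toNat) Q a q b p ^ 2 ≤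
          (1001 / 1000 : ℝ) ^ (2 * (a + q) + 4) * ((Planar.exB a q b p : ℚ) : ℝ) *
            (gInner ((2 * (Q : ℤ) - 2 + 2 * n).toNat) Q a q a q *
              gInner ((2 * (Q : ℤ) - 2 + 2 * n).toNat) Q b p b p)) ∧
      ∀ r ∈ range 14, ∀ a ∈ range 19, (r : ℤ) + n = a →
        kappa a ((2 * (Q : ℤ) - 2 + 2 * n).toNat) Q * (Q : ℝ) ^ n / kappa r (impChg Q) Q ≤
          (1001 / 1000 : ℝ) * ((Planar.ratio r a : ℚ) : ℝ)) :
    crude Cert.certSq Q m ≤ s0 m := by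
  have hθ : (1 : ℝ) < 1001 / 1000 := by norm_num
  refine (crude_le Q m).trans ?_
  rw [s0, if_pos hm]
  set θ : ℝ := 1001 / 1000 with hθdef
  have hθ0 : 0 < θ := by linarith
  set L : ℝ := θ ^ (2 * m + 16) / 4 ^ (m - 71) with hL
  have hL0 : 0 ≤ L := by positivity
  have hb2 : ∀ x ∈ trips, (2 * (wgt x.1 x.2 : ℝ) * nrm Q m x.1 x.2) ^ 2 ≤
      L * (((4 * wgt x.1 x.2 ^ 2 * E x.1 71 x.2.1 x.2.2 : ℚ)) : ℝ) := by
    intro x hx
    obtain ⟨h1, h2, h3, h4, h5⟩ := mem_trips hx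
    obtain ⟨hQ1, hQ2, hQ3⟩ := hQ ((x.1 : ℤ) - 5) (Finset.mem_Icc.2 ⟨by omega, by omega⟩)
    have hdec : ((E x.1 m x.2.1 x.2.2 : ℚ) : ℝ) ≤
        ((E x.1 71 x.2.1 x.2.2 : ℚ) : ℝ) / 4 ^ (m - 71) := by
      have h := E_decay h1 h2 h3 (m - 71)
      rw [show 71 + (m - 71) = m by omega] at h
      have h' := (Rat.cast_le (K := ℝ)).2 h
      push_cast at h'
      exact h'
    have hE0 : (0 : ℝ) ≤ ((E x.1 71 x.2.1 x.2.2 : ℚ) : ℝ) := Rat.cast_nonneg.2 (E_nonneg ..)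
    have hn : nrm Q m x.1 x.2 ^ 2 ≤ L * ((E x.1 71 x.2.1 x.2.2 : ℚ) : ℝ) := by
      unfold nrm
      split_ifs with h
      · refine (term_sq_le hθ (t := ⟨(x.1 : ℤ) - 5, 0, ∅, fun _ => 0⟩) (N := x.1) h1
          (show (x.1 : ℤ) - 5 + 5 = x.1 by omega) h2 h3 h4 h5 hQ1 hm h.2.2.1 h.2.2.2
          hQ2 hQ3).trans ?_
        refine (mul_le_mul_of_nonneg_left hdec (by positivity)).trans (le_of_eq ?_)
        rw [hL]
        ring
      · rw [zero_pow two_ne_zero]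
        exact mul_nonneg hL0 hE0
    rw [mul_pow, mul_pow]
    push_cast
    refine (mul_le_mul_of_nonneg_left hn (by positivity)).trans (le_of_eq ?_)
    ring
  refine le_of_pow_le_pow_left₀ two_ne_zero (by positivity) ?_
  refine sq_sum_le_card_mul_sum_sq.trans ?_
  refine (mul_le_mul_of_nonneg_left (Finset.sum_le_sum hb2) (Nat.cast_nonneg _)).trans ?_
  rw [← Finset.mul_sum, mul_left_comm]
  have hEs : (trips.card : ℝ) *
      ∑ x ∈ trips, (((4 * wgt x.1 x.2 ^ 2 * E x.1 71 x.2.1 x.2.2 : ℚ)) : ℝ) ≤ 9 / 10 ^ 18 := by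
    have h := (Rat.cast_le (K := ℝ)).2 E_sum_le
    push_cast at h ⊢
    exact h
  refine (mul_le_mul_of_nonneg_left hEs hL0).trans (le_of_eq ?_)
  rw [hL, show θ ^ (2 * m + 16) = (θ ^ (m + 8)) ^ 2 from by rw [← pow_mul]; ring_nf,
    show (4 : ℝ) ^ (m - 71) = (2 ^ (m - 71)) ^ 2 from by
      rw [← pow_mul, mul_comm, pow_mul]; norm_num]
  ring

end Tail

/-- **The tail.** For all large `Q` the crude bounds of the squares of the certificate beyond
degree `70` have weighted sum at most `1/1000`. -/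
theorem cert_tail :
    ∀ᶠ Q in atTop, ∃ s : ℕ → ℝ, (∀ m, 0 ≤ s m) ∧ (∀ m, m ≤ 70 → s m = 0) ∧
      (∀ m, 70 < m → m ≤ 2 * Q → crude Cert.certSq Q m ≤ s m) ∧
      ∑ m ∈ range (2 * Q + 1), 3 / 4 * ((m : ℝ) + 2) ^ 2 * s m ≤ 1 / 1000 := by
  have hθ : (1 : ℝ) < 1001 / 1000 := by norm_num
  have hall : ∀ᶠ Q : ℕ in atTop, ∀ n ∈ Finset.Icc (-5 : ℤ) 5, 100 ≤ Q ∧
      (∀ a ∈ range 19, ∀ b ∈ range 19, ∀ q p : ℕ, a + q = b + p → q ≤ Q → p ≤ Q →
        gExch ((2 * (Q : ℤ) - 2 + 2 * n).toNat) Q a q b p ^ 2 ≤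
          (1001 / 1000 : ℝ) ^ (2 * (a + q) + 4) * ((Planar.exB a q b p : ℚ) : ℝ) *
            (gInner ((2 * (Q : ℤ) - 2 + 2 * n).toNat) Q a q a q *
              gInner ((2 * (Q : ℤ) - 2 + 2 * n).toNat) Q b p b p)) ∧
      ∀ r ∈ range 14, ∀ a ∈ range 19, (r : ℤ) + n = a →
        kappa a ((2 * (Q : ℤ) - 2 + 2 * n).toNat) Q * (Q : ℝ) ^ n / kappa r (impChg Q) Q ≤
          (1001 / 1000 : ℝ) * ((Planar.ratio r a : ℚ) : ℝ) := by
    rw [Filter.eventually_all_finset]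
    exact fun n hn => Tail.eventually_facts hθ n (Finset.mem_Icc.1 hn).1
  filter_upwards [hall] with Q hQ
  exact ⟨Tail.s0, Tail.s0_nonneg, fun m hm => by rw [Tail.s0, if_neg (by omega)],
    fun m hm _ => Tail.crude_le_s0 hm hQ, Tail.weighted_sum_le _⟩

end Vale.Agent.P359.Gap
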