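import Vale.Agent.P359.Gap.Assembly
import Vale.Agent.P359.Gap.Criterion
import Vale.Agent.P359.Gap.LaughlinPos
import Vale.Agent.P359.Gap.OneBody
import Vale.Agent.P359.Gap.Tail

/-!
# P359, gap: the uniform gap from the certified blocks
-/

open Finset Filter Topology

namespace Vale.Agent.P359.Gap

/-- Bounds on the blocks of degree at most `70` give the impurity bound at all large fluxes. -/
theorem impBound_of_blocks
    (hblk : ∃ s : ℕ → ℝ, (∀ m, 0 ≤ s m) ∧ (∀ m, 70 < m → s m = 0) ∧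
      (∑ m ∈ range 71, 3 / 4 * ((m : ℝ) + 2) ^ 2 * s m ≤ 2 / 100) ∧
      ∀ᶠ Q : ℕ in atTop, ∀ m ≤ 70, RangeBound Cert.certSq Q m (s m)) :
    ∃ γ > (0 : ℝ), ∃ Q₀ : ℕ, ∀ Q ≥ Q₀, ImpBound γ Q := by
  obtain ⟨sB, hsB, hsB0, hsBsum, hrange⟩ := hblk
  obtain ⟨Q₁, hQ₁⟩ := squares_eventually Cert.certSq OneBody.cert_valid
  refine ⟨3 / 100, by norm_num, eventually_atTop.1 ?_⟩
  filter_upwards [hrange, cert_tail, OneBody.eventually_hdiag, OneBody.eventually_e_sum,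
    eventually_ge_atTop Q₁, eventually_ge_atTop 40] with Q hR hT hd he hQ hQ70
  obtain ⟨sT, hsT, hsT0, hcrude, hsTsum⟩ := hT
  have hadm := fun t ht => (hQ₁ Q hQ t ht).2
  refine impBound_of_data (by omega) Cert.certSq OneBody.cert_valid
    (fun t ht => (hQ₁ Q hQ t ht).1) hadm (OneBody.e Q) (fun m => sB m + sT m)
    (OneBody.e_nonneg Q) (fun m => add_nonneg (hsB m) (hsT m)) hd (fun m hm => ?_) ?_
  · by_cases h70 : m ≤ 70
    · rw [hsT0 m h70, add_zero]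
      exact Or.inr (hR m h70)
    · rw [hsB0 m (by omega), zero_add]
      exact Or.inl (fullBound_of_exch (by omega) _ hadm _ (hcrude m (by omega) hm))
  · have h1 : ∑ m ∈ range (2 * Q + 1), 3 / 4 * ((m : ℝ) + 2) ^ 2 * sB m ≤ 2 / 100 := by
      refine le_trans (le_of_eq ?_) hsBsum
      refine (Finset.sum_subset (Finset.range_subset_range.2 (by omega)) fun m _ hm => ?_).symm
      rw [hsB0 m (by simp at hm; omega), mul_zero]
    have h3 : ∑ m ∈ range (2 * Q + 1), 3 / 4 * ((m : ℝ) + 2) ^ 2 * (sB m + sT m) =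
        ∑ m ∈ range (2 * Q + 1), 3 / 4 * ((m : ℝ) + 2) ^ 2 * sB m +
          ∑ m ∈ range (2 * Q + 1), 3 / 4 * ((m : ℝ) + 2) ^ 2 * sT m := by
      rw [← Finset.sum_add_distrib]
      exact Finset.sum_congr rfl fun m _ => mul_add _ _ _
    have h2 := OneBody.z_le
    linarith

/-- **The uniform gap**, from the blocks. -/
theorem gap_of_blocks
    (hblk : ∃ s : ℕ → ℝ, (∀ m, 0 ≤ s m) ∧ (∀ m, 70 < m → s m = 0) ∧
      (∑ m ∈ range 71, 3 / 4 * ((m : ℝ) + 2) ^ 2 * s m ≤ 2 / 100) ∧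
      ∀ᶠ Q : ℕ in atTop, ∀ m ≤ 70, RangeBound Cert.certSq Q m (s m)) :
    ∃ δ > (0 : ℝ), ∃ N₀ : ℕ, ∀ N ≥ N₀, 0 < inner' (laughlin N) (laughlin N) ∧
      ∀ ψ : Config N (3 * (N - 1)) → ℂ, IsAntisymC ψ →
        δ * ((∑ c, Complex.normSq (ψ c)) -
          Complex.normSq (∑ c, (laughlin N c : ℂ) * ψ c) / inner' (laughlin N) (laughlin N)) ≤
            energyC ψ := by
  obtain ⟨δ, hδ, N₀, hN₀⟩ := gap_of_impBound (impBound_of_blocks hblk)
  exact ⟨δ, hδ, N₀, fun N hN => ⟨inner_laughlin_pos N, (hN₀ N hN).2⟩⟩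

end Vale.Agent.P359.Gap
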