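import Vale.Agent.P359.Poly
import Vale.Agent.P359.Gap.Core

/-!
# P359, gap: the Laughlin vector

The Laughlin vector is a nonzero antisymmetric state of zero energy.
-/

open Finset MvPolynomial
open scoped Classical

namespace Vale.Agent.P359.Gap

variable {n : ℕ}

/-- The Laughlin polynomial. -/
noncomputable def lpoly (n : ℕ) : MvPolynomial (Fin n) ℝ :=
  ∏ i : Fin n, ∏ j ∈ Finset.Ioi i, (X j - X i) ^ 3

lemma laughlin_eq (c : Config n (3 * (n - 1))) :
    laughlin n c = coeff (expo c) (lpoly n) /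
      ∏ i, Real.sqrt ((3 * (n - 1)).choose (c i)) := rfl

lemma coeff_lpoly_perm {Q : ℕ} (c : Config n Q) (τ : Equiv.Perm (Fin n)) :
    coeff (expo (c ∘ τ)) (lpoly n) =
      ((Equiv.Perm.sign τ : ℤ) : ℝ) * coeff (expo c) (lpoly n) := by
  have h := coeff_rename_mapDomain τ τ.injective (lpoly n) (expo (c ∘ τ))
  have hm : Finsupp.mapDomain τ (expo (c ∘ τ)) = expo c := by
    ext i
    obtain ⟨j, rfl⟩ := τ.surjective i
    rw [Finsupp.mapDomain_apply τ.injective]; rfl
  have hr : rename τ (lpoly n) = C ((Equiv.Perm.sign τ : ℤ) : ℝ) * lpoly n := by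
    simp only [lpoly, Finset.prod_pow, map_pow, vand_rename]
    rcases Int.units_eq_one_or (Equiv.Perm.sign τ) with h | h <;> simp [h]
    ring
  rw [hm, hr, coeff_C_mul] at h
  exact h.symm

/-- The Laughlin vector is antisymmetric. -/
theorem laughlin_antisym (N : ℕ) : IsAntisym (laughlin N) := by
  intro c τ
  rw [laughlin_eq, laughlin_eq, coeff_lpoly_perm, mul_div_assoc]
  congr 2
  exact Equiv.prod_comp τ (fun i => Real.sqrt ((3 * (N - 1)).choose (c i)))

lemma lpoly_coeff_le {m : Fin n →₀ ℕ} (h : coeff m (lpoly n) ≠ 0) (i : Fin n) :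
    m i ≤ 3 * (n - 1) := by
  have e : shifted n = monomial (Finsupp.equivFunOnFinite.symm fun _ => 2) 1 * lpoly n := by
    rw [shifted, lpoly, MvPolynomial.monomial_eq, C_1, one_mul]
    congr 1
    rw [Finsupp.prod_fintype _ _ fun _ => pow_zero _]
    rfl
  have h2 : coeff (Finsupp.equivFunOnFinite.symm (fun _ => 2) + m) (shifted n) ≠ 0 := by
    rw [e, coeff_monomial_mul, one_mul]; exact h
  have := coeff_le h2 i
  simp at this
  omega

lemma sqrt_choose_pos' (Q : ℕ) (a : Fin (Q + 1)) : 0 < Real.sqrt (Q.choose a) :=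
  Real.sqrt_pos.2 (Nat.cast_pos.2 (Nat.choose_pos (Nat.le_of_lt_succ a.isLt)))

lemma lpoly_dvd {p q : Fin n} (h : p ≠ q) :
    (X q - X p : MvPolynomial (Fin n) ℝ) ^ 2 ∣ lpoly n := by
  have key : ∀ a b : Fin n, a < b → (X b - X a : MvPolynomial (Fin n) ℝ) ^ 2 ∣ lpoly n :=
    fun a b hab => (pow_dvd_pow _ (show 2 ≤ 3 by norm_num)).trans
      ((Finset.dvd_prod_of_mem (fun b => (X b - X a : MvPolynomial (Fin n) ℝ) ^ 3)
        (Finset.mem_Ioi.2 hab)).trans (Finset.dvd_prod_of_mem (fun a => ∏ b ∈ Finset.Ioi a,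
          (X b - X a : MvPolynomial (Fin n) ℝ) ^ 3) (Finset.mem_univ a)))
  rcases lt_or_gt_of_ne h with h' | h'
  · exact key p q h'
  · rw [← neg_sq, neg_sub]; exact key q p h'

lemma laughlin_pairAmp_eq_zero {Q : ℕ} (hQ : Q = 3 * (n - 1)) (d : Config n Q) {p q : Fin n}
    (hpq : p ≠ q) (S : ℕ) : pairAmp S p q d
      (fun c => coeff (expo c) (lpoly n) / ∏ i, Real.sqrt (Q.choose (c i))) = 0 := by
  set m := expo (Function.update (Function.update d p 0) q 0)
  set R := ∏ i ∈ (univ.erase p).erase q, Real.sqrt (Q.choose (d i))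
  set T := fun a : ℕ => ((S : ℝ) + (-2) * (a : ℕ)) *
      coeff (m + Finsupp.single p a + Finsupp.single q (S - a)) (lpoly n)
  have hterm : ∀ a b : Fin (Q + 1),
      pairVec Q S a b *
        (coeff (expo (Function.update (Function.update d p a) q b)) (lpoly n) /
          ∏ i, Real.sqrt (Q.choose (Function.update (Function.update d p a) q b i))) =
      (if (a : ℕ) + b = S then T a else 0) / R := by
    intro a b
    unfold pairVec
    split_ifs with h
    · have hR : ∏ i, Real.sqrt (Q.choose (Function.update (Function.update d p a) q b i)) =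
          Real.sqrt (Q.choose a) * Real.sqrt (Q.choose b) * R := by
        rw [← mul_prod_erase univ _ (mem_univ p),
          ← mul_prod_erase (univ.erase p) _ (Finset.mem_erase.2 ⟨hpq.symm, mem_univ q⟩)]
        simp only [Function.update_self, Function.update_of_ne hpq]
        rw [← mul_assoc]
        congr 1
        refine Finset.prod_congr rfl fun i hi => ?_
        simp only [Finset.mem_erase] at hi
        simp [Function.update_of_ne hi.1, Function.update_of_ne hi.2.1]
      have he : expo (Function.update (Function.update d p a) q b) =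
          m + Finsupp.single p (a : ℕ) + Finsupp.single q (S - a) := by
        ext i
        rcases eq_or_ne i q with rfl | hq
        · simp [m, hpq.symm]; omega
        rcases eq_or_ne i p with rfl | hp
        · simp [m, hpq]
        · simp [m, hq, hp]
      rw [he, hR]
      have h1 := sqrt_choose_pos' Q a
      have h2 := sqrt_choose_pos' Q b
      have hb : ((b : ℕ) : ℝ) = (S : ℝ) - ((a : ℕ) : ℝ) := by
        have : ((a : ℕ) : ℝ) + ((b : ℕ) : ℝ) = (S : ℝ) := by exact_mod_cast h
        linarith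
      simp only [T]
      rw [hb]
      field_simp
      ring
    · simp
  unfold pairAmp
  rw [Finset.sum_congr rfl fun a _ => Finset.sum_congr rfl fun b _ => hterm a b]
  simp only [← Finset.sum_div]
  rw [div_eq_zero_iff]
  refine Or.inl ?_
  obtain ⟨F, hF⟩ := lpoly_dvd hpq
  have hl : lam m p q S (S : ℝ) (-2) (lpoly n) = 0 := by
    rw [hF, sq, mul_assoc, lam_mul hpq (by simp [m, hpq]) (by simp [m])]
    split_ifs
    · rfl
    · rw [lam_mul hpq (by simp [m, hpq]) (by simp [m])]
      split_ifs
      · rfl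
      · simp [lam]
  rw [lam] at hl
  refine Eq.trans ?_ hl
  have hin : ∀ a : Fin (Q + 1), (∑ b : Fin (Q + 1), if (a : ℕ) + b = S then T a else 0)
      = if (a : ℕ) ≤ S ∧ S - a < Q + 1 then T a else 0 := by
    intro a
    split_ifs with h
    · rw [Finset.sum_eq_single ⟨S - a, h.2⟩]
      · rw [if_pos]; simp only; omega
      · intro b _ hb; rw [if_neg]; intro h'; exact hb (Fin.ext (by simp only; omega))
      · simp
    · exact Finset.sum_eq_zero fun b _ => if_neg (by have := b.isLt; omega)
  rw [Finset.sum_congr rfl fun a _ => hin a,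
    Fin.sum_univ_eq_sum_range (fun a => if a ≤ S ∧ S - a < Q + 1 then T a else 0),
    ← Finset.sum_filter]
  refine Finset.sum_subset (fun a ha => ?_) (fun a ha hna => ?_)
  · simp only [Finset.mem_filter, Finset.mem_range] at ha ⊢; omega
  · simp only [Finset.mem_filter, Finset.mem_range] at ha hna
    simp only [T, mul_eq_zero]
    refine Or.inr (by_contra fun hne => ?_)
    have h1 := lpoly_coeff_le hne p
    have h2 := lpoly_coeff_le hne q
    simp [m, hpq, hpq.symm] at h1 h2
    omega

/-- The Laughlin vector has zero energy. -/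
theorem energy_laughlin (N : ℕ) : energy (laughlin N) = 0 :=
  Finset.sum_eq_zero fun x hx => Finset.sum_eq_zero fun c _ => Finset.sum_eq_zero fun S _ => by
    rw [show laughlin N = fun c => coeff (expo c) (lpoly N) /
        ∏ i, Real.sqrt ((3 * (N - 1)).choose (c i)) from funext laughlin_eq,
      laughlin_pairAmp_eq_zero rfl c (Finset.mem_filter.1 hx).2.ne]
    simp

/-- The Laughlin vector is nonzero. -/
theorem laughlin_ne_zero (N : ℕ) : ∃ c, laughlin N c ≠ 0 := by
  have h0 : lpoly N ≠ 0 := by
    refine prod_ne_zero_iff.2 fun i _ => prod_ne_zero_iff.2 fun j hj => pow_ne_zero _ ?_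
    rw [sub_ne_zero]
    exact fun h => (Finset.mem_Ioi.1 hj).ne' (X_injective h)
  obtain ⟨m, hm⟩ := MvPolynomial.ne_zero_iff.1 h0
  refine ⟨fun i => ⟨m i, Nat.lt_succ_of_le (lpoly_coeff_le hm i)⟩, ?_⟩
  rw [laughlin_eq]
  refine div_ne_zero ?_ (Finset.prod_ne_zero_iff.2 fun i _ => (sqrt_choose_pos' _ _).ne')
  have he : expo (fun i => (⟨m i, Nat.lt_succ_of_le (lpoly_coeff_le hm i)⟩ :
      Fin (3 * (N - 1) + 1))) = m := by ext i; rfl
  rw [he]
  exact hm

end Vale.Agent.P359.Gap
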