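import Mathlib

/-!
# P359, gap: positivity of an invariant form from the highest weight vectors

`L` is a lowering matrix on a finite graded index set with `[L, Lᵀ] = C - 2 deg`; a form whose
matrix commutes with `L` and `Lᵀ` is nonnegative on an invariant subspace as soon as it is
nonnegative on the homogeneous vectors killed by `L` of degree at most `C / 2`.
-/

open Finset Matrix
open scoped Classical

namespace Vale.Agent.P359.Gap.Lift

set_option linter.unusedSectionVars false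

variable {ι : Type*} [Fintype ι] [DecidableEq ι]

/-- A lowering matrix of top weight `C`. -/
structure Ladder (L : Matrix ι ι ℝ) (deg : ι → ℕ) (C : ℝ) : Prop where
  shift : ∀ i j, L i j ≠ 0 → deg j = deg i + 1
  comm : L * Lᵀ - Lᵀ * L = diagonal fun i => C - 2 * (deg i : ℝ)

/-- The homogeneous part of degree `d`. -/
noncomputable def part (deg : ι → ℕ) (d : ℕ) (v : ι → ℝ) : ι → ℝ :=
  fun i => if deg i = d then v i else 0

/-- Supported in degree `d`. -/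
def Homog (deg : ι → ℕ) (d : ℕ) (v : ι → ℝ) : Prop := ∀ i, deg i ≠ d → v i = 0

theorem part_homog (deg : ι → ℕ) (d : ℕ) (v : ι → ℝ) : Homog deg d (part deg d v) := fun i hi => by
  simp [part, hi]

theorem Homog.sub {deg : ι → ℕ} {d : ℕ} {u v : ι → ℝ} (hu : Homog deg d u) (hv : Homog deg d v) :
    Homog deg d (u - v) := fun i hi => by simp [hu i hi, hv i hi]

section

variable {L : Matrix ι ι ℝ} {deg : ι → ℕ} {C : ℝ}

theorem Ladder.lower_homog (hL : Ladder L deg C) {d : ℕ} {v : ι → ℝ} (hv : Homog deg (d + 1) v) :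
    Homog deg d (L *ᵥ v) := by
  intro i hi
  refine Finset.sum_eq_zero fun j _ => ?_
  show L i j * v j = 0
  by_cases hj : L i j = 0
  · simp [hj]
  · rw [hv j (by have := hL.shift i j hj; omega), mul_zero]

theorem Ladder.lower_zero (hL : Ladder L deg C) {v : ι → ℝ} (hv : Homog deg 0 v) : L *ᵥ v = 0 := by
  funext i
  refine Finset.sum_eq_zero fun j _ => ?_
  show L i j * v j = 0
  by_cases hj : L i j = 0
  · simp [hj]
  · rw [hv j (by have := hL.shift i j hj; omega), mul_zero]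

theorem Ladder.raise_homog (hL : Ladder L deg C) {d : ℕ} {v : ι → ℝ} (hv : Homog deg d v) :
    Homog deg (d + 1) (Lᵀ *ᵥ v) := by
  intro i hi
  refine Finset.sum_eq_zero fun j _ => ?_
  show Lᵀ i j * v j = 0
  rw [transpose_apply]
  by_cases hj : L j i = 0
  · simp [hj]
  · rw [hv j (by have := hL.shift j i hj; omega), mul_zero]

theorem Ladder.lower_raise (hL : Ladder L deg C) {d : ℕ} {v : ι → ℝ} (hv : Homog deg d v) :
    L *ᵥ (Lᵀ *ᵥ v) = Lᵀ *ᵥ (L *ᵥ v) + (C - 2 * d) • v := by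
  have h := congrArg (fun M : Matrix ι ι ℝ => M *ᵥ v) hL.comm
  simp only [sub_mulVec, ← mulVec_mulVec] at h
  rw [sub_eq_iff_eq_add] at h
  rw [h, add_comm]
  congr 1
  funext i
  rw [mulVec_diagonal, Pi.smul_apply, smul_eq_mul]
  by_cases hi : deg i = d
  · rw [hi]
  · rw [hv i hi, mul_zero, mul_zero]

theorem Ladder.norm_raise (hL : Ladder L deg C) {d : ℕ} {v : ι → ℝ} (hv : Homog deg d v) :
    (Lᵀ *ᵥ v) ⬝ᵥ (Lᵀ *ᵥ v) = (L *ᵥ v) ⬝ᵥ (L *ᵥ v) + (C - 2 * d) * (v ⬝ᵥ v) := by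
  have h := congrArg (fun x => v ⬝ᵥ x) (hL.lower_raise hv)
  simp only [dotProduct_add, dotProduct_smul, smul_eq_mul] at h
  rw [dotProduct_mulVec v L, ← mulVec_transpose, dotProduct_mulVec v Lᵀ,
    ← mulVec_transpose, transpose_transpose] at h
  exact h

theorem self_nonneg (v : ι → ℝ) : 0 ≤ v ⬝ᵥ v :=
  Finset.sum_nonneg fun i _ => mul_self_nonneg (v i)

theorem self_eq_zero {v : ι → ℝ} (h : v ⬝ᵥ v ≤ 0) : v = 0 :=
  dotProduct_self_eq_zero.1 (le_antisymm h (self_nonneg v))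

theorem iterate_mulVec (L : Matrix ι ι ℝ) (k : ℕ) (v : ι → ℝ) :
    L *ᵥ ((L ^ k) *ᵥ v) = (L ^ (k + 1)) *ᵥ v := by
  rw [mulVec_mulVec, pow_succ']

theorem Ladder.pow_raise_homog (hL : Ladder L deg C) {d : ℕ} {v : ι → ℝ} (hv : Homog deg d v) :
    ∀ k, Homog deg (d + k) ((Lᵀ ^ k) *ᵥ v) := by
  intro k
  induction k with
  | zero => simpa using hv
  | succ k ih =>
      have h := hL.raise_homog ih
      rwa [iterate_mulVec] at h

/-- Lowering a raised highest weight vector gives a multiple of the one raised once less. -/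
theorem Ladder.lower_pow (hL : Ladder L deg C) {e : ℕ} {h : ι → ℝ} (hh : Homog deg e h)
    (h0 : L *ᵥ h = 0) : ∀ k, ∃ c : ℝ,
      L *ᵥ ((Lᵀ ^ (k + 1)) *ᵥ h) = c • ((Lᵀ ^ k) *ᵥ h) := by
  intro k
  induction k with
  | zero =>
      refine ⟨C - 2 * e, ?_⟩
      rw [pow_one, pow_zero, one_mulVec, hL.lower_raise hh, h0, mulVec_zero, zero_add]
  | succ k ih =>
      obtain ⟨c, hc⟩ := ih
      refine ⟨c + (C - 2 * ((e + (k + 1) : ℕ) : ℝ)), ?_⟩
      rw [← iterate_mulVec Lᵀ (k + 1), hL.lower_raise (hL.pow_raise_homog hh (k + 1)), hc,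
        mulVec_smul, iterate_mulVec, ← add_smul]

theorem Ladder.lower_pow_pow (hL : Ladder L deg C) {e : ℕ} {h : ι → ℝ} (hh : Homog deg e h)
    (h0 : L *ᵥ h = 0) : ∀ k, ∃ c : ℝ, (L ^ k) *ᵥ ((Lᵀ ^ k) *ᵥ h) = c • h := by
  intro k
  induction k with
  | zero => exact ⟨1, by simp⟩
  | succ k ih =>
      obtain ⟨c, hc⟩ := ih
      obtain ⟨c', hc'⟩ := hL.lower_pow hh h0 k
      refine ⟨c' * c, ?_⟩
      rw [pow_succ L, ← mulVec_mulVec, hc', mulVec_smul, hc, smul_smul]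

end

/-- A submodule stable under lowering, raising and taking homogeneous parts. -/
structure Stable (L : Matrix ι ι ℝ) (deg : ι → ℕ) (W : Submodule ℝ (ι → ℝ)) : Prop where
  lower : ∀ v ∈ W, L *ᵥ v ∈ W
  raise : ∀ v ∈ W, Lᵀ *ᵥ v ∈ W
  part : ∀ d, ∀ v ∈ W, Lift.part deg d v ∈ W

/-- Homogeneous vectors of `W`. -/
def homogSub (W : Submodule ℝ (ι → ℝ)) (deg : ι → ℕ) (d : ℕ) : Submodule ℝ (ι → ℝ) where
  carrier := {v | v ∈ W ∧ Homog deg d v}
  zero_mem' := ⟨W.zero_mem, fun _ _ => rfl⟩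
  add_mem' := fun hu hv => ⟨W.add_mem hu.1 hv.1, fun i hi => by simp [hu.2 i hi, hv.2 i hi]⟩
  smul_mem' := fun c v hv => ⟨W.smul_mem c hv.1, fun i hi => by simp [hv.2 i hi]⟩

theorem solve_of_inj (V : Submodule ℝ (ι → ℝ)) (M : Matrix ι ι ℝ)
    (hM : ∀ v ∈ V, M *ᵥ v ∈ V) (hinj : ∀ v ∈ V, M *ᵥ v = 0 → v = 0) {y : ι → ℝ} (hy : y ∈ V) :
    ∃ x ∈ V, M *ᵥ x = y := by
  let f : V →ₗ[ℝ] V := (M.mulVecLin.restrict (p := V) (q := V) (fun v hv => hM v hv))
  have hf : Function.Injective f := by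
    rw [← LinearMap.ker_eq_bot, LinearMap.ker_eq_bot']
    intro v hv
    exact Subtype.ext (hinj v.1 v.2 (congrArg Subtype.val hv))
  obtain ⟨x, hx⟩ := (LinearMap.injective_iff_surjective.1 hf) ⟨y, hy⟩
  exact ⟨x.1, x.2, congrArg Subtype.val hx⟩

section

variable {L : Matrix ι ι ℝ} {deg : ι → ℕ} {C : ℝ} {W : Submodule ℝ (ι → ℝ)}

/-- Each homogeneous vector is a highest weight vector plus a raised one. -/
theorem split_step (hL : Ladder L deg C) (hW : Stable L deg W) {e : ℕ} {v : ι → ℝ} (hvW : v ∈ W)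
    (hv : Homog deg (e + 1) v) :
    ∃ h ∈ W, ∃ u ∈ W, Homog deg (e + 1) h ∧ L *ᵥ h = 0 ∧ Homog deg e u ∧
      v = h + Lᵀ *ᵥ u := by
  by_cases hC : 2 * (e : ℝ) < C
  · have hLv : L *ᵥ v ∈ homogSub W deg e := ⟨hW.lower v hvW, hL.lower_homog hv⟩
    obtain ⟨u, hu, hu'⟩ := solve_of_inj (homogSub W deg e) (L * Lᵀ)
      (fun x hx => by
        rw [← mulVec_mulVec]
        exact ⟨hW.lower _ (hW.raise _ hx.1), hL.lower_homog (hL.raise_homog hx.2)⟩)
      (fun x hx h0 => by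
        rw [← mulVec_mulVec] at h0
        have h1 : (Lᵀ *ᵥ x) ⬝ᵥ (Lᵀ *ᵥ x) = 0 := by
          rw [dotProduct_mulVec, ← mulVec_transpose, transpose_transpose, h0, zero_dotProduct]
        rw [hL.norm_raise hx.2] at h1
        have h2 := self_nonneg (L *ᵥ x)
        exact self_eq_zero (by nlinarith)) hLv
    refine ⟨v - Lᵀ *ᵥ u, W.sub_mem hvW (hW.raise _ hu.1), u, hu.1,
      hv.sub (hL.raise_homog hu.2), ?_, hu.2, by abel⟩
    rw [mulVec_sub, mulVec_mulVec, hu', sub_self]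
  · obtain ⟨w, hw, hw'⟩ := solve_of_inj (homogSub W deg (e + 1)) (Lᵀ * L)
      (fun x hx => by
        rw [← mulVec_mulVec]
        exact ⟨hW.raise _ (hW.lower _ hx.1), hL.raise_homog (hL.lower_homog hx.2)⟩)
      (fun x hx h0 => by
        rw [← mulVec_mulVec] at h0
        have h1 : (L *ᵥ x) ⬝ᵥ (L *ᵥ x) = 0 := by
          rw [dotProduct_mulVec, ← mulVec_transpose, h0, zero_dotProduct]
        have h2 := hL.norm_raise hx.2
        rw [h1] at h2
        push_cast at h2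
        have h3 := self_nonneg (Lᵀ *ᵥ x)
        exact self_eq_zero (by nlinarith)) (show v ∈ homogSub W deg (e + 1) from ⟨hvW, hv⟩)
    refine ⟨0, W.zero_mem, L *ᵥ w, hW.lower _ hw.1, fun _ _ => rfl, mulVec_zero _,
      hL.lower_homog hw.2, ?_⟩
    rw [zero_add, mulVec_mulVec, hw']

theorem pow_transpose_dot (L : Matrix ι ι ℝ) (k : ℕ) (u v : ι → ℝ) :
    ((Lᵀ ^ k) *ᵥ u) ⬝ᵥ v = u ⬝ᵥ ((L ^ k) *ᵥ v) := by
  rw [dotProduct_mulVec u (L ^ k), ← mulVec_transpose, transpose_pow]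

theorem commute_mulVec {M K : Matrix ι ι ℝ} (h : Commute M K) (v : ι → ℝ) :
    M *ᵥ (K *ᵥ v) = K *ᵥ (M *ᵥ v) := by
  rw [mulVec_mulVec, mulVec_mulVec, h.eq]

/-- The highest weight vectors decide positivity on every raised homogeneous vector. -/
theorem raised_nonneg (hL : Ladder L deg C) (hW : Stable L deg W) {K : Matrix ι ι ℝ}
    (hKL : Commute L K) (hKR : Commute Lᵀ K)
    (hhw : ∀ (d : ℕ), 2 * (d : ℝ) ≤ C → ∀ h ∈ W, Homog deg d h → L *ᵥ h = 0 →
      0 ≤ h ⬝ᵥ (K *ᵥ h)) :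
    ∀ (d : ℕ), ∀ v ∈ W, Homog deg d v → ∀ k,
      0 ≤ ((Lᵀ ^ k) *ᵥ v) ⬝ᵥ (K *ᵥ ((Lᵀ ^ k) *ᵥ v)) := by
  have top : ∀ (d : ℕ), ∀ h ∈ W, Homog deg d h → L *ᵥ h = 0 → ∀ k,
      0 ≤ ((Lᵀ ^ k) *ᵥ h) ⬝ᵥ (K *ᵥ ((Lᵀ ^ k) *ᵥ h)) := by
    intro d h hh hd h0 k
    rcases eq_or_ne h 0 with rfl | hne
    · simp
    have hpos : 0 < h ⬝ᵥ h := lt_of_le_of_ne (self_nonneg h)
      (fun e => hne (dotProduct_self_eq_zero.1 e.symm))
    have h1 : 2 * (d : ℝ) ≤ C := by
      have h2 := hL.norm_raise hd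
      rw [h0, zero_dotProduct, zero_add] at h2
      have h3 := self_nonneg (Lᵀ *ᵥ h)
      nlinarith
    obtain ⟨c, hc⟩ := hL.lower_pow_pow hd h0 k
    have hc0 : 0 ≤ c := by
      have h2 := self_nonneg ((Lᵀ ^ k) *ᵥ h)
      rw [pow_transpose_dot, hc, dotProduct_smul, smul_eq_mul] at h2
      nlinarith
    rw [pow_transpose_dot, commute_mulVec (hKL.pow_left k), hc, mulVec_smul, dotProduct_smul,
      smul_eq_mul]
    exact mul_nonneg hc0 (hhw d h1 h hh hd h0)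
  intro d
  induction d with
  | zero => exact fun v hv hd k => top 0 v hv hd (hL.lower_zero hd) k
  | succ e ih =>
      intro v hv hd k
      obtain ⟨h, hh, u, hu, hhd, h0, hud, rfl⟩ := split_step hL hW hv hd
      have e1 : (Lᵀ ^ k) *ᵥ (Lᵀ *ᵥ u) = (Lᵀ ^ (k + 1)) *ᵥ u := by
        rw [mulVec_mulVec, ← pow_succ]
      have hz : (L ^ (k + 1)) *ᵥ ((Lᵀ ^ k) *ᵥ h) = 0 := by
        obtain ⟨c, hc⟩ := hL.lower_pow_pow hhd h0 k
        rw [pow_succ', ← mulVec_mulVec, hc, mulVec_smul, h0, smul_zero]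
      have x1 : ((Lᵀ ^ (k + 1)) *ᵥ u) ⬝ᵥ (K *ᵥ ((Lᵀ ^ k) *ᵥ h)) = 0 := by
        rw [pow_transpose_dot, commute_mulVec (hKL.pow_left (k + 1)), hz, mulVec_zero,
          dotProduct_zero]
      have x2 : ((Lᵀ ^ k) *ᵥ h) ⬝ᵥ (K *ᵥ ((Lᵀ ^ (k + 1)) *ᵥ u)) = 0 := by
        rw [← commute_mulVec (hKR.pow_left (k + 1)), dotProduct_comm, pow_transpose_dot, hz,
          dotProduct_zero]
      rw [mulVec_add, e1, mulVec_add, add_dotProduct, dotProduct_add, dotProduct_add, x1, x2,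
        add_zero, zero_add]
      exact add_nonneg (top _ h hh hhd h0 k) (ih u hu hud (k + 1))

theorem Ladder.commute_deg (hL : Ladder L deg C) {K : Matrix ι ι ℝ} (hKL : Commute L K)
    (hKR : Commute Lᵀ K) {i j : ι} (h : deg i ≠ deg j) : K i j = 0 := by
  have hD : Commute (L * Lᵀ - Lᵀ * L) K :=
    (hKL.mul_left hKR).sub_left (hKR.mul_left hKL)
  rw [hL.comm] at hD
  have h1 := congrFun (congrFun hD.eq i) j
  rw [diagonal_mul, mul_diagonal] at h1
  have h2 : ((deg i : ℝ) - deg j) * K i j = 0 := by linarith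
  rcases mul_eq_zero.1 h2 with h3 | h3
  · exact absurd (by exact_mod_cast sub_eq_zero.1 h3) h
  · exact h3

/-- An invariant form is nonnegative on an invariant subspace if it is so on its highest weight
vectors of degree at most `C / 2`. -/
theorem nonneg_of_hw (hL : Ladder L deg C) (hW : Stable L deg W) {K : Matrix ι ι ℝ}
    (hKL : Commute L K) (hKR : Commute Lᵀ K)
    (hhw : ∀ (d : ℕ), 2 * (d : ℝ) ≤ C → ∀ h ∈ W, Homog deg d h → L *ᵥ h = 0 →
      0 ≤ h ⬝ᵥ (K *ᵥ h))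
    {v : ι → ℝ} (hv : v ∈ W) : 0 ≤ v ⬝ᵥ (K *ᵥ v) := by
  have key : v ⬝ᵥ (K *ᵥ v) =
      ∑ d ∈ univ.image deg, part deg d v ⬝ᵥ (K *ᵥ part deg d v) := by
    simp only [dotProduct, mulVec, part]
    rw [Finset.sum_comm]
    refine Finset.sum_congr rfl fun i _ => ?_
    rw [Finset.sum_eq_single (deg i)
      (fun d _ hd => by rw [if_neg (Ne.symm hd), zero_mul])
      (fun h => absurd (mem_image_of_mem deg (mem_univ i)) h), if_pos rfl]
    congr 1
    refine Finset.sum_congr rfl fun j _ => ?_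
    by_cases hj : deg j = deg i
    · rw [if_pos hj]
    · rw [hL.commute_deg hKL hKR (Ne.symm hj), zero_mul, zero_mul]
  rw [key]
  refine Finset.sum_nonneg fun d _ => ?_
  simpa using raised_nonneg hL hW hKL hKR hhw d _ (hW.part d v hv) (part_homog deg d v) 0

end

end Vale.Agent.P359.Gap.Lift
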