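import Vale.Agent.P359.Gap.Core
import Vale.Agent.P359.Gap.LiftAbstract

/-!
# P359, gap: lowering matrices, their tensor products and intertwiners
-/

open Finset Matrix
open scoped Classical Kronecker

namespace Vale.Agent.P359.Gap.Lift

set_option linter.unusedSectionVars false

variable {α β γ δ : Type*} [Fintype α] [DecidableEq α] [Fintype β] [DecidableEq β]
  [Fintype γ] [DecidableEq γ] [Fintype δ] [DecidableEq δ]

/-- Tensor product action. -/
noncomputable def tens (A : Matrix α α ℝ) (B : Matrix β β ℝ) : Matrix (α × β) (α × β) ℝ :=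
  A ⊗ₖ (1 : Matrix β β ℝ) + (1 : Matrix α α ℝ) ⊗ₖ B

theorem tens_transpose (A : Matrix α α ℝ) (B : Matrix β β ℝ) : (tens A B)ᵀ = tens Aᵀ Bᵀ := by
  ext ⟨i, j⟩ ⟨k, l⟩
  simp [tens, kroneckerMap_apply, one_apply, eq_comm]

theorem tens_apply (A : Matrix α α ℝ) (B : Matrix β β ℝ) (p q : α × β) :
    tens A B p q = (if p.2 = q.2 then A p.1 q.1 else 0) + (if p.1 = q.1 then B p.2 q.2 else 0) := by
  simp [tens, kroneckerMap_apply, one_apply, mul_ite, ite_mul]

/-- `X` intertwines lowering and raising. -/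
structure Inter (A : Matrix α α ℝ) (B : Matrix β β ℝ) (X : Matrix α β ℝ) : Prop where
  low : A * X = X * B
  high : Aᵀ * X = X * Bᵀ

theorem Inter.transpose {A : Matrix α α ℝ} {B : Matrix β β ℝ} {X : Matrix α β ℝ}
    (h : Inter A B X) : Inter B A Xᵀ := by
  constructor
  · have := congrArg Matrix.transpose h.high
    rw [transpose_mul, transpose_mul, transpose_transpose, transpose_transpose] at this
    exact this.symm
  · have := congrArg Matrix.transpose h.low
    rw [transpose_mul, transpose_mul] at this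
    exact this.symm

theorem Inter.comp {A : Matrix α α ℝ} {B : Matrix β β ℝ} {C : Matrix γ γ ℝ} {X : Matrix α β ℝ}
    {Y : Matrix β γ ℝ} (h : Inter A B X) (h' : Inter B C Y) : Inter A C (X * Y) := by
  constructor
  · rw [← Matrix.mul_assoc, h.low, Matrix.mul_assoc, h'.low, Matrix.mul_assoc]
  · rw [← Matrix.mul_assoc, h.high, Matrix.mul_assoc, h'.high, Matrix.mul_assoc]

theorem Inter.zero {A : Matrix α α ℝ} {B : Matrix β β ℝ} :
    Inter A B (0 : Matrix α β ℝ) := ⟨by simp, by simp⟩

theorem Inter.smul {A : Matrix α α ℝ} {B : Matrix β β ℝ} {X : Matrix α β ℝ} (c : ℝ)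
    (h : Inter A B X) : Inter A B (c • X) := ⟨by simp [h.low], by simp [h.high]⟩

theorem Inter.sum {ι : Type*} {A : Matrix α α ℝ} {B : Matrix β β ℝ} (s : Finset ι)
    (X : ι → Matrix α β ℝ) (h : ∀ i ∈ s, Inter A B (X i)) : Inter A B (∑ i ∈ s, X i) := by
  constructor
  · rw [Matrix.mul_sum, Matrix.sum_mul]
    exact Finset.sum_congr rfl fun i hi => (h i hi).low
  · rw [Matrix.mul_sum, Matrix.sum_mul]
    exact Finset.sum_congr rfl fun i hi => (h i hi).high

theorem Inter.commute {A : Matrix α α ℝ} {X : Matrix α α ℝ} (h : Inter A A X) :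
    Commute A X ∧ Commute Aᵀ X := ⟨h.low, h.high⟩

theorem Inter.right {A : Matrix α α ℝ} {B : Matrix β β ℝ} {X : Matrix α β ℝ} (h : Inter A B X)
    (C : Matrix γ γ ℝ) : Inter (tens A C) (tens B C) (X ⊗ₖ (1 : Matrix γ γ ℝ)) := by
  constructor
  · simp only [tens, Matrix.add_mul, Matrix.mul_add, ← mul_kronecker_mul, h.low, Matrix.one_mul,
      Matrix.mul_one]
  · simp only [tens_transpose]
    simp only [tens, Matrix.add_mul, Matrix.mul_add, ← mul_kronecker_mul, h.high, Matrix.one_mul,
      Matrix.mul_one]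

theorem Inter.left {A : Matrix α α ℝ} {B : Matrix β β ℝ} {X : Matrix α β ℝ} (h : Inter A B X)
    (C : Matrix γ γ ℝ) : Inter (tens C A) (tens C B) ((1 : Matrix γ γ ℝ) ⊗ₖ X) := by
  constructor
  · simp only [tens, Matrix.add_mul, Matrix.mul_add, ← mul_kronecker_mul, h.low, Matrix.one_mul,
      Matrix.mul_one]
  · simp only [tens_transpose]
    simp only [tens, Matrix.add_mul, Matrix.mul_add, ← mul_kronecker_mul, h.high, Matrix.one_mul,
      Matrix.mul_one]

theorem Inter.reindex {A : Matrix α α ℝ} {B : Matrix β β ℝ} {X : Matrix α β ℝ} (h : Inter A B X)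
    (e : γ ≃ α) (f : δ ≃ β) :
    Inter (A.submatrix e e) (B.submatrix f f) (X.submatrix e f) := by
  constructor
  · rw [submatrix_mul_equiv, submatrix_mul_equiv, h.low]
  · rw [transpose_submatrix, transpose_submatrix, submatrix_mul_equiv, submatrix_mul_equiv, h.high]

/-- Lowering in charge `a`. -/
noncomputable def Low (a : ℕ) : Matrix (Fin (a + 1)) (Fin (a + 1)) ℝ := fun i j =>
  if (j : ℕ) = i + 1 then lower a i else 0

theorem Low_apply_sum (a : ℕ) (i : Fin (a + 1)) (g : Fin (a + 1) → ℝ) :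
    ∑ j, Low a i j * g j = if h : (i : ℕ) + 1 < a + 1 then lower a i * g ⟨i + 1, h⟩ else 0 := by
  by_cases h : (i : ℕ) + 1 < a + 1
  · rw [dif_pos h, Finset.sum_eq_single (⟨(i : ℕ) + 1, h⟩ : Fin (a + 1))]
    · simp [Low]
    · intro b _ hb
      rw [Low, if_neg (fun hb' => hb (Fin.ext hb')), zero_mul]
    · simp
  · rw [dif_neg h]
    refine Finset.sum_eq_zero fun j _ => ?_
    rw [Low, if_neg (fun hb => h (by have := j.isLt; omega)), zero_mul]

theorem Low_transpose_sum (a : ℕ) (i : Fin (a + 1)) (g : Fin (a + 1) → ℝ) :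
    ∑ j, Low a j i * g j =
      if h : 1 ≤ (i : ℕ) then lower a ((i : ℕ) - 1) * g ⟨(i : ℕ) - 1, by omega⟩ else 0 := by
  by_cases h : 1 ≤ (i : ℕ)
  · rw [dif_pos h, Finset.sum_eq_single (⟨(i : ℕ) - 1, by omega⟩ : Fin (a + 1))]
    · simp [Low]
      omega
    · intro b _ hb
      rw [Low, if_neg (fun hb' => hb (Fin.ext (show (b : ℕ) = (i : ℕ) - 1 by omega))), zero_mul]
    · simp
  · rw [dif_neg h]
    refine Finset.sum_eq_zero fun j _ => ?_
    rw [Low, if_neg (by omega), zero_mul]

theorem lower_sq {a k : ℕ} (h : k ≤ a) : lower a k * lower a k = ((k : ℝ) + 1) * ((a : ℝ) - k) :=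
  Real.mul_self_sqrt (mul_nonneg (by positivity) (by simp [h]))

theorem lower_pos {a k : ℕ} (h : k < a) : 0 < lower a k := by
  have : (k : ℝ) < a := by exact_mod_cast h
  exact Real.sqrt_pos.2 (mul_pos (by positivity) (by linarith))

theorem Low_ladder (a : ℕ) : Ladder (Low a) (fun i => (i : ℕ)) (a : ℝ) := by
  refine ⟨fun i j h => by_contra fun hne => h (if_neg hne), ?_⟩
  ext i j
  rw [Matrix.sub_apply, mul_apply, mul_apply]
  simp only [transpose_apply]
  rw [Low_apply_sum, Low_transpose_sum]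
  have hi := i.isLt
  by_cases hij : i = j
  · subst hij
    rw [diagonal_apply_eq]
    simp only [Low]
    split_ifs <;> first | omega | skip
    · rw [lower_sq (by omega), lower_sq (by omega), Nat.cast_sub (by omega : 1 ≤ (i : ℕ))]
      push_cast
      ring
    · rw [lower_sq (by omega)]
      have : (i : ℕ) = 0 := by omega
      rw [this]
      push_cast
      ring
    · rw [lower_sq (by omega), Nat.cast_sub (by omega : 1 ≤ (i : ℕ))]
      have : (i : ℕ) = a := by omega
      rw [this]
      push_cast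
      ring
    · have : (i : ℕ) = 0 := by omega
      have : a = 0 := by omega
      simp_all
  · rw [diagonal_apply_ne _ hij]
    have hne : (i : ℕ) ≠ j := fun h => hij (Fin.ext h)
    simp only [Low]
    split_ifs <;> first | omega | simp

theorem Ladder.tens {A : Matrix α α ℝ} {B : Matrix β β ℝ} {dA : α → ℕ} {dB : β → ℕ} {a b : ℝ}
    (hA : Ladder A dA a) (hB : Ladder B dB b) :
    Ladder (Lift.tens A B) (fun p => dA p.1 + dB p.2) (a + b) := by
  constructor
  · intro p q h
    rw [tens_apply] at h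
    by_cases h2 : p.2 = q.2
    · by_cases h1 : p.1 = q.1
      · rw [if_pos h2, if_pos h1] at h
        by_cases hA0 : A p.1 q.1 = 0
        · have := hB.shift p.2 q.2 (by simpa [hA0] using h)
          rw [h2] at this
          omega
        · have := hA.shift p.1 q.1 hA0
          rw [h1] at this
          omega
      · rw [if_pos h2, if_neg h1, add_zero] at h
        have := hA.shift p.1 q.1 h
        show dA q.1 + dB q.2 = dA p.1 + dB p.2 + 1
        rw [h2]
        omega
    · rw [if_neg h2, zero_add] at h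
      by_cases h1 : p.1 = q.1
      · rw [if_pos h1] at h
        have := hB.shift p.2 q.2 h
        show dA q.1 + dB q.2 = dA p.1 + dB p.2 + 1
        rw [h1]
        omega
      · simp [h1] at h
  · have key : Lift.tens A B * (Lift.tens A B)ᵀ - (Lift.tens A B)ᵀ * Lift.tens A B =
        (A * Aᵀ - Aᵀ * A) ⊗ₖ (1 : Matrix β β ℝ) + (1 : Matrix α α ℝ) ⊗ₖ (B * Bᵀ - Bᵀ * B) := by
      rw [tens_transpose]
      simp only [Lift.tens, Matrix.add_mul, Matrix.mul_add, ← mul_kronecker_mul, Matrix.one_mul,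
        Matrix.mul_one]
      ext ⟨i, j⟩ ⟨k, l⟩
      simp only [Matrix.add_apply, Matrix.sub_apply, kroneckerMap_apply]
      ring
    rw [key, hA.comm, hB.comm]
    ext ⟨i, j⟩ ⟨k, l⟩
    by_cases h1 : i = k <;> by_cases h2 : j = l <;>
      simp [kroneckerMap_apply, diagonal, one_apply, h1, h2]
    ring

end Vale.Agent.P359.Gap.Lift
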