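import Vale.Agent.P359.Gap.Overlap
import Vale.Agent.P359.Gap.CritDefs
import Vale.Agent.P359.Gap.Lift

/-!
# P359, gap: planar limits of the pair vector and its overlaps
-/

open Finset Filter Topology

namespace Vale.Agent.P359.Gap

theorem wvec_eq_zero {Q m M x x' : ℕ} (hm : 1 ≤ m)
    (h : impChg Q < M ∨ Q < x ∨ Q < x' ∨ M + x + x' ≠ m) : wvec Q m M x x' = 0 := by
  refine Finset.sum_eq_zero fun Y _ => ?_
  by_contra hne
  obtain ⟨h1, h2⟩ := mul_ne_zero_iff.1 hne
  rcases h with h | h | h | h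
  · exact h1 (jc_eq_zero_left h)
  · exact h2 (jc_eq_zero_left h)
  · exact h2 (jc_eq_zero_right h)
  · by_cases e : M + Y = m - 1
    · exact h2 (jc_eq_zero (by omega))
    · exact h1 (jc_eq_zero (by omega))

theorem wvec_single {Q m M x x' Y : ℕ} (hY : M + Y = m - 1) :
    wvec Q m M x x' = Jc (m - 1) (impChg Q) (impChg Q) M Y 0 * Jc 1 Q Q x x' Y := by
  refine Finset.sum_eq_single_of_mem _ (mem_range.2 (by omega)) fun Y' _ hne => ?_
  rw [jc_eq_zero (by omega), zero_mul]

/-- `wvec` is killed by lowering. -/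
theorem wvec_lower {Q m : ℕ} (hQ : 1 ≤ Q) (hm : m ≤ impChg Q) (M x x' : ℕ) :
    lower (impChg Q) M * wvec Q m (M + 1) x x' + lower Q x * wvec Q m M (x + 1) x' +
      lower Q x' * wvec Q m M x (x' + 1) = 0 := by
  have hsum : ∀ M' u v, wvec Q m M' u v =
      ∑ Y ∈ range (m + 2), Jc (m - 1) (impChg Q) (impChg Q) M' Y 0 * Jc 1 Q Q u v Y := by
    intro M' u v
    rw [Finset.sum_range_succ, jc_eq_zero (r := m - 1) (j := m + 1) (by omega), zero_mul, add_zero]
    rfl
  have hP : Q + Q - 2 * 1 = impChg Q := by unfold impChg; omega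
  set P := impChg Q
  set J := fun A B : ℕ => Jc (m - 1) P P A B 0 with hJ
  have h1 : ∑ Y ∈ range (m + 2), lower P M * (J (M + 1) Y * Jc 1 Q Q x x' Y) =
      ∑ Y ∈ range (m + 1), lower P M * (J (M + 1) Y * Jc 1 Q Q x x' Y) := by
    rw [Finset.sum_range_succ]
    simp only [hJ]
    rw [jc_eq_zero (r := m - 1) (by omega), zero_mul, mul_zero, add_zero]
  have h23 : ∑ Y ∈ range (m + 2), (lower Q x * (J M Y * Jc 1 Q Q (x + 1) x' Y) +
      lower Q x' * (J M Y * Jc 1 Q Q x (x' + 1) Y)) =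
      ∑ Y ∈ range (m + 1), lower P Y * (J M (Y + 1) * Jc 1 Q Q x x' Y) := by
    rw [Finset.sum_range_succ']
    have h0 : lower Q x * (J M 0 * Jc 1 Q Q (x + 1) x' 0) +
        lower Q x' * (J M 0 * Jc 1 Q Q x (x' + 1) 0) = 0 := by
      linear_combination (J M 0) * jc_lower_zero (a := Q) (b := Q) hQ hQ x x'
    rw [h0, add_zero]
    refine Finset.sum_congr rfl fun k _ => ?_
    have h := jc_lower (a := Q) (b := Q) hQ hQ x x' k
    rw [hP] at h
    linear_combination J M (k + 1) * h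
  simp only [hsum, Finset.mul_sum]
  rw [add_assoc, ← Finset.sum_add_distrib]
  refine (congrArg₂ (· + ·) h1 h23).trans ?_
  rw [← Finset.sum_add_distrib]
  refine Finset.sum_eq_zero fun Y _ => ?_
  linear_combination Jc 1 Q Q x x' Y *
    jc_lower_zero (r := m - 1) (a := P) (b := P) (by omega) (by omega) M Y

/-- Closed form of the overlap with the pair vector. -/
theorem gPair_eq {Q r m : ℕ} (hm1 : 1 ≤ m) (hrm : r ≤ m) (hQ : m + r + 1 ≤ Q) :
    gPair Q r m = kappa (m - r) (impChg Q + Q - 2 * r) Q *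
      ∑ l ∈ range (r + 1), (r.choose l : ℝ) * ((m - 1).choose l : ℝ) * (Q.choose (m - r) : ℝ) *
        (((m - r : ℕ) : ℝ) - ((r - l : ℕ) : ℝ)) /
        ((Q : ℝ) * ((impChg Q).choose l : ℝ) * ((impChg Q).choose (m - 1 - l) : ℝ)) := by
  set q := m - r with hq
  set c := impChg Q + Q - 2 * r with hc
  have hP : Q + Q - 2 * 1 = impChg Q := by unfold impChg; omega
  have hP' : m ≤ impChg Q := by unfold impChg; omega
  have h := gvec_dot (cY := impChg Q) (Q := Q) (r := r) (q := q) (by omega) (by omega) (by omega)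
    (by omega) (wvec Q m) (fun M x x' h => wvec_eq_zero hm1 (by omega))
    (fun M x x' => wvec_lower (by omega) hP' M x x')
  have hbot : Jc q c Q 0 q 0 = (-1) ^ q / Real.sqrt (Q.choose q) := by
    simpa using Jc_zero q c Q 0 (Nat.zero_le _)
  have hs : (0 : ℝ) < Real.sqrt (Q.choose q) :=
    Real.sqrt_pos.2 (by exact_mod_cast Nat.choose_pos (by omega))
  have hne : Jc q c Q 0 q 0 ≠ 0 := by
    rw [hbot]; exact div_ne_zero (pow_ne_zero _ (by norm_num)) hs.ne'
  refine mul_right_cancel₀ hne ?_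
  rw [gPair, h, mul_assoc]
  congr 1
  have hx : ∀ M, ∑ x ∈ range (Q + 1), Jc r (impChg Q) Q M x 0 * wvec Q m M x q =
      if M ≤ r then Jc r (impChg Q) Q M (r - M) 0 * wvec Q m M (r - M) q else 0 := by
    intro M
    split_ifs with hM
    · refine Finset.sum_eq_single_of_mem _ (mem_range.2 (by omega)) fun x _ hne' => ?_
      rw [jc_eq_zero (by omega), zero_mul]
    · exact Finset.sum_eq_zero fun x _ => by rw [jc_eq_zero (by omega), zero_mul]
  simp only [hx]
  rw [← Finset.sum_filter, Finset.sum_mul]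
  refine Finset.sum_congr (by ext M; simp only [mem_filter, mem_range]; omega) fun l hl => ?_
  have hl' := mem_range.1 hl
  rcases Nat.lt_or_ge (m - 1) l with hlm | hlm
  · rw [Nat.choose_eq_zero_of_lt hlm]
    have : wvec Q m l (r - l) q = 0 := by
      refine Finset.sum_eq_zero fun Y _ => ?_
      rw [jc_eq_zero (by omega), zero_mul]
    rw [this]
    simp
  rw [wvec_single (Y := m - 1 - l) (by omega), Jc_zero r _ Q l (by omega), hbot]
  have e1 := Jc_zero (m - 1) (impChg Q) (impChg Q) l hlm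
  rw [e1, Jc, Lift.jcoef_one (by omega) (by omega), hP]
  have hPk : (0 : ℝ) < Real.sqrt ((impChg Q).choose (m - 1 - l)) :=
    Real.sqrt_pos.2 (by exact_mod_cast Nat.choose_pos (by omega))
  have hPl : (0 : ℝ) < Real.sqrt ((impChg Q).choose l) :=
    Real.sqrt_pos.2 (by exact_mod_cast Nat.choose_pos (by omega))
  have hQl : (0 : ℝ) < Real.sqrt (Q.choose (r - l)) :=
    Real.sqrt_pos.2 (by exact_mod_cast Nat.choose_pos (by omega))
  have hQ0 : (Q : ℝ) ≠ 0 := by exact_mod_cast (by omega : Q ≠ 0)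
  have s1 := Real.sq_sqrt (Nat.cast_nonneg (α := ℝ) ((impChg Q).choose (m - 1 - l)))
  have s2 := Real.sq_sqrt (Nat.cast_nonneg (α := ℝ) ((impChg Q).choose l))
  have s3 := Real.sq_sqrt (Nat.cast_nonneg (α := ℝ) (Q.choose (r - l)))
  have s4 := Real.sq_sqrt (Nat.cast_nonneg (α := ℝ) (Q.choose q))
  have hsign : (-1 : ℝ) ^ (r - l) * (-1) ^ (m - 1 - l) = -((-1) ^ q) := by
    rw [← pow_add, show r - l + (m - 1 - l) = (q + 2 * (r - l)) - 1 by omega]
    rcases Nat.eq_zero_or_pos (q + 2 * (r - l)) with h0 | h0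
    · omega
    · obtain ⟨k, hk⟩ : ∃ k, q + 2 * (r - l) = k + 1 := ⟨_, (Nat.succ_pred_eq_of_pos h0).symm⟩
      rw [hk, Nat.add_sub_cancel]
      have : (-1 : ℝ) ^ (k + 1) = (-1) ^ q := by
        rw [← hk, pow_add, pow_mul, neg_one_sq, one_pow, mul_one]
      rw [← this, pow_succ]
      ring
  field_simp
  rw [s2, s3]
  have hCl : ((impChg Q).choose l : ℝ) ≠ 0 := by
    exact_mod_cast (Nat.choose_pos (by omega)).ne'
  have hCk : ((impChg Q).choose (m - 1 - l) : ℝ) ≠ 0 := by
    exact_mod_cast (Nat.choose_pos (by omega)).ne'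
  field_simp
  linear_combination ((r.choose l : ℝ) * ((m - 1).choose l : ℝ) *
    (Q.choose (r - l) : ℝ) * (Q.choose q : ℝ) * (((r - l : ℕ) : ℝ) - (q : ℝ))) * hsign

/-- `∑ l, C(r,l) l = r 2^(r-1)`, doubled. -/
theorem sum_choose_mul (r : ℕ) :
    2 * ∑ l ∈ range (r + 1), (r.choose l : ℝ) * l = r * 2 ^ r := by
  have h : ∀ l ∈ range (r + 1), (r.choose l : ℝ) * l + (r.choose (r - l) : ℝ) * ((r - l : ℕ) : ℝ) =
      (r : ℝ) * (r.choose l : ℝ) := by
    intro l hl
    have hl' : l ≤ r := Nat.lt_succ_iff.1 (mem_range.1 hl)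
    rw [Nat.choose_symm hl', Nat.cast_sub hl']
    ring
  have h2 := Finset.sum_congr rfl h
  have h3 : ∑ l ∈ range (r + 1), (r.choose (r - l) : ℝ) * ((r - l : ℕ) : ℝ) =
      ∑ l ∈ range (r + 1), (r.choose l : ℝ) * (l : ℝ) := by
    have := Finset.sum_range_reflect (fun l => (r.choose l : ℝ) * (l : ℝ)) (r + 1)
    simpa [Nat.add_sub_cancel] using this
  rw [Finset.sum_add_distrib, ← Finset.mul_sum, h3] at h2
  have h4 : ∑ l ∈ range (r + 1), (r.choose l : ℝ) = 2 ^ r := by
    exact_mod_cast Nat.sum_range_choose r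
  rw [h4] at h2
  linarith

/-- **Limit of the pair overlap.** -/
theorem tendsto_gPair {r m : ℕ} (hm : 1 ≤ m) (hr : r ≤ m) :
    Tendsto (fun Q => gPair Q r m * (Q : ℝ) ^ m) atTop
      (𝓝 ((Planar.p r (m - r) : ℚ) : ℝ)) := by
  set q := m - r with hq
  have h3 : Tendsto (fun Q => ((impChg Q + Q - 2 * r : ℕ) : ℝ) / Q) atTop (𝓝 3) := by
    have h' := tendsto_add_self tendsto_impChg (2 * r)
    norm_num at h'
    exact h'
  have hl : ∀ l ∈ range (r + 1), Tendsto (fun Q : ℕ =>
      (r.choose l : ℝ) * ((m - 1).choose l : ℝ) * (((q : ℕ) : ℝ) - ((r - l : ℕ) : ℝ)) *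
        (((Q.choose q : ℝ) / (Q : ℝ) ^ q) /
          ((((impChg Q).choose l : ℝ) / (Q : ℝ) ^ l) *
            (((impChg Q).choose (m - 1 - l) : ℝ) / (Q : ℝ) ^ (m - 1 - l))))) atTop
      (𝓝 ((r.choose l : ℝ) * ((m - 1).choose l : ℝ) * (((q : ℕ) : ℝ) - ((r - l : ℕ) : ℝ)) *
        ((1 / (q.factorial : ℝ)) /
          ((2 ^ l / (l.factorial : ℝ)) * (2 ^ (m - 1 - l) / ((m - 1 - l).factorial : ℝ)))))) := by
    intro l _
    have h := ((tendsto_choose tendsto_self q).div
      ((tendsto_choose tendsto_impChg l).mul (tendsto_choose tendsto_impChg (m - 1 - l)))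
      (by positivity)).const_mul
        ((r.choose l : ℝ) * ((m - 1).choose l : ℝ) * (((q : ℕ) : ℝ) - ((r - l : ℕ) : ℝ)))
    simp only [one_pow, Pi.div_apply] at h
    exact h
  have h := (tendsto_kappa h3 (by norm_num) q).mul (tendsto_finsetSum _ hl)
  have e : (q.factorial : ℝ) * ((3 + 1) / 3) ^ q * ∑ l ∈ range (r + 1),
      (r.choose l : ℝ) * ((m - 1).choose l : ℝ) * (((q : ℕ) : ℝ) - ((r - l : ℕ) : ℝ)) *
        ((1 / (q.factorial : ℝ)) /
          ((2 ^ l / (l.factorial : ℝ)) * (2 ^ (m - 1 - l) / ((m - 1 - l).factorial : ℝ)))) =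
      ((Planar.p r q : ℚ) : ℝ) := by
    have hterm : ∀ l ∈ range (r + 1),
        (r.choose l : ℝ) * ((m - 1).choose l : ℝ) * (((q : ℕ) : ℝ) - ((r - l : ℕ) : ℝ)) *
        ((1 / (q.factorial : ℝ)) /
          ((2 ^ l / (l.factorial : ℝ)) * (2 ^ (m - 1 - l) / ((m - 1 - l).factorial : ℝ)))) =
        ((m - 1).factorial : ℝ) / ((q.factorial : ℝ) * 2 ^ (m - 1)) *
          (((q : ℝ) - r) * (r.choose l : ℝ) + (r.choose l : ℝ) * l) := by
      intro l hl
      have hl' : l ≤ r := Nat.lt_succ_iff.1 (mem_range.1 hl)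
      rcases Nat.lt_or_ge (m - 1) l with hlm | hlm
      · have hq0 : q = 0 := by omega
        have : l = r := by omega
        subst this
        simp [hq0, Nat.choose_eq_zero_of_lt hlm]
      have e1 : ((m - 1).choose l : ℝ) * (l.factorial : ℝ) * ((m - 1 - l).factorial : ℝ) =
          ((m - 1).factorial : ℝ) := by
        exact_mod_cast Nat.choose_mul_factorial_mul_factorial hlm
      have e2 : (2 : ℝ) ^ l * 2 ^ (m - 1 - l) = 2 ^ (m - 1) := by
        rw [← pow_add]; congr 1; omega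
      rw [← e1, ← e2, Nat.cast_sub hl']
      have f0 : ∀ k : ℕ, (k.factorial : ℝ) ≠ 0 := fun k => by exact_mod_cast k.factorial_ne_zero
      field_simp [f0]
      ring
    rw [Finset.sum_congr rfl hterm, ← Finset.mul_sum, Finset.sum_add_distrib, ← Finset.mul_sum]
    have h4 : ∑ l ∈ range (r + 1), (r.choose l : ℝ) = 2 ^ r := by
      exact_mod_cast Nat.sum_range_choose r
    have h5 := sum_choose_mul r
    rw [h4, show ∑ l ∈ range (r + 1), (r.choose l : ℝ) * l = r * 2 ^ r / 2 by linarith]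
    have e3 : (2 : ℝ) ^ r * 2 ^ q = 2 * 2 ^ (m - 1) := by
      rw [← pow_add, ← pow_succ']
      congr 1
      omega
    simp only [Planar.p, show r + q - 1 = m - 1 by omega]
    push_cast
    have f0 : (q.factorial : ℝ) ≠ 0 := by exact_mod_cast q.factorial_ne_zero
    rw [show ((3 : ℝ) + 1) / 3 = 2 * (2 / 3) by norm_num, mul_pow]
    field_simp
    linear_combination ((2 : ℝ) * q - r) * e3
  rw [← e]
  refine h.congr' ?_
  filter_upwards [eventually_ge_atTop (2 * m + 1)] with Q hQ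
  rw [gPair_eq hm hr (by omega), ← hq, mul_assoc, mul_assoc]
  congr 1
  rw [Finset.sum_mul, Finset.mul_sum]
  refine Finset.sum_congr rfl fun l hl => ?_
  have hl' := mem_range.1 hl
  rcases Nat.lt_or_ge (m - 1) l with hlm | hlm
  · simp [Nat.choose_eq_zero_of_lt hlm]
  have hQ' : (Q : ℝ) ≠ 0 := by exact_mod_cast (by omega : Q ≠ 0)
  have e4 : (Q : ℝ) ^ m = (Q : ℝ) * ((Q : ℝ) ^ l * (Q : ℝ) ^ (m - 1 - l)) := by
    rw [← pow_add, ← pow_succ']
    congr 1
    omega
  rw [e4]
  field_simp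

/-- **Limit of the norm of the pair vector.** -/
theorem tendsto_wNorm {m : ℕ} (hm : 1 ≤ m) :
    Tendsto (fun Q => wNorm Q m * (Q : ℝ) ^ m) atTop (𝓝 (2 * ((m - 1).factorial : ℝ))) := by
  have hC : Tendsto (fun Q => ((impChg Q + impChg Q - (m - 1) + 1 : ℕ) : ℝ) / Q) atTop (𝓝 4) := by
    have h0 : Tendsto (fun Q => ((impChg Q + impChg Q : ℕ) : ℝ) / Q) atTop (𝓝 4) := by
      have h := tendsto_impChg.add tendsto_impChg
      norm_num at h
      refine h.congr fun Q => ?_
      push_cast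
      ring
    have h := (tendsto_sub_const h0 (m - 1)).add (tendsto_div_nat 1)
    rw [add_zero] at h
    refine h.congr fun Q => ?_
    push_cast
    ring
  have h1 := ((tendsto_choose hC (m - 1)).div
    ((tendsto_choose tendsto_impChg (m - 1)).mul (tendsto_choose tendsto_impChg (m - 1)))
    (by positivity)).mul (tendsto_kappa tendsto_self one_pos 1)
  have e : ((4 : ℝ) ^ (m - 1) / (m - 1).factorial) /
      ((2 ^ (m - 1) / (m - 1).factorial) * (2 ^ (m - 1) / (m - 1).factorial)) *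
      ((Nat.factorial 1 : ℝ) * ((1 + 1) / 1) ^ 1) = 2 * ((m - 1).factorial : ℝ) := by
    rw [show (4 : ℝ) = 2 * 2 by norm_num, mul_pow]
    have f0 : ((m - 1).factorial : ℝ) ≠ 0 := by exact_mod_cast (m - 1).factorial_ne_zero
    field_simp
    simp
    ring
  rw [← e]
  refine h1.congr' ?_
  filter_upwards [eventually_ge_atTop (m + 1)] with Q hQ
  have hP : Q + Q - 2 * 1 = impChg Q := by unfold impChg; omega
  have hw : wNorm Q m = kappa (m - 1) (impChg Q) (impChg Q) * kappa 1 Q Q := by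
    set P := impChg Q with hPdef
    have hmP : m - 1 ≤ P := by simp only [P, impChg]; omega
    have hsum : ∀ M u v, wvec Q m M u v =
        ∑ Y ∈ range (P + 1), Jc (m - 1) P P M Y 0 * Jc 1 Q Q u v Y := by
      intro M u v
      have key : ∀ N, m - 1 ≤ N → ∑ Y ∈ range (N + 1), Jc (m - 1) P P M Y 0 * Jc 1 Q Q u v Y =
          ∑ Y ∈ range (m - 1 + 1), Jc (m - 1) P P M Y 0 * Jc 1 Q Q u v Y := fun N hN =>
        (Finset.sum_subset (range_subset_range.2 (by omega)) fun Y _ hY => by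
          rw [jc_eq_zero (by simp at hY; omega), zero_mul]).symm
      rw [wvec, key _ (Nat.sub_le m 1), key P hmP]
    simp only [wNorm, hsum, sq, Finset.sum_mul_sum]
    rw [← (jc_orth (k := 0) (k' := 0) hmP hmP (Nat.zero_le _) (Nat.zero_le _)).trans (if_pos rfl),
      Finset.sum_mul]
    refine Finset.sum_congr rfl fun M _ => ?_
    rw [Finset.sum_comm_cycle]
    conv_lhs => arg 2; ext Y; rw [Finset.sum_comm_cycle]
    rw [Finset.sum_mul]
    refine Finset.sum_congr rfl fun Y hY => ?_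
    rw [Finset.sum_eq_single Y]
    · have h := jc_orth (r := 1) (a := Q) (b := Q) (k := Y) (k' := Y) (by omega) (by omega)
        (by have := mem_range.1 hY; omega) (by have := mem_range.1 hY; omega)
      rw [if_pos rfl] at h
      rw [← h, Finset.mul_sum]
      exact Finset.sum_congr rfl fun u _ => by
        rw [Finset.mul_sum]
        exact Finset.sum_congr rfl fun v _ => by ring
    · intro Y' hY' hne
      have h := jc_orth (r := 1) (a := Q) (b := Q) (k := Y) (k' := Y') (by omega) (by omega)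
        (by have := mem_range.1 hY; omega) (by have := mem_range.1 hY'; omega)
      rw [if_neg (Ne.symm hne)] at h
      rw [show (0 : ℝ) = Jc (m - 1) P P M Y 0 * Jc (m - 1) P P M Y' 0 * 0 by ring, ← h,
        Finset.mul_sum]
      exact Finset.sum_congr rfl fun u _ => by
        rw [Finset.mul_sum]
        exact Finset.sum_congr rfl fun v _ => by ring
    · exact fun h => absurd hY h
  rw [hw]
  have hQ' : (Q : ℝ) ≠ 0 := by exact_mod_cast (by omega : Q ≠ 0)
  simp only [Pi.div_apply, kappa]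
  rw [show (Q : ℝ) ^ m = (Q : ℝ) ^ (m - 1) * (Q : ℝ) ^ 1 by rw [← pow_add]; congr 1; omega]
  field_simp

end Vale.Agent.P359.Gap
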