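import Vale.Agent.P359.Gap.Cert.Check
import Vale.Agent.P359.Gap.Criterion
import Vale.Agent.P359.Gap.PairLimit

/-!
# P359, gap: from one checked planar block to `RangeBound` at all large fluxes
-/

open Finset Filter Topology

namespace Vale.Agent.P359.Gap.Cert

/-! ### Positive forms -/

theorem posCert_sound {C : PosCert} {n : ℕ} {e : ℕ → ℕ → ℚ} (h : C.ok n e = true) :
    ∃ ε : ℝ, 0 < ε ∧ ∀ x : ℕ → ℝ, ε * ∑ i ∈ range n, x i ^ 2 ≤
      ∑ i ∈ range n, ∑ j ∈ range n, (e i j : ℝ) * x i * x j := by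
  simp only [PosCert.ok, Bool.and_eq_true, decide_eq_true_eq, List.all_eq_true,
    List.mem_range] at h
  obtain ⟨⟨⟨hlen, hK⟩, hpsd⟩, he⟩ := h
  set σ : ℕ → ℝ := fun i => ((C.sc.getD i 0 : ℚ) : ℝ) with hσ
  have hσpos : ∀ i < n, 0 < σ i := fun i hi => by simpa [hσ] using (he i hi).1
  have hKn : (0 : ℝ) < (C.K : ℝ) - n := by
    have : ((n : ℤ) : ℝ) < (C.K : ℝ) := by exact_mod_cast hK
    push_cast at this
    linarith
  set T : ℝ := ∑ i ∈ range n, σ i ^ 2 + 1 with hT
  have hT0 : 0 < T := by positivity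
  refine ⟨((C.K : ℝ) - n) / T, div_pos hKn hT0, fun x => ?_⟩
  set y : ℕ → ℝ := fun i => x i / σ i with hy
  have hpt : ∀ i ∈ range n, ∀ j ∈ range n,
      ((PSD.entry C.M i j : ℝ) + (if i = j then (C.K : ℝ) else 0)) * y i * y j
          - |y i| * |y j| ≤ (e i j : ℝ) * x i * x j := by
    intro i hi j hj
    have hi' := mem_range.1 hi
    have hj' := mem_range.1 hj
    obtain ⟨h1, h2⟩ := (he i hi').2 j hj'
    set v : ℝ := (e i j : ℝ) * σ i * σ j -
      ((PSD.entry C.M i j : ℝ) + (if i = j then (C.K : ℝ) else 0)) with hv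
    have hvb : |v| ≤ 1 := by
      rw [abs_le]
      have k1 := (Rat.cast_le (K := ℝ)).2 h1
      have k2 := (Rat.cast_le (K := ℝ)).2 h2
      by_cases hij : i = j
      · subst hij
        simp only [if_true] at hv k1 k2
        push_cast at k1 k2
        simp only [hv, hσ]
        constructor <;> linarith
      · simp only [if_neg hij] at hv k1 k2
        push_cast at k1 k2
        simp only [hv, hσ]
        constructor <;> linarith
    have hx : (e i j : ℝ) * x i * x j = (e i j : ℝ) * σ i * σ j * y i * y j := by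
      have := (hσpos i hi').ne'
      have := (hσpos j hj').ne'
      simp only [hy]
      field_simp
    have hb : -(|y i| * |y j|) ≤ v * y i * y j := by
      have h3 := neg_abs_le (v * y i * y j)
      rw [abs_mul, abs_mul, mul_assoc] at h3
      have h4 := mul_le_mul_of_nonneg_right hvb (by positivity : (0 : ℝ) ≤ |y i| * |y j|)
      linarith
    rw [hx, show (e i j : ℝ) * σ i * σ j =
      v + ((PSD.entry C.M i j : ℝ) + (if i = j then (C.K : ℝ) else 0)) by rw [hv]; ring]
    linarith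
  refine le_trans ?_ (Finset.sum_le_sum fun i hi => Finset.sum_le_sum fun j hj => hpt i hi j hj)
  have hM := PSD.psdCheck_sound hpsd y
  rw [hlen, PSD.form] at hM
  have hdiag : ∑ i ∈ range n, ∑ j ∈ range n,
      ((PSD.entry C.M i j : ℝ) + (if i = j then (C.K : ℝ) else 0)) * y i * y j =
      (∑ i ∈ range n, ∑ j ∈ range n, (PSD.entry C.M i j : ℝ) * y i * y j) +
        (C.K : ℝ) * ∑ i ∈ range n, y i ^ 2 := by
    simp only [add_mul, ite_mul, zero_mul, Finset.sum_add_distrib, Finset.mul_sum]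
    congr 1
    refine Finset.sum_congr rfl fun i hi => ?_
    rw [Finset.sum_ite_eq, if_pos hi]
    ring
  have habs : ∑ i ∈ range n, ∑ j ∈ range n, |y i| * |y j| ≤ n * ∑ i ∈ range n, y i ^ 2 := by
    rw [← Finset.sum_mul_sum]
    have := sq_sum_le_card_mul_sum_sq (s := range n) (f := fun i => |y i|)
    simp only [card_range, sq_abs] at this
    rw [← sq]
    exact this
  have hxy : ∑ i ∈ range n, x i ^ 2 ≤ T * ∑ i ∈ range n, y i ^ 2 := by
    rw [Finset.mul_sum]
    refine Finset.sum_le_sum fun i hi => ?_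
    have hx : x i = σ i * y i := by
      have := (hσpos i (mem_range.1 hi)).ne'
      simp only [hy]
      field_simp
    have h1 : σ i ^ 2 ≤ T := by
      have := Finset.single_le_sum (f := fun i => σ i ^ 2) (fun _ _ => sq_nonneg _) hi
      simp only [hT]
      linarith
    rw [hx, mul_pow]
    exact mul_le_mul_of_nonneg_right h1 (sq_nonneg _)
  simp only [Finset.sum_sub_distrib]
  rw [hdiag]
  have h5 := mul_le_mul_of_nonneg_left hxy (div_nonneg hKn.le hT0.le)
  rw [← mul_assoc, div_mul_cancel₀ _ hT0.ne'] at h5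
  linarith

/-- A strictly positive limit stays strictly positive. -/
theorem eventually_pos {n : ℕ} {A : ℕ → ℕ → ℕ → ℝ} {A₀ : ℕ → ℕ → ℝ} {ε : ℝ} (hε : 0 < ε)
    (h : ∀ x : ℕ → ℝ, ε * ∑ i ∈ range n, x i ^ 2 ≤
      ∑ i ∈ range n, ∑ j ∈ range n, A₀ i j * x i * x j)
    (hA : ∀ i < n, ∀ j < n, Tendsto (fun Q => A Q i j) atTop (𝓝 (A₀ i j))) :
    ∀ᶠ Q in atTop, ∀ x : ℕ → ℝ, ε / 2 * ∑ i ∈ range n, x i ^ 2 ≤
      ∑ i ∈ range n, ∑ j ∈ range n, A Q i j * x i * x j := by
  set η : ℝ := ε / (2 * ((n : ℝ) + 1)) with hη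
  have hη0 : 0 < η := by positivity
  have hev : ∀ᶠ Q in atTop, ∀ i ∈ range n, ∀ j ∈ range n, |A Q i j - A₀ i j| ≤ η := by
    simp only [Filter.eventually_all_finset]
    intro i hi j hj
    exact ((Metric.tendsto_nhds.1 (hA i (mem_range.1 hi) j (mem_range.1 hj))) η hη0).mono
      fun Q hQ => by rw [Real.dist_eq] at hQ; exact hQ.le
  filter_upwards [hev] with Q hQ x
  have h1 : ∑ i ∈ range n, ∑ j ∈ range n, A₀ i j * x i * x j -
      η * ((n : ℝ) * ∑ i ∈ range n, x i ^ 2) ≤
      ∑ i ∈ range n, ∑ j ∈ range n, A Q i j * x i * x j := by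
    have h2 : ∀ i ∈ range n, ∀ j ∈ range n,
        A₀ i j * x i * x j - η * (|x i| * |x j|) ≤ A Q i j * x i * x j := by
      intro i hi j hj
      have h3 := neg_abs_le ((A Q i j - A₀ i j) * x i * x j)
      rw [abs_mul, abs_mul, mul_assoc] at h3
      have h4 := mul_le_mul_of_nonneg_right (hQ i hi j hj)
        (by positivity : (0 : ℝ) ≤ |x i| * |x j|)
      linarith
    refine le_trans ?_ (Finset.sum_le_sum fun i hi => Finset.sum_le_sum fun j hj => h2 i hi j hj)
    simp only [Finset.sum_sub_distrib, ← Finset.mul_sum]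
    have := sq_sum_le_card_mul_sum_sq (s := range n) (f := fun i => |x i|)
    simp only [card_range, sq_abs] at this
    rw [sq, Finset.sum_mul, Finset.sum_congr rfl fun i _ => Finset.mul_sum _ _ _] at this
    simp only [← Finset.mul_sum] at this
    have h5 := mul_le_mul_of_nonneg_left this hη0.le
    linarith
  have h6 : η * ((n : ℝ) * ∑ i ∈ range n, x i ^ 2) ≤ ε / 2 * ∑ i ∈ range n, x i ^ 2 := by
    rw [← mul_assoc]
    refine mul_le_mul_of_nonneg_right ?_ (Finset.sum_nonneg fun _ _ => sq_nonneg _)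
    rw [hη, div_mul_eq_mul_div, div_le_iff₀ (by positivity)]
    nlinarith
  linarith [h x]

/-! ### Limits of the overlaps -/

theorem gInner_cross {cY Q r q r' q' : ℕ} (hr : r ≤ cY) (hr' : r ≤ Q) (hs : r' ≤ cY) (hs' : r' ≤ Q)
    (hne : r ≠ r') : gInner cY Q r q r' q' = 0 := by
  simp only [gInner, gvec, Finset.sum_mul_sum]
  rw [Finset.sum_comm_cycle]
  refine Finset.sum_eq_zero fun x' _ => ?_
  conv_lhs => arg 2; ext M; rw [Finset.sum_comm]
  rw [Finset.sum_comm]
  refine Finset.sum_eq_zero fun Y _ => ?_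
  conv_lhs => arg 2; ext M; rw [Finset.sum_comm]
  rw [Finset.sum_comm]
  refine Finset.sum_eq_zero fun Y' _ => ?_
  have h := jc_cross (a := cY) (b := Q) hr hr' hs hs' hne Y Y'
  calc ∑ M ∈ range (cY + 1), ∑ x ∈ range (Q + 1),
        Jc q (cY + Q - 2 * r) Q Y x' 0 * Jc r cY Q M x Y *
          (Jc q' (cY + Q - 2 * r') Q Y' x' 0 * Jc r' cY Q M x Y')
      = Jc q (cY + Q - 2 * r) Q Y x' 0 * Jc q' (cY + Q - 2 * r') Q Y' x' 0 *
          ∑ M ∈ range (cY + 1), ∑ x ∈ range (Q + 1), Jc r cY Q M x Y * Jc r' cY Q M x Y' := by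
        simp only [Finset.mul_sum]
        exact Finset.sum_congr rfl fun M _ => Finset.sum_congr rfl fun x _ => by ring
    _ = 0 := by rw [h, mul_zero]

theorem tendsto_gam {m : ℕ} (hm : 1 ≤ m) (a b : Option ℕ) (ha : idxLe m a = true)
    (hb : idxLe m b = true) :
    Tendsto (fun Q => gam Q m a b * (Q : ℝ) ^ m) atTop (𝓝 ((pGam m a b : ℚ) : ℝ)) := by
  rcases a with _ | r <;> rcases b with _ | r'
  · simpa [gam, pGam] using tendsto_wNorm hm
  · exact tendsto_gPair hm (by simpa [idxLe] using hb)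
  · exact tendsto_gPair hm (by simpa [idxLe] using ha)
  simp only [idxLe, decide_eq_true_eq] at ha hb
  have hG := tendsto_gExch tendsto_impChg r (m - r) r' (m - r')
  rw [show r + (m - r) = m by omega] at hG
  have hI : Tendsto (fun Q => gInner (impChg Q) Q r (m - r) r' (m - r') * (Q : ℝ) ^ m) atTop
      (𝓝 (((if r = r' then Planar.N r (m - r) else 0 : ℚ)) : ℝ)) := by
    split_ifs with h
    · subst h
      have h1 := tendsto_gInner tendsto_impChg r (m - r)
      rwa [show r + (m - r) = m by omega] at h1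
    · rw [Rat.cast_zero]
      refine tendsto_const_nhds.congr' ?_
      filter_upwards [eventually_ge_atTop (r + r' + 2)] with Q hQ
      rw [gInner_cross (by unfold impChg; omega) (by omega) (by unfold impChg; omega) (by omega) h,
        zero_mul]
  have h := (hI.sub hG).div_const 2
  simp only [pGam, gam]
  push_cast
  refine h.congr fun Q => by ring

/-! ### The cross terms -/

/-- Scaled pairing of two channels of the squares with shift `n`. -/
noncomputable def crossR (Q m : ℕ) (n : ℤ) (r r' : ℕ) : ℝ :=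
  (Q : ℝ) ^ n * (Q : ℝ) ^ m *
    gExch ((2 * (Q : ℤ) - 2 + 2 * n).toNat) Q ((r : ℤ) + n).toNat (m - r) ((r' : ℤ) + n).toNat
      (m - r') /
    ((gInner (impChg Q) Q r (m - r) r (m - r) * (Q : ℝ) ^ m) *
      (gInner (impChg Q) Q r' (m - r') r' (m - r') * (Q : ℝ) ^ m))

theorem tendsto_crossR {m : ℕ} {n : ℤ} {r r' : ℕ} (hr : r ≤ m) (hr' : r' ≤ m)
    (hn : 0 ≤ (r : ℤ) + n) :
    Tendsto (fun Q => crossR Q m n r r') atTop
      (𝓝 (((Planar.G ((r : ℤ) + n).toNat (m - r) ((r' : ℤ) + n).toNat (m - r') /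
        (Planar.N r (m - r) * Planar.N r' (m - r')) : ℚ)) : ℝ)) := by
  have h1 := tendsto_gExch (tendsto_charge n) ((r : ℤ) + n).toNat (m - r)
    ((r' : ℤ) + n).toNat (m - r')
  have h2 := tendsto_gInner tendsto_impChg r (m - r)
  have h3 := tendsto_gInner tendsto_impChg r' (m - r')
  rw [show r + (m - r) = m by omega] at h2
  rw [show r' + (m - r') = m by omega] at h3
  have hne : ((Planar.N r (m - r) : ℚ) : ℝ) * ((Planar.N r' (m - r') : ℚ) : ℝ) ≠ 0 := by
    have := Planar.N_pos r (m - r)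
    have := Planar.N_pos r' (m - r')
    positivity
  have h := h1.div (h2.mul h3) hne
  push_cast
  refine h.congr' ?_
  filter_upwards [eventually_gt_atTop 0] with Q hQ
  have hQ' : (Q : ℝ) ≠ 0 := by exact_mod_cast hQ.ne'
  have e : (Q : ℝ) ^ (((r : ℤ) + n).toNat + (m - r)) = (Q : ℝ) ^ n * (Q : ℝ) ^ m := by
    rw [← zpow_natCast, ← zpow_natCast, ← zpow_add₀ hQ']
    congr 1
    push_cast [Int.toNat_of_nonneg hn, Nat.cast_sub hr]
    ring
  simp only [Pi.div_apply, crossR, e]
  ring

theorem sum_range_getD {α β : Type*} [AddCommMonoid β] [DecidableEq α] {l : List α}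
    (hl : l.Nodup) (d : α) (f : α → β) :
    ∑ i ∈ range l.length, f (l.getD i d) = ∑ a ∈ l.toFinset, f a := by
  rw [List.sum_toFinset f hl]
  clear hl
  induction l with
  | nil => simp
  | cons a l ih =>
    rw [List.length_cons, Finset.sum_range_succ', List.map_cons, List.sum_cons, ← ih, add_comm]
    simp

theorem RL_nodup : RL.Nodup := by decide

theorem ctab_ok : ∀ i ∈ range 9, ∀ a ∈ range 11, ∀ b ∈ range 11,
    ((sqD.filter fun d => decide (d.n = NL.getD i 0)).map fun d =>
      bVal d (RL.getD a 0) * bVal d (RL.getD b 0)).sum = cTab i a b := by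
  decide +kernel

theorem data_shift : ∀ d ∈ sqD, -3 ≤ d.n ∧ d.n ≤ 5 := by
  intro d hd
  have h := List.all_eq_true.1 data_ok.2 d hd
  simp only [Bool.and_eq_true, decide_eq_true_eq] at h
  exact ⟨h.1.1.1, h.1.1.2⟩

theorem NL_getD (i : ℕ) (hi : i < 9) : NL.getD i 0 = (i : ℤ) - 3 := by
  interval_cases i <;> rfl

theorem fiber (L : List SqD) (hL : ∀ d ∈ L, -3 ≤ d.n ∧ d.n ≤ 5) (f : ℤ → ℝ) (g : SqD → ℚ) :
    (L.map fun d => f d.n * (g d : ℝ)).sum = ∑ i ∈ range 9, f (NL.getD i 0) *
      ((((L.filter fun d => decide (d.n = NL.getD i 0)).map g).sum : ℚ) : ℝ) := by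
  induction L with
  | nil => simp
  | cons d L ih =>
    rw [List.map_cons, List.sum_cons, ih fun e he => hL e (List.mem_cons_of_mem _ he)]
    obtain ⟨h1, h2⟩ := hL d (List.mem_cons_self ..)
    have hi : (d.n + 3).toNat ∈ range 9 := by simp only [mem_range]; omega
    have hk : NL.getD (d.n + 3).toNat 0 = d.n := by
      rw [NL_getD _ (mem_range.1 hi), Int.toNat_of_nonneg (by omega)]
      omega
    have he : ∀ i ∈ range 9, f (NL.getD i 0) *
        ((((( d :: L).filter fun d => decide (d.n = NL.getD i 0)).map g).sum : ℚ) : ℝ) =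
        (if i = (d.n + 3).toNat then f d.n * (g d : ℝ) else 0) + f (NL.getD i 0) *
          ((((L.filter fun d => decide (d.n = NL.getD i 0)).map g).sum : ℚ) : ℝ) := by
      intro i hi'
      have hi'' := mem_range.1 hi'
      by_cases h : d.n = NL.getD i 0
      · have : i = (d.n + 3).toNat := by rw [NL_getD i hi''] at h; omega
        rw [if_pos this, List.filter_cons_of_pos (by simpa using h), List.map_cons, List.sum_cons,
          Rat.cast_add, ← h]
        ring
      · have : i ≠ (d.n + 3).toNat := fun e => h (by rw [e, hk])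
        rw [if_neg this, List.filter_cons_of_neg (by simpa using h), zero_add]
    rw [Finset.sum_congr rfl he, Finset.sum_add_distrib, Finset.sum_ite_eq', if_pos hi]

/-- The cross matrix at flux `Q`, at positions of `RL`. -/
noncomputable def crossX (Q m a b : ℕ) : ℝ :=
  let r := RL.getD a 0
  let r' := RL.getD b 0
  if r ≤ m ∧ r' ≤ m then
    (sqD.map fun d =>
      (if 0 ≤ (r : ℤ) + d.n ∧ 0 ≤ (r' : ℤ) + d.n then crossR Q m d.n r r' else 0) *
        ((bVal d r * bVal d r' : ℚ) : ℝ)).sum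
  else 0

theorem tendsto_crossX {m a b : ℕ} (ha : a < 11) (hb : b < 11) :
    Tendsto (fun Q => crossX Q m a b) atTop (𝓝 ((pX m a b : ℚ) : ℝ)) := by
  simp only [crossX, pX]
  by_cases h : RL.getD a 0 ≤ m ∧ RL.getD b 0 ≤ m
  · simp only [if_pos h]
    refine Tendsto.congr (fun Q => (fiber sqD data_shift (fun n =>
      if 0 ≤ ((RL.getD a 0 : ℕ) : ℤ) + n ∧ 0 ≤ ((RL.getD b 0 : ℕ) : ℤ) + n then
        crossR Q m n (RL.getD a 0) (RL.getD b 0) else 0)
      (fun d => bVal d (RL.getD a 0) * bVal d (RL.getD b 0))).symm) ?_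
    have e : ∀ g : ℕ → ℚ, (((List.range 9).map g).sum : ℚ) = ∑ i ∈ range 9, g i := fun g => rfl
    rw [e, Rat.cast_sum]
    refine tendsto_finsetSum _ fun i hi => ?_
    rw [ctab_ok i hi a (mem_range.2 ha) b (mem_range.2 hb)]
    by_cases hn : 0 ≤ ((RL.getD a 0 : ℕ) : ℤ) + NL.getD i 0 ∧
        0 ≤ ((RL.getD b 0 : ℕ) : ℤ) + NL.getD i 0
    · simp only [if_pos hn]
      have h1 := (tendsto_crossR h.1 h.2 hn.1 (n := NL.getD i 0)).mul_const ((cTab i a b : ℚ) : ℝ)
      refine Eq.subst (motive := fun z => Tendsto _ atTop (𝓝 z)) ?_ h1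
      push_cast
      ring
    · simp only [if_neg hn, zero_mul, Rat.cast_zero]
      exact tendsto_const_nhds
  · simp only [if_neg h, Rat.cast_zero]
    exact tendsto_const_nhds

theorem crossForm_cert (Q m : ℕ) (v : ℕ → ℝ) (hQ : (Q : ℝ) ≠ 0) :
    (certSq.map fun t => t.crossForm Q m v).sum * (Q : ℝ) ^ m =
      ∑ a ∈ range 11, ∑ b ∈ range 11, crossX Q m a b *
        (v (RL.getD a 0) * (Q : ℝ) ^ m) * (v (RL.getD b 0) * (Q : ℝ) ^ m) := by
  have hS : ∀ (d : SqD) (f : ℕ → ℝ), ∑ r ∈ d.toSq.S, f r =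
      ∑ a ∈ range 11, if 0 ≤ ((RL.getD a 0 : ℕ) : ℤ) + d.n then f (RL.getD a 0) else 0 := by
    intro d f
    have : d.toSq.S = RL.toFinset.filter (fun r : ℕ => 0 ≤ (r : ℤ) + d.n) := by
      ext r
      simp [SqD.toSq]
    rw [this, Finset.sum_filter, ← sum_range_getD RL_nodup 0]
    rfl
  have hpt : ∀ d : SqD, d.toSq.crossForm Q m v * (Q : ℝ) ^ m =
      ∑ a ∈ range 11, ∑ b ∈ range 11,
        (if RL.getD a 0 ≤ m ∧ RL.getD b 0 ≤ m then
          (if 0 ≤ ((RL.getD a 0 : ℕ) : ℤ) + d.n ∧ 0 ≤ ((RL.getD b 0 : ℕ) : ℤ) + d.n then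
            crossR Q m d.n (RL.getD a 0) (RL.getD b 0) else 0) *
          ((bVal d (RL.getD a 0) * bVal d (RL.getD b 0) : ℚ) : ℝ) else 0) *
        (v (RL.getD a 0) * (Q : ℝ) ^ m) * (v (RL.getD b 0) * (Q : ℝ) ^ m) := by
    intro d
    rw [Sq.crossForm, hS, Finset.sum_mul]
    refine Finset.sum_congr rfl fun a _ => ?_
    by_cases ha : 0 ≤ ((RL.getD a 0 : ℕ) : ℤ) + d.n
    swap
    · rw [if_neg ha, zero_mul, Finset.sum_eq_zero fun b _ => ?_]
      split_ifs with h1 h2
      · exact absurd h2.1 ha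
      all_goals ring
    rw [if_pos ha, hS, Finset.sum_mul]
    refine Finset.sum_congr rfl fun b _ => ?_
    by_cases hb : 0 ≤ ((RL.getD b 0 : ℕ) : ℤ) + d.n
    swap
    · rw [if_neg hb, zero_mul]
      split_ifs with h1 h2
      · exact absurd h2.2 hb
      all_goals ring
    rw [if_pos hb]
    by_cases hm : RL.getD a 0 ≤ m ∧ RL.getD b 0 ≤ m
    · rw [if_pos hm, if_pos hm, if_pos ⟨ha, hb⟩]
      have hQm : (Q : ℝ) ^ m ≠ 0 := pow_ne_zero _ hQ
      simp only [crossR, SqD.toSq, Sq.outChg, Sq.outCh]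
      push_cast
      field_simp
    · rw [if_neg hm, if_neg hm]
      ring
  rw [certSq, List.map_map]
  calc ((sqD.map ((fun t => t.crossForm Q m v) ∘ SqD.toSq)).sum) * (Q : ℝ) ^ m
      = (sqD.map fun d => d.toSq.crossForm Q m v * (Q : ℝ) ^ m).sum := by
        rw [← List.sum_map_mul_right]; rfl
    _ = _ := by
        simp only [hpt, crossX]
        generalize sqD = L
        induction L with
        | nil => simp
        | cons d L ih =>
          rw [List.map_cons, List.sum_cons, ih, ← Finset.sum_add_distrib]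
          refine Finset.sum_congr rfl fun a _ => ?_
          rw [← Finset.sum_add_distrib]
          refine Finset.sum_congr rfl fun b _ => ?_
          simp only [List.map_cons, List.sum_cons]
          split_ifs <;> ring

/-! ### One checked block -/

theorem mem_rows (L : List SqD) {m r : ℕ}
    (hr : r ∈ (((L.map SqD.toSq).map Sq.S).foldr (· ∪ ·) deadCh)) :
    some r ∈ rowIdx ∧ (r ≤ m → idxLe m (some r) = true) := by
  refine ⟨?_, fun h => by simpa [idxLe] using h⟩
  have : ∀ L : List SqD, r ∈ ((L.map SqD.toSq).map Sq.S).foldr (· ∪ ·) deadCh →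
      some r ∈ rowIdx := by
    intro L
    induction L with
    | nil =>
      intro h
      simp only [List.map_nil, List.foldr_nil, deadCh, Finset.mem_insert, Finset.mem_singleton] at h
      rcases h with rfl | rfl | rfl <;> decide
    | cons d L ih =>
      intro h
      simp only [List.map_cons, List.foldr_cons, Finset.mem_union] at h
      rcases h with h | h
      · simp only [SqD.toSq, List.mem_toFinset, List.mem_filter] at h
        exact List.mem_append_right _ (List.mem_map.2 ⟨r, h.1, rfl⟩)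
      · exact ih h
  exact this L hr

theorem adm_cert {Q : ℕ} (hQ : 40 ≤ Q) : ∀ t ∈ certSq, -(Q : ℤ) < t.n ∧
    ∀ r ∈ t.S, 0 ≤ (r : ℤ) + t.n ∧ 2 * r ≤ Q ∧ 2 * ((r : ℤ) + t.n) ≤ Q := by
  intro t ht
  obtain ⟨d, hd, rfl⟩ := List.mem_map.1 ht
  have hn := data_shift d hd
  refine ⟨by simp only [SqD.toSq]; omega, fun r hr => ?_⟩
  simp only [SqD.toSq, List.mem_toFinset, List.mem_filter, decide_eq_true_eq] at hr
  obtain ⟨h1, h2⟩ := hr
  have : r ≤ 13 := (by decide : ∀ r ∈ RL, r ≤ 13) r h1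
  simp only [SqD.toSq]
  omega

variable (B : Blk)

/-- The penalties at flux `Q`. -/
noncomputable def Blk.lamQ (Q : ℕ) (a : Option ℕ) : ℝ :=
  if penOn B.m a then ((B.lam.getD (penIdx.idxOf a) 0 : ℚ) : ℝ) * (Q : ℝ) ^ B.m else 0

/-- The scaled overlap of the row `i` with the column `b`. -/
noncomputable def Blk.UQ (Q i b : ℕ) : ℝ :=
  if idxLe B.m (rowIdx.getD i none) then
    gam Q B.m (rowIdx.getD i none) (B.J.getD b none) * (Q : ℝ) ^ B.m
  else 0

/-- The limit of `UQ`. -/
noncomputable def Blk.U0 (i b : ℕ) : ℝ :=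
  if idxLe B.m (rowIdx.getD i none) then ((qEntry B.U i b : ℚ) : ℝ) else 0

/-- The matrix of `Q ^ m • blockForm`. -/
noncomputable def Blk.AQ (Q a b : ℕ) : ℝ :=
  (B.s : ℝ) * (gam Q B.m (B.J.getD a none) (B.J.getD b none) * (Q : ℝ) ^ B.m)
    + B.UQ Q 3 a * B.UQ Q 3 b / (wNorm Q B.m * (Q : ℝ) ^ B.m)
    + 2 * ∑ i ∈ range 11, ∑ j ∈ range 11, crossX Q B.m i j * B.UQ Q (4 + i) a * B.UQ Q (4 + j) b
    + ∑ k ∈ range 4, if penOn B.m (penIdx.getD k none) then
        ((B.lam.getD k 0 : ℚ) : ℝ) * B.UQ Q k a * B.UQ Q k b else 0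

variable {B}

theorem rowIdx_row {i : ℕ} (hi : i < 11) :
    rowIdx.getD (4 + i) none = some (RL.getD i 0) := by
  interval_cases i <;> rfl

theorem penOn_le {m : ℕ} {a : Option ℕ} (h : penOn m a = true) : idxLe m a = true := by
  cases a with
  | none => rfl
  | some r => exact h

theorem tendsto_AQ (h : B.ok = true) {a b : ℕ} (ha : a < B.J.length) (hb : b < B.J.length) :
    Tendsto (fun Q => B.AQ Q a b) atTop (𝓝 ((B.entry a b : ℚ) : ℝ)) := by
  simp only [Blk.ok, Bool.and_eq_true, decide_eq_true_eq] at h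
  obtain ⟨⟨⟨⟨⟨⟨hm, -⟩, -⟩, hJ⟩, htab⟩, -⟩, -⟩ := h
  simp only [Blk.tablesOk, Bool.and_eq_true, List.all_eq_true, List.mem_range, Bool.or_eq_true,
    Bool.not_eq_true', decide_eq_true_eq] at htab
  obtain ⟨⟨hU, hXU⟩, hGJ⟩ := htab
  have hJle : ∀ c < B.J.length, idxLe B.m (B.J.getD c none) = true := by
    intro c hc
    refine List.all_eq_true.1 hJ _ ?_
    rw [List.getD_eq_getElem _ _ hc]
    exact List.getElem_mem hc
  have hUlim : ∀ i < 15, ∀ c < B.J.length,
      Tendsto (fun Q => B.UQ Q i c) atTop (𝓝 (B.U0 i c)) := by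
    intro i hi c hc
    simp only [Blk.UQ, Blk.U0]
    by_cases hle : idxLe B.m (rowIdx.getD i none) = true
    · simp only [hle, if_true]
      rcases hU i (by simpa [rowIdx, penIdx, RL] using hi) c hc with h1 | h1
      · rw [hle] at h1; exact absurd h1 (by simp)
      · rw [h1]
        exact tendsto_gam hm _ _ hle (hJle c hc)
    · simp only [hle, Bool.false_eq_true, if_false]
      exact tendsto_const_nhds
  have h1 := (tendsto_gam hm _ _ (hJle a ha) (hJle b hb)).const_mul (B.s : ℝ)
  rw [← hGJ a ha b hb] at h1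
  have hw := tendsto_wNorm hm
  have hw0 : (2 : ℝ) * ((B.m - 1).factorial : ℝ) ≠ 0 := by positivity
  have h2 := ((hUlim 3 (by norm_num) a ha).mul (hUlim 3 (by norm_num) b hb)).div hw hw0
  have h3 := (tendsto_finsetSum (range 11) fun i hi => tendsto_finsetSum (range 11) fun j hj =>
    ((tendsto_crossX (m := B.m) (mem_range.1 hi) (mem_range.1 hj)).mul
      (hUlim (4 + i) (by have := mem_range.1 hi; omega) a ha)).mul
      (hUlim (4 + j) (by have := mem_range.1 hj; omega) b hb)).const_mul (2 : ℝ)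
  have h4 : Tendsto (fun Q => ∑ k ∈ range 4, if penOn B.m (penIdx.getD k none) then
      ((B.lam.getD k 0 : ℚ) : ℝ) * B.UQ Q k a * B.UQ Q k b else 0) atTop
      (𝓝 (∑ k ∈ range 4, if penOn B.m (penIdx.getD k none) then
        ((B.lam.getD k 0 : ℚ) : ℝ) * B.U0 k a * B.U0 k b else 0)) := by
    refine tendsto_finsetSum _ fun k hk => ?_
    have hk' := mem_range.1 hk
    split_ifs
    · exact (((hUlim k (by omega) a ha)).const_mul _).mul (hUlim k (by omega) b hb)
    · exact tendsto_const_nhds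
  have h5 := ((h1.add h2).add h3).add h4
  refine Eq.subst (motive := fun z => Tendsto _ atTop (𝓝 z)) ?_ h5
  have e : ∀ (n : ℕ) (g : ℕ → ℚ), ((List.range n).map g).sum = ∑ i ∈ range n, g i := fun _ _ => rfl
  simp only [Blk.entry, e, show RL.length = 11 from rfl]
  push_cast
  have hX : ∀ i ∈ range 11, ∑ j ∈ range 11, ((pX B.m i j : ℚ) : ℝ) * B.U0 (4 + i) a * B.U0 (4 + j) b =
      ((qEntry B.U (4 + i) a : ℚ) : ℝ) * ((qEntry B.XU i b : ℚ) : ℝ) := by
    intro i hi
    rw [hXU i (mem_range.1 hi) b hb, e, Rat.cast_sum, Finset.mul_sum]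
    refine Finset.sum_congr rfl fun j hj => ?_
    by_cases hle : RL.getD i 0 ≤ B.m ∧ RL.getD j 0 ≤ B.m
    · simp only [Blk.U0, rowIdx_row (mem_range.1 hi),
        rowIdx_row (show j < 11 from mem_range.1 hj), idxLe, decide_eq_true_eq, hle.1, hle.2,
        if_true]
      push_cast
      ring
    · simp only [pX, if_neg hle]
      simp
  have hpen : ∀ k ∈ range 4, (if penOn B.m (penIdx.getD k none) then
      ((B.lam.getD k 0 : ℚ) : ℝ) * B.U0 k a * B.U0 k b else 0) =
      ((if penOn B.m (penIdx.getD k none) then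
        B.lam.getD k 0 * qEntry B.U k a * qEntry B.U k b else 0 : ℚ) : ℝ) := by
    intro k hk
    have hr : rowIdx.getD k none = penIdx.getD k none := by
      have := mem_range.1 hk
      interval_cases k <;> rfl
    split_ifs with hp
    · simp only [Blk.U0, hr, penOn_le hp, if_true]
      push_cast
      ring
    · simp
  have h3' : rowIdx.getD 3 none = none := rfl
  rw [Finset.sum_congr rfl hX, Finset.sum_congr rfl hpen]
  simp only [Blk.U0, h3', idxLe, if_true]

theorem blockForm_scaled {Q : ℕ} (hQ : 0 < Q) (hJ : B.J.Nodup) (c : Option ℕ → ℝ) :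
    blockForm certSq Q B.m (B.s : ℝ) (B.lamQ Q) B.J.toFinset c * (Q : ℝ) ^ B.m =
      ∑ a ∈ range B.J.length, ∑ b ∈ range B.J.length,
        B.AQ Q a b * c (B.J.getD a none) * c (B.J.getD b none) := by
  have hQ' : (Q : ℝ) ≠ 0 := by exact_mod_cast hQ.ne'
  set n := B.J.length with hn
  set x : ℕ → ℝ := fun i => c (B.J.getD i none) with hx
  have hv : ∀ a, (∑ b ∈ B.J.toFinset, gam Q B.m a b * c b) =
      ∑ i ∈ range n, gam Q B.m a (B.J.getD i none) * x i := fun a =>
    (sum_range_getD hJ none fun b => gam Q B.m a b * c b).symm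
  have hs : (∑ a ∈ B.J.toFinset, ∑ b ∈ B.J.toFinset, c a * c b * gam Q B.m a b) =
      ∑ i ∈ range n, ∑ j ∈ range n, x i * x j * gam Q B.m (B.J.getD i none) (B.J.getD j none) := by
    rw [← sum_range_getD hJ none]
    exact Finset.sum_congr rfl fun i _ => (sum_range_getD hJ none fun b =>
      c (B.J.getD i none) * c b * gam Q B.m (B.J.getD i none) b).symm
  have hUv : ∀ i, idxLe B.m (rowIdx.getD i none) = true →
      (∑ b ∈ range n, gam Q B.m (rowIdx.getD i none) (B.J.getD b none) * x b) * (Q : ℝ) ^ B.m =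
        ∑ b ∈ range n, B.UQ Q i b * x b := by
    intro i hle
    rw [Finset.sum_mul]
    refine Finset.sum_congr rfl fun b _ => ?_
    simp only [Blk.UQ, hle, if_true]
    ring
  have hsq : ∀ (f : ℕ → ℝ) (k : ℝ), k * (∑ a ∈ range n, f a * x a) * (∑ b ∈ range n, f b * x b) =
      ∑ a ∈ range n, ∑ b ∈ range n, k * f a * f b * x a * x b := by
    intro f k
    rw [mul_assoc, Finset.sum_mul_sum, Finset.mul_sum]
    refine Finset.sum_congr rfl fun a _ => ?_
    rw [Finset.mul_sum]
    exact Finset.sum_congr rfl fun b _ => by ring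
  set P := fun r => ∑ a ∈ range n, gam Q B.m (some r) (B.J.getD a none) * x a with hP
  -- the four parts
  have e1 : (B.s : ℝ) * (∑ i ∈ range n, ∑ j ∈ range n,
      x i * x j * gam Q B.m (B.J.getD i none) (B.J.getD j none)) * (Q : ℝ) ^ B.m =
      ∑ a ∈ range n, ∑ b ∈ range n,
        ((B.s : ℝ) * (gam Q B.m (B.J.getD a none) (B.J.getD b none) * (Q : ℝ) ^ B.m)) *
          x a * x b := by
    simp only [Finset.mul_sum, Finset.sum_mul]
    exact Finset.sum_congr rfl fun i _ => Finset.sum_congr rfl fun j _ => by ring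
  have e2 : (∑ a ∈ range n, gam Q B.m none (B.J.getD a none) * x a) ^ 2 / wNorm Q B.m *
      (Q : ℝ) ^ B.m = ∑ a ∈ range n, ∑ b ∈ range n,
        (B.UQ Q 3 a * B.UQ Q 3 b / (wNorm Q B.m * (Q : ℝ) ^ B.m)) * x a * x b := by
    have hle : idxLe B.m (rowIdx.getD 3 none) = true := rfl
    have h := hsq (fun a => B.UQ Q 3 a) (1 / (wNorm Q B.m * (Q : ℝ) ^ B.m))
    rw [← hUv 3 hle] at h
    rw [show rowIdx.getD 3 none = (none : Option ℕ) from rfl] at h
    refine Eq.trans ?_ (h.trans (Finset.sum_congr rfl fun a _ => Finset.sum_congr rfl fun b _ => by ring))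
    have hQm : (Q : ℝ) ^ B.m ≠ 0 := pow_ne_zero _ hQ'
    field_simp
  have e3 : 2 * (certSq.map fun t => t.crossForm Q B.m P).sum * (Q : ℝ) ^ B.m =
      ∑ a ∈ range n, ∑ b ∈ range n, (2 * ∑ i ∈ range 11, ∑ j ∈ range 11,
        crossX Q B.m i j * B.UQ Q (4 + i) a * B.UQ Q (4 + j) b) * x a * x b := by
    rw [mul_assoc, crossForm_cert Q B.m P hQ']
    simp only [Finset.mul_sum, Finset.sum_mul]
    rw [Finset.sum_congr rfl fun i _ => Finset.sum_congr rfl fun j hj => ?_]
    rotate_left
    · exact fun i j => ∑ a ∈ range n, ∑ b ∈ range n,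
        2 * (crossX Q B.m i j * B.UQ Q (4 + i) a * B.UQ Q (4 + j) b) * x a * x b
    · by_cases hle : RL.getD i 0 ≤ B.m ∧ RL.getD j 0 ≤ B.m
      · have hi : i < 11 := mem_range.1 ‹_›
        have a1 := hUv (4 + i) (by rw [rowIdx_row hi]; simpa [idxLe] using hle.1)
        have a2 := hUv (4 + j) (by rw [rowIdx_row (mem_range.1 hj)]; simpa [idxLe] using hle.2)
        rw [rowIdx_row hi] at a1
        rw [rowIdx_row (mem_range.1 hj)] at a2
        rw [show P (RL.getD i 0) * (Q : ℝ) ^ B.m = _ from a1,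
          show P (RL.getD j 0) * (Q : ℝ) ^ B.m = _ from a2]
        simp only [Finset.mul_sum, Finset.sum_mul]
        rw [Finset.sum_comm]
        exact Finset.sum_congr rfl fun a _ => Finset.sum_congr rfl fun b _ => by ring
      · have : crossX Q B.m i j = 0 := by simp only [crossX, if_neg hle]
        simp [this]
    rw [Finset.sum_comm_cycle]
    refine Finset.sum_congr rfl fun a _ => ?_
    rw [Finset.sum_comm_cycle]
  have e4 : ((∑ r ∈ deadCh, B.lamQ Q (some r) * P r ^ 2) +
      (if Even B.m then B.lamQ Q none *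
        (∑ a ∈ range n, gam Q B.m none (B.J.getD a none) * x a) ^ 2 else 0)) * (Q : ℝ) ^ B.m =
      ∑ a ∈ range n, ∑ b ∈ range n, (∑ k ∈ range 4, if penOn B.m (penIdx.getD k none) then
        ((B.lam.getD k 0 : ℚ) : ℝ) * B.UQ Q k a * B.UQ Q k b else 0) * x a * x b := by
    simp only [Finset.sum_mul]
    rw [Finset.sum_congr rfl fun a _ => Finset.sum_comm, Finset.sum_comm]
    have hk : ∀ k ∈ range 4,
        (∑ a ∈ range n, ∑ b ∈ range n, (if penOn B.m (penIdx.getD k none) then
          ((B.lam.getD k 0 : ℚ) : ℝ) * B.UQ Q k a * B.UQ Q k b else 0) * x a * x b) =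
        B.lamQ Q (penIdx.getD k none) *
          (∑ a ∈ range n, gam Q B.m (penIdx.getD k none) (B.J.getD a none) * x a) ^ 2 *
          (Q : ℝ) ^ B.m := by
      intro k hk
      have hk' := mem_range.1 hk
      have hr : rowIdx.getD k none = penIdx.getD k none := by interval_cases k <;> rfl
      have hidx : penIdx.idxOf (penIdx.getD k none) = k := by interval_cases k <;> rfl
      by_cases hp : penOn B.m (penIdx.getD k none) = true
      · simp only [Blk.lamQ, hp, if_true, hidx]
        have h := hsq (fun a => B.UQ Q k a) ((B.lam.getD k 0 : ℚ) : ℝ)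
        rw [← hUv k (by rw [hr]; exact penOn_le hp), hr] at h
        rw [← h]
        ring
      · simp only [Blk.lamQ, if_neg hp, zero_mul, Finset.sum_const_zero]
    rw [Finset.sum_congr rfl hk]
    simp only [Finset.sum_range_succ, Finset.sum_range_zero, zero_add, penIdx, List.getD_cons_zero,
      List.getD_cons_succ, deadCh, hP]
    rw [Finset.sum_insert (by decide), Finset.sum_insert (by decide), Finset.sum_singleton]
    have hev : (if Even B.m then B.lamQ Q none *
        (∑ a ∈ range n, gam Q B.m none (B.J.getD a none) * x a) ^ 2 else 0) =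
        B.lamQ Q none * (∑ a ∈ range n, gam Q B.m none (B.J.getD a none) * x a) ^ 2 := by
      split_ifs with he
      · rfl
      · have : penOn B.m none = false := by
          simp only [penOn, decide_eq_false_iff_not]
          exact fun e => he (Nat.even_iff.2 e)
        simp [Blk.lamQ, this]
    rw [hev]
    ring
  have hAQ : ∀ a b, B.AQ Q a b * x a * x b =
      ((B.s : ℝ) * (gam Q B.m (B.J.getD a none) (B.J.getD b none) * (Q : ℝ) ^ B.m)) * x a * x b +
      (B.UQ Q 3 a * B.UQ Q 3 b / (wNorm Q B.m * (Q : ℝ) ^ B.m)) * x a * x b +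
      (2 * ∑ i ∈ range 11, ∑ j ∈ range 11,
        crossX Q B.m i j * B.UQ Q (4 + i) a * B.UQ Q (4 + j) b) * x a * x b +
      (∑ k ∈ range 4, if penOn B.m (penIdx.getD k none) then
        ((B.lam.getD k 0 : ℚ) : ℝ) * B.UQ Q k a * B.UQ Q k b else 0) * x a * x b := by
    intro a b
    simp only [Blk.AQ]
    ring
  show _ = ∑ a ∈ range n, ∑ b ∈ range n, B.AQ Q a b * x a * x b
  simp only [hAQ, Finset.sum_add_distrib, ← e1, ← e2, ← e3, ← e4]
  simp only [blockForm, hs, hv, hP]
  ring

set_option linter.constructorNameAsVariable false in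
/-- **A checked block bounds its degree at all large fluxes.** -/
theorem Blk.rangeBound (B : Blk) (h : B.ok = true) :
    ∀ᶠ Q in atTop, RangeBound certSq Q B.m (B.s : ℝ) := by
  have hok := h
  simp only [Blk.ok, Bool.and_eq_true, decide_eq_true_eq] at h
  obtain ⟨⟨⟨⟨⟨⟨hm, hs⟩, hJ⟩, hJle⟩, htab⟩, hblock⟩, hgram⟩ := h
  obtain ⟨ε, hε, hpos⟩ := posCert_sound hblock
  have hA := eventually_pos (A := fun Q a b => B.AQ Q a b) hε hpos
    (fun a ha b hb => tendsto_AQ hok ha hb)
  have hspan : ∀ᶠ Q in atTop, blockIdx certSq B.m ⊆ B.J.toFinset ∨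
      (B.J.toFinset.card = (B.m + 1) / 2 ∧ ∀ c : Option ℕ → ℝ, (∃ a ∈ B.J.toFinset, c a ≠ 0) →
        0 < ∑ a ∈ B.J.toFinset, ∑ b ∈ B.J.toFinset, c a * c b * gam Q B.m a b) := by
    rcases hg : B.gram with _ | C
    · rw [hg] at hgram
      simp only [List.all_eq_true, Bool.or_eq_true, Bool.not_eq_true',
        List.contains_iff_mem] at hgram
      refine Eventually.of_forall fun Q => Or.inl fun a ha => ?_
      simp only [blockIdx, Finset.mem_insert, Finset.mem_image, Finset.mem_filter] at ha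
      rw [List.mem_toFinset]
      rcases ha with rfl | ⟨r, ⟨hr, hrm⟩, rfl⟩
      · simpa [idxLe] using hgram none (by decide)
      · rw [certSq] at hr
        revert hr
        generalize sqD = L
        intro hr
        obtain ⟨h1, h2⟩ := mem_rows L (m := B.m) hr
        rcases hgram _ h1 with h3 | h3
        · rw [h2 hrm] at h3; exact absurd h3 (by simp)
        · exact h3
    · rw [hg] at hgram
      simp only [Bool.and_eq_true, decide_eq_true_eq] at hgram
      obtain ⟨hlen, hC⟩ := hgram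
      obtain ⟨δ, hδ, hposG⟩ := posCert_sound hC
      simp only [Blk.tablesOk, Bool.and_eq_true, List.all_eq_true, List.mem_range,
        decide_eq_true_eq] at htab
      have hG := eventually_pos
        (A := fun Q a b => gam Q B.m (B.J.getD a none) (B.J.getD b none) * (Q : ℝ) ^ B.m) hδ hposG
        (fun a ha b hb => by
          rw [htab.2 a ha b hb]
          refine tendsto_gam hm _ _ ?_ ?_ <;>
          · refine List.all_eq_true.1 hJle _ ?_
            first
              | (rw [List.getD_eq_getElem _ _ ha]; exact List.getElem_mem ha)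
              | (rw [List.getD_eq_getElem _ _ hb]; exact List.getElem_mem hb))
      filter_upwards [hG, eventually_gt_atTop 0] with Q hQ hQ0
      refine Or.inr ⟨by rw [List.toFinset_card_of_nodup hJ, hlen], fun c hc => ?_⟩
      have h1 := hQ fun i => c (B.J.getD i none)
      have hsum : 0 < ∑ i ∈ range B.J.length, c (B.J.getD i none) ^ 2 := by
        rw [sum_range_getD hJ none fun a => c a ^ 2]
        obtain ⟨a, ha, hne⟩ := hc
        exact Finset.sum_pos' (fun _ _ => sq_nonneg _) ⟨a, ha, by positivity⟩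
      have e : ∑ i ∈ range B.J.length, ∑ j ∈ range B.J.length,
          gam Q B.m (B.J.getD i none) (B.J.getD j none) * (Q : ℝ) ^ B.m *
            c (B.J.getD i none) * c (B.J.getD j none) =
          (∑ a ∈ B.J.toFinset, ∑ b ∈ B.J.toFinset, c a * c b * gam Q B.m a b) *
            (Q : ℝ) ^ B.m := by
        rw [← sum_range_getD hJ none, Finset.sum_mul]
        refine Finset.sum_congr rfl fun i _ => ?_
        rw [← sum_range_getD hJ none, Finset.sum_mul]
        exact Finset.sum_congr rfl fun j _ => by ring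
      rw [e] at h1
      have h2 : 0 < (∑ a ∈ B.J.toFinset, ∑ b ∈ B.J.toFinset, c a * c b * gam Q B.m a b) *
          (Q : ℝ) ^ B.m := lt_of_lt_of_le (mul_pos (half_pos hδ) hsum) h1
      exact pos_of_mul_pos_left h2 (by positivity)
  filter_upwards [hA, hspan, eventually_ge_atTop (B.m + 40)] with Q hA hspan hQ
  have hQ0 : 0 < Q := by omega
  refine rangeBound_of_blockForm (by omega) (by omega) certSq (adm_cert (by omega)) (B.s : ℝ)
    (by exact_mod_cast hs) B.J.toFinset ?_ hspan (B.lamQ Q) fun c => ?_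
  · intro r hr
    rw [List.mem_toFinset] at hr
    simpa [idxLe] using List.all_eq_true.1 hJle _ hr
  · have h1 := hA fun i => c (B.J.getD i none)
    rw [← blockForm_scaled hQ0 hJ c] at h1
    have h2 : 0 ≤ ε / 2 * ∑ i ∈ range B.J.length, c (B.J.getD i none) ^ 2 :=
      mul_nonneg (by positivity) (Finset.sum_nonneg fun _ _ => sq_nonneg _)
    exact nonneg_of_mul_nonneg_left (le_trans h2 h1) (by positivity)

end Vale.Agent.P359.Gap.Cert
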